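import Vale.Agent.P297.H160.ThreeDefs

/-!
The surfaces with `ℤ/3`-torsion: the second square root of the dihedral extension, and the curve
on which the pencil is restricted.
-/

namespace Vale.Agent.P297.H160

section

variable {R : Type*} [CommRing R]

/-- the quadric form `Q_R` with the denominators cleared -/
def z3RR (c d₁ d₂ e g v l : R) : R :=
  (z3m d₁ d₂ v - 2 * c) * z3Dn c d₁ d₂ g v l ^ 2 -
    2 * v * z3Nn c d₁ d₂ e v l * z3Dn c d₁ d₂ g v l - 3 * z3Nn c d₁ d₂ e v l ^ 2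

/-- the first square: `Y² = Ψ(v, l)` -/
def z3Psi (c d₁ d₂ e g v l : R) : R :=
  z3phi c d₁ d₂ e g v * (z3phi c d₁ d₂ e g v * z3C c d₁ d₂ e g v l ^ 2 - 4 * z3D c e g v l ^ 3)

/-- the second square: `Z² = Δ(v, l)` -/
def z3Delta (c d₁ d₂ e g v l : R) : R :=
  z3phi c d₁ d₂ e g v * ((d₂ * v + d₁ - 2 * c) *
    (z3phi c d₁ d₂ e g v * z3C c d₁ d₂ e g v l ^ 2 - 4 * z3D c e g v l ^ 3) -
      z3phi c d₁ d₂ e g v * z3Qo c d₁ d₂ v l * z3RR c d₁ d₂ e g v l)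

theorem z3_kappa (c d₁ d₂ v l : R) :
    d₂ * v + d₁ - 2 * c = (v - l) ^ 2 + z3Qo c d₁ d₂ v l := by
  unfold z3Qo z3m
  ring

/-- The second square root. -/
theorem z3_Z_sq (c d₁ d₂ e g v r t θ l Y : R)
    (hQ : z3QR c d₁ d₂ v r + θ ^ 2 * z3Qo c d₁ d₂ v t = 0)
    (hr : r * z3Dn c d₁ d₂ g v l + z3Nn c d₁ d₂ e v l = 0)
    (hY : Y = z3phi c d₁ d₂ e g v * z3Dn c d₁ d₂ g v l * (θ * (t - l)))
    (hY2 : Y ^ 2 = z3Psi c d₁ d₂ e g v l) :
    (z3phi c d₁ d₂ e g v * z3Dn c d₁ d₂ g v l * z3Qo c d₁ d₂ v l * θ + (v - l) * Y) ^ 2 =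
      z3Delta c d₁ d₂ e g v l := by
  have h1 : z3Delta c d₁ d₂ e g v l = ((v - l) ^ 2 + z3Qo c d₁ d₂ v l) * Y ^ 2 -
      z3phi c d₁ d₂ e g v ^ 2 * z3Qo c d₁ d₂ v l *
        (z3Dn c d₁ d₂ g v l ^ 2 * z3QR c d₁ d₂ v r) := by
    have h2 : z3RR c d₁ d₂ e g v l = z3Dn c d₁ d₂ g v l ^ 2 * z3QR c d₁ d₂ v r := by
      have h3 : z3Nn c d₁ d₂ e v l = -(r * z3Dn c d₁ d₂ g v l) := by linear_combination hr
      unfold z3RR z3QR
      rw [h3]
      ring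
    rw [← h2, hY2, ← z3_kappa]
    unfold z3Delta z3Psi
    ring
  have h4 : z3QR c d₁ d₂ v r = -(θ ^ 2 * z3Qo c d₁ d₂ v t) := by linear_combination hQ
  rw [h1, h4, hY]
  unfold z3Qo
  ring

/-! ### The curve `v = (2 c - d₁) / d₂` -/

/-- the value `D(v, v)` -/
def z3P (c e g v : R) : R := v ^ 4 + (2 * c + g) * v ^ 2 - 2 * e * v + c ^ 2 - c * g

/-- the derivative of `D(v, l)` at `l = v` -/
def z3e1 (c e g v : R) : R := 2 * v ^ 3 + (2 * c + g) * v - e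

/-- coefficients of the quartic `q₄` -/
def z3q0 (c e g v : R) : R :=
  z3P c e g v * (4 * z3P c e g v * (3 * v ^ 2 - c + g) - 3 * z3e1 c e g v ^ 2)

/-- coefficients of the quartic `q₄` -/
def z3q1 (c e g v : R) : R :=
  8 * z3P c e g v ^ 2 * v + 6 * z3P c e g v * z3e1 c e g v * (6 * v ^ 2 + 2 * c + g) -
    24 * z3P c e g v * z3e1 c e g v * (v ^ 2 + c) - 4 * z3e1 c e g v ^ 3

/-- coefficients of the quartic `q₄` -/
def z3q2 (c e g v : R) : R :=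
  z3P c e g v * ((6 * v ^ 2 + 2 * c + g) ^ 2 + 12 * z3e1 c e g v * v) -
    12 * z3P c e g v * (v ^ 2 + c) ^ 2 - 12 * z3e1 c e g v ^ 2 * (v ^ 2 + c)

/-- coefficients of the quartic `q₄` -/
def z3q3 (c e g v : R) : R :=
  4 * z3P c e g v * (6 * v ^ 2 + 2 * c + g) * v - 12 * z3e1 c e g v * (v ^ 2 + c) ^ 2

/-- coefficients of the quartic `q₄` -/
def z3q4 (c e g v : R) : R := 4 * z3P c e g v * v ^ 2 - 4 * (v ^ 2 + c) ^ 3

theorem z3_phi_at (c d₂ e g v : R) : z3phi c (2 * c - d₂ * v) d₂ e g v = z3P c e g v := by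
  unfold z3phi z3P
  ring

theorem z3_psi_at (c d₂ e g v l : R) :
    z3Psi c (2 * c - d₂ * v) d₂ e g v l = z3P c e g v * (l - v) ^ 2 *
      (z3q4 c e g v * (l - v) ^ 4 + z3q3 c e g v * (l - v) ^ 3 + z3q2 c e g v * (l - v) ^ 2 +
        z3q1 c e g v * (l - v) + z3q0 c e g v) := by
  have h1 := z3_phi_at c d₂ e g v
  unfold z3Psi
  rw [h1]
  obtain ⟨x, hx⟩ : ∃ x, x = l - v := ⟨_, rfl⟩
  have hl : l = v + x := by rw [hx]; ring
  have hC : z3C c (2 * c - d₂ * v) d₂ e g v l = 2 * z3P c e g v + 3 * z3e1 c e g v * x +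
      (6 * v ^ 2 + 2 * c + g) * x ^ 2 + 2 * v * x ^ 3 := by
    rw [hl]
    unfold z3C z3P z3e1
    ring
  have hD : z3D c e g v l = z3P c e g v + z3e1 c e g v * x + (v ^ 2 + c) * x ^ 2 := by
    rw [hl]
    unfold z3D z3P z3e1
    ring
  rw [hC, hD, ← hx]
  unfold z3q4 z3q3 z3q2 z3q1 z3q0
  ring

/-- coefficients of the quadratic polynomial `R₂` -/
def z3R2 (c e g v l : R) : R :=
  (v ^ 2 - 4 * c) * (2 * v * l + (v ^ 2 - c + g)) ^ 2 +
    2 * v * (2 * v * l + (v ^ 2 - c + g)) * ((c - v ^ 2) * l + 2 * c * v - e) -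
    3 * ((c - v ^ 2) * l + 2 * c * v - e) ^ 2

theorem z3_delta_at (c d₂ e g v l : R) :
    z3Delta c (2 * c - d₂ * v) d₂ e g v l =
      z3P c e g v ^ 2 * (l - v) ^ 4 * z3R2 c e g v l := by
  have h1 := z3_phi_at c d₂ e g v
  have hm : z3m (2 * c - d₂ * v) d₂ v = v ^ 2 - 2 * c := by unfold z3m; ring
  have hk : d₂ * v + (2 * c - d₂ * v) - 2 * c = 0 := by ring
  have hQo : z3Qo c (2 * c - d₂ * v) d₂ v l = -(l - v) ^ 2 := by
    unfold z3Qo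
    rw [hm]
    ring
  have hDn : z3Dn c (2 * c - d₂ * v) d₂ g v l =
      -((l - v) * (2 * v * l + (v ^ 2 - c + g))) := by
    unfold z3Dn
    rw [hm]
    ring
  have hNn : z3Nn c (2 * c - d₂ * v) d₂ e v l = (l - v) * ((c - v ^ 2) * l + 2 * c * v - e) := by
    unfold z3Nn
    rw [hm]
    ring
  unfold z3Delta z3RR
  rw [h1, hk, hm, hQo, hDn, hNn]
  unfold z3R2
  ring

/-- the discriminant of `R₂` -/
theorem z3_disc_R2 (c e g v : R) :
    ((v ^ 2 - 4 * c) * (4 * v * (v ^ 2 - c + g)) + 2 * v * (2 * v * (2 * c * v - e) +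
      (v ^ 2 - c + g) * (c - v ^ 2)) - 6 * (c - v ^ 2) * (2 * c * v - e)) ^ 2 -
    4 * ((v ^ 2 - 4 * c) * (4 * v ^ 2) + 4 * v ^ 2 * (c - v ^ 2) - 3 * (c - v ^ 2) ^ 2) *
      ((v ^ 2 - 4 * c) * (v ^ 2 - c + g) ^ 2 + 2 * v * (v ^ 2 - c + g) * (2 * c * v - e) -
        3 * (2 * c * v - e) ^ 2) =
    16 * (v ^ 2 - 3 * c) * z3P c e g v ^ 2 := by
  unfold z3P
  ring

/-- the first invariant of `q₄` -/
theorem z3_inv_I (c e g v : R) :
    12 * z3q4 c e g v * z3q0 c e g v - 3 * z3q3 c e g v * z3q1 c e g v + z3q2 c e g v ^ 2 =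
      z3P c e g v ^ 2 * ((4 * c - g) * ((4 * c - g) ^ 3 - 24 * (e ^ 2 + c * g ^ 2))) := by
  unfold z3q4 z3q3 z3q2 z3q1 z3q0 z3P z3e1
  ring

/-- the second invariant of `q₄` -/
theorem z3_inv_J (c e g v : R) :
    72 * z3q4 c e g v * z3q2 c e g v * z3q0 c e g v +
      9 * z3q3 c e g v * z3q2 c e g v * z3q1 c e g v -
      27 * z3q4 c e g v * z3q1 c e g v ^ 2 - 27 * z3q0 c e g v * z3q3 c e g v ^ 2 -
      2 * z3q2 c e g v ^ 3 =
      -2 * z3P c e g v ^ 3 * ((4 * c - g) ^ 6 - 36 * (4 * c - g) ^ 3 * (e ^ 2 + c * g ^ 2) +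
        216 * (e ^ 2 + c * g ^ 2) ^ 2) := by
  unfold z3q4 z3q3 z3q2 z3q1 z3q0 z3P z3e1
  ring

/-- the forms `D` and `C` have no common point over `v` -/
theorem z3_no_common {k : Type*} [Field k] (c d₁ d₂ e g v l : k) (hP : z3phi c d₁ d₂ e g v ≠ 0)
    (hW : e ^ 2 + c * g ^ 2 ≠ 0) (hv : v ^ 2 + c ≠ 0) (hD : z3D c e g v l = 0)
    (hC : z3C c d₁ d₂ e g v l = 0) : False := by
  have h1 : (v ^ 2 + c) * z3C c d₁ d₂ e g v l = (v ^ 2 + 2 * v * l + 3 * c) * z3D c e g v l -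
      (l ^ 2 + c) * z3phi c d₁ d₂ e g v := by
    unfold z3C z3D z3phi
    ring
  rw [hD, hC] at h1
  have h2 : (l ^ 2 + c) * z3phi c d₁ d₂ e g v = 0 := by linear_combination h1
  have h3 : l ^ 2 + c = 0 := (mul_eq_zero.1 h2).resolve_right hP
  have h4 : g * (v * l - c) - e * (v + l) = 0 := by
    unfold z3D at hD
    linear_combination hD - (v ^ 2 + c) * h3
  have h5 : (v + l) ^ 2 * (e ^ 2 + c * g ^ 2) = 0 := by
    linear_combination (-(g * (v * l - c)) - e * (v + l)) * h4 + g ^ 2 * (v ^ 2 + c) * h3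
  have h6 : v + l = 0 := pow_eq_zero_iff two_ne_zero |>.1 ((mul_eq_zero.1 h5).resolve_right hW)
  apply hv
  linear_combination h3 + (v - l) * h6

end

end Vale.Agent.P297.H160
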