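import Mathlib
import Vale.Agent.P297.H160.ThreeDelta

/-!
The surfaces with `ℤ/3`-torsion: the restriction of the two square roots to the curve
`v = (2 c - d₁) / d₂`.
-/

open Polynomial

namespace Vale.Agent.P297.H160

/-- a criterion for squarefree polynomials -/
theorem squarefree_of_roots {q : ℂ[X]} (hq : q ≠ 0) (h : ∀ α : ℂ, ¬ (X - C α) ^ 2 ∣ q) :
    Squarefree q := by
  rw [squarefree_iff_irreducible_sq_not_dvd_of_ne_zero hq]
  intro x hx hd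
  have h1 : x.degree ≠ 0 := by
    intro h0
    exact hx.not_isUnit (isUnit_iff_degree_eq_zero.2 h0)
  obtain ⟨α, hα⟩ := IsAlgClosed.exists_root x h1
  apply h α
  rw [sq]
  exact (mul_dvd_mul (dvd_iff_isRoot.2 hα) (dvd_iff_isRoot.2 hα)).trans hd

theorem quart_coeff (a b c d e : ℂ) :
    (C a * X ^ 4 + C b * X ^ 3 + C c * X ^ 2 + C d * X + C e : ℂ[X]).coeff 4 = a ∧
    (C a * X ^ 4 + C b * X ^ 3 + C c * X ^ 2 + C d * X + C e : ℂ[X]).coeff 3 = b ∧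
    (C a * X ^ 4 + C b * X ^ 3 + C c * X ^ 2 + C d * X + C e : ℂ[X]).coeff 2 = c ∧
    (C a * X ^ 4 + C b * X ^ 3 + C c * X ^ 2 + C d * X + C e : ℂ[X]).coeff 1 = d ∧
    (C a * X ^ 4 + C b * X ^ 3 + C c * X ^ 2 + C d * X + C e : ℂ[X]).coeff 0 = e := by
  refine ⟨?_, ?_, ?_, ?_, ?_⟩ <;> simp [coeff_X, coeff_C]

theorem quadr_coeff (a b c : ℂ) :
    (C a * X ^ 2 + C b * X + C c : ℂ[X]).coeff 2 = a ∧
    (C a * X ^ 2 + C b * X + C c : ℂ[X]).coeff 1 = b ∧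
    (C a * X ^ 2 + C b * X + C c : ℂ[X]).coeff 0 = c := by
  refine ⟨?_, ?_, ?_⟩ <;> simp [coeff_X, coeff_C]

/-- A quartic polynomial with non-zero discriminant is squarefree of degree three or four. -/
theorem quartic_squarefree (a b c d e : ℂ)
    (h : 4 * (12 * a * e - 3 * b * d + c ^ 2) ^ 3 ≠
      (72 * a * c * e + 9 * b * c * d - 27 * a * d ^ 2 - 27 * e * b ^ 2 - 2 * c ^ 3) ^ 2) :
    Squarefree (C a * X ^ 4 + C b * X ^ 3 + C c * X ^ 2 + C d * X + C e) ∧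
      ((C a * X ^ 4 + C b * X ^ 3 + C c * X ^ 2 + C d * X + C e).natDegree = 3 ∨
        (C a * X ^ 4 + C b * X ^ 3 + C c * X ^ 2 + C d * X + C e).natDegree = 4) := by
  obtain ⟨q, hq⟩ : ∃ q : ℂ[X], q = C a * X ^ 4 + C b * X ^ 3 + C c * X ^ 2 + C d * X + C e :=
    ⟨_, rfl⟩
  rw [← hq]
  obtain ⟨h4, h3, h2, h1, h0⟩ := quart_coeff a b c d e
  rw [← hq] at h4 h3 h2 h1 h0
  have hdeg : q.natDegree ≤ 4 := by
    rw [hq]
    compute_degree
  have hq0 : q ≠ 0 := by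
    intro h5
    rw [h5] at h0 h1 h2 h3 h4
    simp only [coeff_zero] at h0 h1 h2 h3 h4
    apply h
    rw [← h0, ← h1, ← h2, ← h3, ← h4]
    ring
  refine ⟨squarefree_of_roots hq0 ?_, ?_⟩
  · rintro α ⟨s, hs⟩
    have hs0 : s ≠ 0 := by
      rintro rfl
      apply hq0
      rw [hs, mul_zero]
    have hsd : s.natDegree ≤ 2 := by
      have h5 := congrArg natDegree hs
      rw [natDegree_mul (pow_ne_zero 2 (X_sub_C_ne_zero α)) hs0, natDegree_pow,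
        natDegree_X_sub_C] at h5
      omega
    obtain ⟨A, B, D, hABD⟩ : ∃ A B D : ℂ, s = C A * X ^ 2 + C B * X + C D := by
      refine ⟨s.coeff 2, s.coeff 1, s.coeff 0, ?_⟩
      exact s.eq_quadratic_of_degree_le_two (natDegree_le_iff_degree_le.1 hsd)
    have h5 : q = C A * X ^ 4 + C (B - 2 * α * A) * X ^ 3 +
        C (D - 2 * α * B + α ^ 2 * A) * X ^ 2 + C (α ^ 2 * B - 2 * α * D) * X +
          C (α ^ 2 * D) := by
      rw [hs, hABD]
      simp only [C_mul, C_add, C_sub, C_pow]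
      have k2 : (C (2 : ℂ) : ℂ[X]) = 2 := rfl
      rw [k2]
      ring
    obtain ⟨g4, g3, g2, g1, g0⟩ := quart_coeff A (B - 2 * α * A) (D - 2 * α * B + α ^ 2 * A)
      (α ^ 2 * B - 2 * α * D) (α ^ 2 * D)
    rw [← h5, h4] at g4
    rw [← h5, h3] at g3
    rw [← h5, h2] at g2
    rw [← h5, h1] at g1
    rw [← h5, h0] at g0
    apply h
    rw [g4, g3, g2, g1, g0]
    ring
  · by_contra hcon
    push Not at hcon
    have h5 : q.natDegree ≤ 2 := by omega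
    have h6 : q.coeff 4 = 0 := coeff_eq_zero_of_natDegree_lt (by omega)
    have h7 : q.coeff 3 = 0 := coeff_eq_zero_of_natDegree_lt (by omega)
    apply h
    rw [h4] at h6
    rw [h3] at h7
    rw [h6, h7]
    ring

/-- the quartic `φ(v) q₄(l - v)` in `l` -/
noncomputable def z3qp (c e g v : ℂ) : ℂ[X] :=
  C (z3P c e g v) * (C (z3q4 c e g v) * (X - C v) ^ 4 + C (z3q3 c e g v) * (X - C v) ^ 3 +
    C (z3q2 c e g v) * (X - C v) ^ 2 + C (z3q1 c e g v) * (X - C v) + C (z3q0 c e g v))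

theorem squarefree_comp {q : ℂ[X]} (hq : Squarefree q) (a : ℂ) :
    Squarefree (q.comp (X - C a)) := by
  have h0 : q.comp (X - C a) ≠ 0 := by
    intro h
    rw [comp_eq_zero_iff] at h
    rcases h with h | ⟨_, h⟩
    · exact hq.ne_zero h
    · have := congrArg natDegree h
      rw [natDegree_X_sub_C, natDegree_C] at this
      omega
  refine squarefree_of_roots h0 ?_
  rintro α ⟨s, hs⟩
  have h1 : q = (X - C (α - a)) ^ 2 * s.comp (X + C a) := by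
    have h2 := congrArg (fun p : ℂ[X] => p.comp (X + C a)) hs
    simp only [comp_assoc, mul_comp, pow_comp, sub_comp, X_comp, C_comp, add_sub_cancel_right,
      comp_X] at h2
    rw [h2]
    congr 2
    rw [C_sub]
    ring
  have h2 := hq (X - C (α - a)) (by rw [← sq]; exact ⟨_, h1⟩)
  rw [isUnit_iff_degree_eq_zero, degree_X_sub_C] at h2
  exact one_ne_zero h2

theorem z3qp_good (c e g v : ℂ) (hP : z3P c e g v ≠ 0) (hW : e ^ 2 + c * g ^ 2 ≠ 0)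
    (hE : (4 * c - g) ^ 3 ≠ 27 * (e ^ 2 + c * g ^ 2)) :
    Squarefree (z3qp c e g v) ∧
      ((z3qp c e g v).natDegree = 3 ∨ (z3qp c e g v).natDegree = 4) := by
  obtain ⟨q, hq⟩ : ∃ q : ℂ[X], q = C (z3q4 c e g v) * X ^ 4 + C (z3q3 c e g v) * X ^ 3 +
      C (z3q2 c e g v) * X ^ 2 + C (z3q1 c e g v) * X + C (z3q0 c e g v) := ⟨_, rfl⟩
  obtain ⟨h1, h2⟩ := quartic_squarefree (z3q4 c e g v) (z3q3 c e g v) (z3q2 c e g v)
    (z3q1 c e g v) (z3q0 c e g v) (by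
      intro h
      rw [z3_inv_I] at h
      have hJ := z3_inv_J c e g v
      have h3 : 4 * (z3P c e g v ^ 2 * ((4 * c - g) * ((4 * c - g) ^ 3 -
          24 * (e ^ 2 + c * g ^ 2)))) ^ 3 = (-2 * z3P c e g v ^ 3 * ((4 * c - g) ^ 6 -
          36 * (4 * c - g) ^ 3 * (e ^ 2 + c * g ^ 2) + 216 * (e ^ 2 + c * g ^ 2) ^ 2)) ^ 2 := by
        rw [h, hJ]
      have h4 : z3P c e g v ^ 6 * ((e ^ 2 + c * g ^ 2) ^ 3 *
          ((4 * c - g) ^ 3 - 27 * (e ^ 2 + c * g ^ 2))) = 0 := by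
        linear_combination (1 / 6912) * h3
      exact (mul_ne_zero (pow_ne_zero 6 hP) (mul_ne_zero (pow_ne_zero 3 hW)
        (sub_ne_zero.2 hE))) h4)
  rw [← hq] at h1 h2
  have h3 : z3qp c e g v = C (z3P c e g v) * q.comp (X - C v) := by
    rw [hq]
    unfold z3qp
    simp
  have hu : IsUnit (C (z3P c e g v)) := isUnit_C.2 (isUnit_iff_ne_zero.2 hP)
  rw [h3]
  refine ⟨?_, ?_⟩
  · exact ((associated_isUnit_mul_left_iff hu).2 (Associated.refl _)).squarefree_iff.2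
      (squarefree_comp h1 v)
  · rw [natDegree_C_mul hP, natDegree_comp, natDegree_X_sub_C, mul_one]
    exact h2

/-- the polynomial `Ψ(v, ·)` -/
theorem z3Psi_poly (c d₂ e g v : ℂ) :
    z3Psi (C c) (C (2 * c - d₂ * v)) (C d₂) (C e) (C g) (C v) (X : ℂ[X]) =
      (X - C v) ^ 2 * z3qp c e g v := by
  have h1 := z3_psi_at (C c) (C d₂) (C e) (C g) (C v) (X : ℂ[X])
  have k2 : (C (2 : ℂ) : ℂ[X]) = 2 := rfl
  have k3 : (C (3 : ℂ) : ℂ[X]) = 3 := rfl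
  have k4 : (C (4 : ℂ) : ℂ[X]) = 4 := rfl
  have k6 : (C (6 : ℂ) : ℂ[X]) = 6 := rfl
  have k8 : (C (8 : ℂ) : ℂ[X]) = 8 := rfl
  have k12 : (C (12 : ℂ) : ℂ[X]) = 12 := rfl
  have k24 : (C (24 : ℂ) : ℂ[X]) = 24 := rfl
  have h2 : C (2 * c - d₂ * v) = 2 * C c - C d₂ * C v := by
    rw [C_sub, C_mul, C_mul, k2]
  have hP : z3P (C c) (C e) (C g) (C v) = C (z3P c e g v) := by
    unfold z3P
    simp only [C_add, C_sub, C_mul, C_pow, k2]
  have hq4 : z3q4 (C c) (C e) (C g) (C v) = C (z3q4 c e g v) := by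
    unfold z3q4
    rw [hP]
    simp only [C_add, C_sub, C_mul, C_pow, k4]
  have he1 : z3e1 (C c) (C e) (C g) (C v) = C (z3e1 c e g v) := by
    unfold z3e1
    simp only [C_add, C_sub, C_mul, C_pow, k2]
  have hq3 : z3q3 (C c) (C e) (C g) (C v) = C (z3q3 c e g v) := by
    unfold z3q3
    rw [hP, he1]
    simp only [C_add, C_sub, C_mul, C_pow, k4, k6, k2, k12]
  have hq2 : z3q2 (C c) (C e) (C g) (C v) = C (z3q2 c e g v) := by
    unfold z3q2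
    rw [hP, he1]
    simp only [C_add, C_sub, C_mul, C_pow, k6, k2, k12]
  have hq1 : z3q1 (C c) (C e) (C g) (C v) = C (z3q1 c e g v) := by
    unfold z3q1
    rw [hP, he1]
    simp only [C_add, C_sub, C_mul, C_pow, k8, k6, k2, k24, k4]
  have hq0 : z3q0 (C c) (C e) (C g) (C v) = C (z3q0 c e g v) := by
    unfold z3q0
    rw [hP, he1]
    simp only [C_add, C_sub, C_mul, C_pow, k4, k3]
  rw [h2, h1, hP, hq4, hq3, hq2, hq1, hq0]
  unfold z3qp
  ring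

/-- the polynomial `R₂(v, ·)` -/
theorem z3R2_poly (c e g v : ℂ) : z3R2 (C c) (C e) (C g) (C v) (X : ℂ[X]) =
    C ((v ^ 2 - 4 * c) * (4 * v ^ 2) + 4 * v ^ 2 * (c - v ^ 2) - 3 * (c - v ^ 2) ^ 2) * X ^ 2 +
    C ((v ^ 2 - 4 * c) * (4 * v * (v ^ 2 - c + g)) + 2 * v * (2 * v * (2 * c * v - e) +
      (v ^ 2 - c + g) * (c - v ^ 2)) - 6 * (c - v ^ 2) * (2 * c * v - e)) * X +
    C ((v ^ 2 - 4 * c) * (v ^ 2 - c + g) ^ 2 + 2 * v * (v ^ 2 - c + g) * (2 * c * v - e) -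
        3 * (2 * c * v - e) ^ 2) := by
  have k2 : (C (2 : ℂ) : ℂ[X]) = 2 := rfl
  have k3 : (C (3 : ℂ) : ℂ[X]) = 3 := rfl
  have k4 : (C (4 : ℂ) : ℂ[X]) = 4 := rfl
  have k6 : (C (6 : ℂ) : ℂ[X]) = 6 := rfl
  unfold z3R2
  simp only [C_add, C_sub, C_mul, C_pow, k2, k3, k4, k6]
  ring

/-- the polynomial `Δ(v, ·)` -/
theorem z3Delta_poly (c d₂ e g v : ℂ) :
    z3Delta (C c) (C (2 * c - d₂ * v)) (C d₂) (C e) (C g) (C v) (X : ℂ[X]) =
      (C (z3P c e g v) * (X - C v) ^ 2) ^ 2 * z3R2 (C c) (C e) (C g) (C v) X := by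
  have h1 := z3_delta_at (C c) (C d₂) (C e) (C g) (C v) (X : ℂ[X])
  have k2 : (C (2 : ℂ) : ℂ[X]) = 2 := rfl
  have h2 : C (2 * c - d₂ * v) = 2 * C c - C d₂ * C v := by
    rw [C_sub, C_mul, C_mul, k2]
  have hP : z3P (C c) (C e) (C g) (C v) = C (z3P c e g v) := by
    unfold z3P
    simp only [C_add, C_sub, C_mul, C_pow, k2]
  rw [h2, h1, hP]
  ring

/-- A quadratic polynomial with non-zero discriminant, times a square, is not a square. -/
theorem not_sq_mul {a b c : ℂ} (h : b ^ 2 - 4 * a * c ≠ 0) {w : ℂ[X]} (hw : w ≠ 0) (s : ℂ[X]) :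
    s ^ 2 ≠ w ^ 2 * (C a * X ^ 2 + C b * X + C c) := by
  intro hs
  have h1 : w ∣ s := (IsIntegrallyClosed.pow_dvd_pow_iff two_ne_zero).1 ⟨_, hs⟩
  obtain ⟨u, rfl⟩ := h1
  have h2 : u ^ 2 = C a * X ^ 2 + C b * X + C c := by
    apply mul_left_cancel₀ (pow_ne_zero 2 hw)
    linear_combination hs
  have hu : u.natDegree ≤ 1 := by
    have h3 := congrArg natDegree h2
    rw [natDegree_pow] at h3
    have h4 : (C a * X ^ 2 + C b * X + C c : ℂ[X]).natDegree ≤ 2 := by compute_degree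
    omega
  obtain ⟨A, B, hAB⟩ : ∃ A B : ℂ, u = C A * X + C B :=
    ⟨_, _, eq_X_add_C_of_natDegree_le_one hu⟩
  have h3 : C (A ^ 2) * X ^ 2 + C (2 * A * B) * X + C (B ^ 2) =
      C a * X ^ 2 + C b * X + C c := by
    rw [← h2, hAB]
    have k2 : (C (2 : ℂ) : ℂ[X]) = 2 := rfl
    simp only [C_mul, C_pow, k2]
    ring
  obtain ⟨f2, f1, f0⟩ := quadr_coeff a b c
  obtain ⟨g2, g1, g0⟩ := quadr_coeff (A ^ 2) (2 * A * B) (B ^ 2)
  rw [h3, f2] at g2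
  rw [h3, f1] at g1
  rw [h3, f0] at g0
  apply h
  rw [g2, g1, g0]
  ring

/-- The same, times a squarefree polynomial of degree at least three. -/
theorem not_sq_mul' {a b c : ℂ} (h : b ^ 2 - 4 * a * c ≠ 0) {q : ℂ[X]} (hq : Squarefree q)
    (hd : 3 ≤ q.natDegree) {w : ℂ[X]} (hw : w ≠ 0) (s : ℂ[X]) :
    s ^ 2 ≠ q * (w ^ 2 * (C a * X ^ 2 + C b * X + C c)) := by
  intro hs
  have h1 : w ∣ s := (IsIntegrallyClosed.pow_dvd_pow_iff two_ne_zero).1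
    ⟨q * (C a * X ^ 2 + C b * X + C c), by rw [hs]; ring⟩
  obtain ⟨u, rfl⟩ := h1
  have h2 : u ^ 2 = q * (C a * X ^ 2 + C b * X + C c) := by
    apply mul_left_cancel₀ (pow_ne_zero 2 hw)
    linear_combination hs
  have h3 : q ∣ u := (hq.dvd_pow_iff_dvd two_ne_zero).1 ⟨_, h2⟩
  obtain ⟨r, rfl⟩ := h3
  have h4 : q * r ^ 2 = C a * X ^ 2 + C b * X + C c := by
    apply mul_left_cancel₀ hq.ne_zero
    linear_combination h2
  have h5 : (C a * X ^ 2 + C b * X + C c : ℂ[X]).natDegree ≤ 2 := by compute_degree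
  by_cases hr : r = 0
  · rw [hr] at h4
    have h6 : (C a * X ^ 2 + C b * X + C c : ℂ[X]) = 0 := by rw [← h4]; ring
    obtain ⟨f2, f1, f0⟩ := quadr_coeff a b c
    rw [h6, coeff_zero] at f2 f1
    apply h
    rw [← f2, ← f1]
    ring
  · have h6 := congrArg natDegree h4
    rw [natDegree_mul hq.ne_zero (pow_ne_zero 2 hr)] at h6
    omega

/-- **The two square roots on the curve `v = (2c - d₁) / d₂`.** -/
theorem z3_special (c d₁ d₂ e g v : ℂ) (hv : d₂ * v = 2 * c - d₁)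
    (hP : z3phi c d₁ d₂ e g v ≠ 0) (hW : e ^ 2 + c * g ^ 2 ≠ 0)
    (hE : (4 * c - g) ^ 3 ≠ 27 * (e ^ 2 + c * g ^ 2)) (hQ : v ^ 2 - 3 * c ≠ 0) :
    z3Psi (C c) (C d₁) (C d₂) (C e) (C g) (C v) (X : ℂ[X]) = (X - C v) ^ 2 * z3qp c e g v ∧
      Squarefree (z3qp c e g v) ∧
      ((z3qp c e g v).natDegree = 3 ∨ (z3qp c e g v).natDegree = 4) ∧
      (∀ s : ℂ[X], s ^ 2 ≠ z3Delta (C c) (C d₁) (C d₂) (C e) (C g) (C v) X) ∧
      (∀ s : ℂ[X], s ^ 2 ≠ z3qp c e g v *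
        z3Delta (C c) (C d₁) (C d₂) (C e) (C g) (C v) X) := by
  have hd₁ : d₁ = 2 * c - d₂ * v := by linear_combination hv
  subst hd₁
  rw [z3_phi_at] at hP
  obtain ⟨h1, h2⟩ := z3qp_good c e g v hP hW hE
  have h3 : C (z3P c e g v) * (X - C v) ^ 2 ≠ 0 :=
    mul_ne_zero (C_ne_zero.2 hP) (pow_ne_zero 2 (X_sub_C_ne_zero v))
  have h4 := z3_disc_R2 c e g v
  have h5 : 16 * (v ^ 2 - 3 * c) * z3P c e g v ^ 2 ≠ 0 :=
    mul_ne_zero (mul_ne_zero (by norm_num) hQ) (pow_ne_zero 2 hP)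
  rw [← h4] at h5
  refine ⟨z3Psi_poly c d₂ e g v, h1, h2, ?_, ?_⟩
  · intro s
    rw [z3Delta_poly, z3R2_poly]
    exact not_sq_mul h5 h3 s
  · intro s
    rw [z3Delta_poly, z3R2_poly]
    exact not_sq_mul' h5 h1 (by omega) h3 s

end Vale.Agent.P297.H160
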