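import Vale.Agent.P297.H160.JacT
import Vale.Agent.P297.H160.ThreeDeltaC
import Vale.Agent.P297.H424.G4.Defs

/-!
Rationality of the double cover `y² = A(x) l² + B(x) l + C(x)`, with two more variables.
-/

set_option linter.unusedSectionVars false
set_option linter.style.haveILetI false

open IntermediateField Polynomial

namespace Vale.Agent.P297.H160

open Vale.Agent.P297 Vale.Agent.P297.H839 Vale.Agent.P297.H109 Vale.Agent.P297.H729
open Vale.Agent.P297.H600 Vale.Agent.P297.H964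

section

variable {N : Type} [Field N] [Algebra ℂ N]

theorem range_quad (a b c d : N) : Set.range ![a, b, c, d] = {a, b, c, d} := by
  ext z
  simp only [Set.mem_range, Set.mem_insert_iff, Set.mem_singleton_iff]
  constructor
  · rintro ⟨i, rfl⟩
    fin_cases i <;> simp
  · rintro (rfl | rfl | rfl | rfl)
    · exact ⟨0, rfl⟩
    · exact ⟨1, rfl⟩
    · exact ⟨2, rfl⟩
    · exact ⟨3, rfl⟩

/-- **[RAT]** -/
theorem quad_rational (A B D : ℂ[X]) (hdisc : B ^ 2 - 4 * A * D ≠ 0) {l x y t₁ t₂ : N}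
    (hind : AlgebraicIndependent ℂ ![x, l, t₁, t₂])
    (hy : y ^ 2 = aeval x A * l ^ 2 + aeval x B * l + aeval x D) :
    IsRational (IntermediateField.adjoin ℂ {l, x, y, t₁, t₂}) := by
  have hxl : AlgebraicIndependent ℂ ![x, l] := by
    have h := hind.comp ![0, 1] (by
      intro i j hij
      fin_cases i <;> fin_cases j <;> simp_all)
    have h2 : ![x, l, t₁, t₂] ∘ ![0, 1] = ![x, l] := by
      funext i
      fin_cases i <;> rfl
    rwa [h2] at h
  have hx : Transcendental ℂ x := hxl.transcendental 0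
  have hcon : IsConicType (IntermediateField.adjoin ℂ {x, l}) y := by
    have hF : ∀ q : ℂ[X], aeval x q ∈ ℂ⟮x⟯ := fun q =>
      IntermediateField.algebra_adjoin_le_adjoin ℂ {x}
        (Polynomial.aeval_mem_adjoin_singleton ℂ x)
    refine ⟨x, l, aeval x A, aeval x B, aeval x D, 1, hxl, rfl, hF _, hF _, hF _, ?_,
      one_mem _, one_ne_zero, ?_⟩
    · intro h0
      apply hx
      refine ⟨_, hdisc, ?_⟩
      rw [← h0]
      simp only [map_sub, map_mul, map_pow, map_ofNat]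
    · rw [one_mul, hy]
  obtain ⟨u, τ, huτ⟩ := conic_gens hcon
  have hsub : ∀ a ∈ ({l, x, y, t₁, t₂} : Set N), a ∈ IntermediateField.adjoin ℂ {l, x, y, t₁, t₂} :=
    fun a ha => IntermediateField.subset_adjoin _ _ ha
  have hle1 : IntermediateField.adjoin ℂ {x, l} ⊔ IntermediateField.adjoin ℂ {y} ≤
      IntermediateField.adjoin ℂ {l, x, y, t₁, t₂} := by
    refine sup_le ?_ ?_
    · rw [IntermediateField.adjoin_le_iff]
      rintro a (ha | ha)
      · rw [ha]; exact hsub _ (by simp)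
      · rw [Set.mem_singleton_iff.1 ha]; exact hsub _ (by simp)
    · rw [IntermediateField.adjoin_le_iff]
      rintro a ha
      rw [Set.mem_singleton_iff.1 ha]
      exact hsub _ (by simp)
  have hle2 : IntermediateField.adjoin ℂ {x, l} ⊔ IntermediateField.adjoin ℂ {y} ≤
      IntermediateField.adjoin ℂ {u, τ, t₁, t₂} := by
    rw [huτ]
    apply IntermediateField.adjoin.mono
    rintro a (ha | ha)
    · rw [ha]; simp
    · rw [Set.mem_singleton_iff.1 ha]; simp
  have hEq : IntermediateField.adjoin ℂ {l, x, y, t₁, t₂} =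
      IntermediateField.adjoin ℂ (Set.range ![u, τ, t₁, t₂]) := by
    rw [range_quad]
    apply le_antisymm
    · rw [IntermediateField.adjoin_le_iff]
      rintro a (ha | ha | ha | ha | ha)
      · rw [ha]
        exact hle2 ((le_sup_left : IntermediateField.adjoin ℂ {x, l} ≤ _)
          (IntermediateField.subset_adjoin _ _ (by simp)))
      · rw [ha]
        exact hle2 ((le_sup_left : IntermediateField.adjoin ℂ {x, l} ≤ _)
          (IntermediateField.subset_adjoin _ _ (by simp)))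
      · rw [ha]
        exact hle2 ((le_sup_right : IntermediateField.adjoin ℂ {y} ≤ _)
          (IntermediateField.mem_adjoin_simple_self ℂ _))
      · rw [ha]
        exact IntermediateField.subset_adjoin _ _ (by simp)
      · rw [Set.mem_singleton_iff.1 ha]
        exact IntermediateField.subset_adjoin _ _ (by simp)
    · rw [IntermediateField.adjoin_le_iff]
      have h1 : IntermediateField.adjoin ℂ {u, τ} ≤
          IntermediateField.adjoin ℂ {l, x, y, t₁, t₂} := by
        rw [← huτ]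
        exact hle1
      rintro a (ha | ha | ha | ha)
      · rw [ha]
        exact h1 (IntermediateField.subset_adjoin _ _ (by simp))
      · rw [ha]
        exact h1 (IntermediateField.subset_adjoin _ _ (by simp))
      · rw [ha]
        exact hsub _ (by simp)
      · rw [Set.mem_singleton_iff.1 ha]
        exact hsub _ (by simp)
  refine isRational_of_gens hind _ _ hEq ?_
  intro i
  fin_cases i
  · exact isAlgebraic_mem _ _ (hsub _ (by simp))
  · exact isAlgebraic_mem _ _ (hsub _ (by simp))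
  · exact isAlgebraic_mem _ _ (hsub _ (by simp))
  · exact isAlgebraic_mem _ _ (hsub _ (by simp))

end

/-- the quartic with coefficients `D i 0 + D i 1 l + D i 2 l²` -/
noncomputable def dq {R : Type} [CommRing R] (D : Fin 5 → Fin 3 → R) (l : R) : Fin 5 → R :=
  fun i => D i 0 + D i 1 * l + D i 2 * l ^ 2

/-- the coefficient of `l ^ j` as a polynomial in `x` -/
noncomputable def dx (D : Fin 5 → Fin 3 → ℂ) (j : Fin 3) : ℂ[X] :=
  C (D 4 j) * X ^ 4 + C (D 3 j) * X ^ 3 + C (D 2 j) * X ^ 2 + C (D 1 j) * X + C (D 0 j)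

/-- The discriminant in `l` does not vanish. -/
theorem dx_disc_ne (D : Fin 5 → Fin 3 → ℂ)
    (hj : ∀ α β : ℂ, (α ≠ 0 ∨ β ≠ 0) →
      C α * G4.qI (dq (fun i j => (C (D i j) : ℂ[X])) X) ^ 3 ≠
        C β * G4.qJ (dq (fun i j => (C (D i j) : ℂ[X])) X) ^ 2) :
    dx D 1 ^ 2 - 4 * dx D 2 * dx D 0 ≠ 0 := by
  intro hd
  obtain ⟨I, hI⟩ : ∃ I, I = G4.qI (dq (fun i j => (C (D i j) : ℂ[X])) X) := ⟨_, rfl⟩
  obtain ⟨J, hJ⟩ : ∃ J, J = G4.qJ (dq (fun i j => (C (D i j) : ℂ[X])) X) := ⟨_, rfl⟩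
  rw [← hI, ← hJ] at hj
  -- evaluation
  have hIe : ∀ l : ℂ, I.eval l = G4.qI (dq D l) := by
    intro l
    rw [hI]
    simp [G4.qI, dq]
  have hJe : ∀ l : ℂ, J.eval l = G4.qJ (dq D l) := by
    intro l
    rw [hJ]
    simp [G4.qJ, dq]
  have h1 : C 4 * I ^ 3 - C 1 * J ^ 2 ≠ 0 :=
    sub_ne_zero.2 (hj 4 1 (Or.inr one_ne_zero))
  obtain ⟨l₀, hl₀⟩ : ∃ l₀ : ℂ, (C 4 * I ^ 3 - C 1 * J ^ 2).eval l₀ ≠ 0 := by
    by_contra hcon
    push Not at hcon
    exact h1 (Polynomial.funext fun r => by rw [hcon r, eval_zero])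
  have hl₁ : 4 * G4.qI (dq D l₀) ^ 3 ≠ G4.qJ (dq D l₀) ^ 2 := by
    intro h
    apply hl₀
    simp only [eval_sub, eval_mul, eval_pow, eval_C, hIe, hJe, h]
    ring
  -- the quartic at `l₀`
  obtain ⟨F, hF⟩ : ∃ F : ℂ[X], F = dx D 2 * C l₀ ^ 2 + dx D 1 * C l₀ + dx D 0 := ⟨_, rfl⟩
  have hF' : F = C (dq D l₀ 4) * X ^ 4 + C (dq D l₀ 3) * X ^ 3 + C (dq D l₀ 2) * X ^ 2 +
      C (dq D l₀ 1) * X + C (dq D l₀ 0) := by
    rw [hF]
    unfold dx dq
    simp only [C_add, C_mul, C_pow]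
    ring
  obtain ⟨hsq, hdeg⟩ := quartic_squarefree (dq D l₀ 4) (dq D l₀ 3) (dq D l₀ 2) (dq D l₀ 1)
    (dq D l₀ 0) (by
      intro h
      apply hl₁
      unfold G4.qI G4.qJ
      linear_combination h)
  rw [← hF'] at hsq hdeg
  have hA4 : (dx D 2).natDegree ≤ 4 := by
    unfold dx
    compute_degree
  have h4A : 4 * dx D 2 * F = (2 * dx D 2 * C l₀ + dx D 1) ^ 2 := by
    rw [hF]
    linear_combination -hd
  by_cases hA : dx D 2 = 0
  · have hB : dx D 1 = 0 := by
      rw [hA] at hd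
      have h2 : dx D 1 ^ 2 = 0 := by linear_combination hd
      exact pow_eq_zero_iff two_ne_zero |>.1 h2
    have hz : ∀ (j : Fin 3), dx D j = 0 → ∀ i, D i j = 0 := by
      intro j hj0
      obtain ⟨c4, c3, c2, c1, c0⟩ := quart_coeff (D 4 j) (D 3 j) (D 2 j) (D 1 j) (D 0 j)
      have hj1 : C (D 4 j) * X ^ 4 + C (D 3 j) * X ^ 3 + C (D 2 j) * X ^ 2 + C (D 1 j) * X +
        C (D 0 j) = (0 : ℂ[X]) := hj0
      rw [hj1, coeff_zero] at c4 c3 c2 c1 c0
      intro i
      fin_cases i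
      · exact c0.symm
      · exact c1.symm
      · exact c2.symm
      · exact c3.symm
      · exact c4.symm
    have hdq : ∀ l : ℂ, dq D l = dq D l₀ := by
      intro l
      funext i
      unfold dq
      rw [hz 1 hB i, hz 2 hA i]
      ring
    have hIc : I = C (G4.qI (dq D l₀)) := Polynomial.funext fun r => by rw [hIe, hdq, eval_C]
    have hJc : J = C (G4.qJ (dq D l₀)) := Polynomial.funext fun r => by rw [hJe, hdq, eval_C]
    refine hj (G4.qJ (dq D l₀) ^ 2) (G4.qI (dq D l₀) ^ 3) ?_ ?_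
    · by_contra hcon
      push Not at hcon
      apply hl₁
      rw [hcon.1, hcon.2, mul_zero]
    · rw [hIc, hJc]
      simp only [C_pow]
      ring
  · -- `F` divides `2 A l₀ + B`
    have hF0 : F ≠ 0 := hsq.ne_zero
    obtain ⟨R, hR⟩ : F ∣ 2 * dx D 2 * C l₀ + dx D 1 :=
      (hsq.dvd_pow_iff_dvd two_ne_zero).1 ⟨4 * dx D 2, by rw [← h4A]; ring⟩
    have h5 : 4 * dx D 2 = F * R ^ 2 := by
      apply mul_left_cancel₀ hF0
      rw [hR] at h4A
      linear_combination h4A
    have hR0 : R ≠ 0 := by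
      rintro rfl
      apply hA
      have h6 : (4 : ℂ[X]) * dx D 2 = 0 := by rw [h5]; ring
      exact (mul_eq_zero.1 h6).resolve_left (by norm_num)
    have hRd : R.natDegree = 0 := by
      have h6 := congrArg natDegree h5
      rw [natDegree_mul hF0 (pow_ne_zero 2 hR0), natDegree_pow] at h6
      have h7 : (4 * dx D 2).natDegree ≤ 4 := by
        have k4 : (4 : ℂ[X]) = C 4 := rfl
        rw [k4]
        exact (natDegree_C_mul_le _ _).trans hA4
      omega
    obtain ⟨ρ, hρ⟩ := natDegree_eq_zero.1 hRd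
    have hρ0 : ρ ≠ 0 := by
      rintro rfl
      apply hR0
      rw [← hρ, C_0]
    obtain ⟨b, hb⟩ : ∃ b : ℂ, b = 4 / ρ - 2 * l₀ := ⟨_, rfl⟩
    have hBA : dx D 1 = C b * dx D 2 := by
      have h6 : C ρ * dx D 1 = C ρ * (C b * dx D 2) := by
        have h7 : C ρ * C b = 4 - 2 * C l₀ * C ρ := by
          rw [← C_mul, hb]
          have h8 : ρ * (4 / ρ - 2 * l₀) = 4 - 2 * l₀ * ρ := by field_simp
          rw [h8]
          simp only [C_sub, C_mul]
          rfl
        rw [← mul_assoc, h7]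
        rw [← hρ] at hR h5
        linear_combination C ρ * hR - h5
      exact mul_left_cancel₀ (C_ne_zero.2 hρ0) h6
    have hCA : dx D 0 = C (b ^ 2 / 4) * dx D 2 := by
      have h6 : (4 * dx D 2) * dx D 0 = (4 * dx D 2) * (C (b ^ 2 / 4) * dx D 2) := by
        have h7 : (4 : ℂ[X]) * C (b ^ 2 / 4) = C b ^ 2 := by
          have k4 : (4 : ℂ[X]) = C 4 := rfl
          rw [k4, ← C_mul, ← C_pow]
          congr 1
          ring
        rw [hBA] at hd
        linear_combination (dx D 2) ^ 2 * (-h7) - hd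
      exact mul_left_cancel₀ (mul_ne_zero (by norm_num) hA) h6
    have hco : ∀ (j : Fin 3) (t : ℂ), dx D j = C t * dx D 2 → ∀ i, D i j = t * D i 2 := by
      intro j t hjt i
      obtain ⟨c4, c3, c2, c1, c0⟩ := quart_coeff (D 4 j) (D 3 j) (D 2 j) (D 1 j) (D 0 j)
      obtain ⟨e4, e3, e2, e1, e0⟩ := quart_coeff (D 4 2) (D 3 2) (D 2 2) (D 1 2) (D 0 2)
      have hj1 : C (D 4 j) * X ^ 4 + C (D 3 j) * X ^ 3 + C (D 2 j) * X ^ 2 + C (D 1 j) * X +
        C (D 0 j) = C t * (C (D 4 2) * X ^ 4 + C (D 3 2) * X ^ 3 + C (D 2 2) * X ^ 2 +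
          C (D 1 2) * X + C (D 0 2)) := hjt
      rw [hj1, coeff_C_mul] at c4 c3 c2 c1 c0
      rw [e4] at c4
      rw [e3] at c3
      rw [e2] at c2
      rw [e1] at c1
      rw [e0] at c0
      fin_cases i
      · exact c0.symm
      · exact c1.symm
      · exact c2.symm
      · exact c3.symm
      · exact c4.symm
    have hdq : ∀ (l : ℂ) (i : Fin 5), dq D l i = (l + b / 2) ^ 2 * D i 2 := by
      intro l i
      unfold dq
      rw [hco 1 b hBA i, hco 0 _ hCA i]
      ring
    obtain ⟨I₀, hI₀⟩ : ∃ I₀, I₀ = G4.qI (fun i => D i 2) := ⟨_, rfl⟩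
    obtain ⟨J₀, hJ₀⟩ : ∃ J₀, J₀ = G4.qJ (fun i => D i 2) := ⟨_, rfl⟩
    have hIv : ∀ l : ℂ, G4.qI (dq D l) = (l + b / 2) ^ 4 * I₀ := by
      intro l
      rw [hI₀]
      unfold G4.qI
      simp only [hdq]
      ring
    have hJv : ∀ l : ℂ, G4.qJ (dq D l) = (l + b / 2) ^ 6 * J₀ := by
      intro l
      rw [hJ₀]
      unfold G4.qJ
      simp only [hdq]
      ring
    refine hj (J₀ ^ 2) (I₀ ^ 3) ?_ ?_
    · by_contra hcon
      push Not at hcon
      apply hl₁
      rw [hIv, hJv, mul_pow, mul_pow, hcon.1, hcon.2, mul_zero, mul_zero, mul_zero]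
    · apply Polynomial.funext
      intro r
      simp only [eval_mul, eval_pow, eval_C, hIe, hJe, hIv, hJv]
      ring

section

variable {N : Type} [Field N] [Algebra ℂ N]

/-- **[RAT]** in the form needed for the surfaces with torsion `ℤ/4` -/
theorem quart_rational (D : Fin 5 → Fin 3 → ℂ)
    (hj : ∀ α β : ℂ, (α ≠ 0 ∨ β ≠ 0) →
      C α * G4.qI (dq (fun i j => (C (D i j) : ℂ[X])) X) ^ 3 ≠
        C β * G4.qJ (dq (fun i j => (C (D i j) : ℂ[X])) X) ^ 2)
    {l x y t₁ t₂ : N} (hind : AlgebraicIndependent ℂ ![x, l, t₁, t₂])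
    (hy : y ^ 2 = G4.qv (dq (fun i j => algebraMap ℂ N (D i j)) l) x) :
    IsRational (IntermediateField.adjoin ℂ {l, x, y, t₁, t₂}) := by
  refine quad_rational (dx D 2) (dx D 1) (dx D 0) (dx_disc_ne D hj) hind ?_
  rw [hy]
  unfold G4.qv dq dx
  simp only [map_add, map_mul, map_pow, aeval_C, aeval_X]
  ring

end

end Vale.Agent.P297.H160
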