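import Vale.Agent.P297.H160.Z2Irr
import Vale.Agent.P297.H777.GenFacts

/-!
The general numerical Godeaux surface with torsion of order two: the generic points in the
coordinates `(x, k, y, σ, τ)`, the embeddings of the function field.
-/

set_option linter.unusedSectionVars false
set_option linter.unusedVariables false
set_option linter.style.haveILetI false
set_option linter.unusedSimpArgs false

open IntermediateField

namespace Vale.Agent.P297.H160.Z2Irr

open Vale.Agent.P297 Vale.Agent.P297.Gen Vale.Agent.P297.H777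

/-- `w = (x, k, y, σ, τ)` is the vector of coordinates of the generic point of the surface. -/
structure IsFF {K : Type} [Field K] [Algebra ℂ K] (P : Par) (w : Fin 5 → K) : Prop where
  top : IntermediateField.adjoin ℂ (Set.range w) = ⊤
  e1 : E1 P (w 0) (w 1) (w 2) (w 3) (w 4)
  e2 : E2 P (w 0) (w 1) (w 2) (w 3) (w 4)
  e3 : E3 P (w 0) (w 1) (w 2) (w 3) (w 4)
  nx : w 0 ≠ 0
  nU : fU P (w 2) ≠ 0
  nV : fV P (w 2) ≠ 0
  nD : fD P (w 0) (w 1) (w 2) ≠ 0
  trdeg : Algebra.trdeg ℂ K = 2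
  nP : P.P0 ≠ 0

/-- `w` is the vector of coordinates of a generic point of the surface with values in `N`. -/
structure GenS {N : Type} [Field N] [Algebra ℂ N] (P : Par) (w : Fin 5 → N) : Prop where
  e1 : E1 P (w 0) (w 1) (w 2) (w 3) (w 4)
  e2 : E2 P (w 0) (w 1) (w 2) (w 3) (w 4)
  e3 : E3 P (w 0) (w 1) (w 2) (w 3) (w 4)
  nx : w 0 ≠ 0
  nU : fU P (w 2) ≠ 0
  nV : fV P (w 2) ≠ 0
  nD : fD P (w 0) (w 1) (w 2) ≠ 0
  ind : ∃ i j, AlgebraicIndependent ℂ ![w i, w j]

section numerators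

variable (P : Par) {R : Type*} [CommRing R] [Algebra ℂ R]

/-- the right side of the second equation, multiplied by `U V` -/
def fg (y : R) : R := fU P y * fV P y * fe P y + algebraMap ℂ R P.P2 * fU P y ^ 3 +
  algebraMap ℂ R P.P0 * fV P y ^ 3

/-- numerators cleared of the denominators `U` and `V` -/
def nT (x k y : R) : R :=
  fU P y * fV P y * x * (fa P y * fU P y + fc P y * k * fV P y) +
  (x + fV P y ^ 2) * (fg P y - (fU P y * fV P y * k + (k - 1) * (algebraMap ℂ R P.P0 * fV P y -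
    algebraMap ℂ R P.P2 * fU P y * k)) * x)

def nS (x k y : R) : R :=
  fU P y * fV P y * k * x * (fa P y * fU P y + fc P y * k * fV P y) +
  (k ^ 2 * x + fU P y ^ 2) * (fg P y - (fU P y * fV P y * k + (k - 1) *
    (algebraMap ℂ R P.P0 * fV P y - algebraMap ℂ R P.P2 * fU P y * k)) * x)

def nQ (x k y : R) : R :=
  fU P y * fV P y * x * (k * (k - 1) * x + fU P y ^ 2 - k * fV P y ^ 2)

variable {R' : Type*} [CommRing R'] [Algebra ℂ R'] (f : R →ₐ[ℂ] R')

theorem map_fg (y : R) : f (fg P y) = fg P (f y) := by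
  simp only [fg, map_add, map_mul, map_pow, map_fU, map_fV, map_fe, AlgHom.commutes]

theorem map_nT (x k y : R) : f (nT P x k y) = nT P (f x) (f k) (f y) := by
  simp only [nT, map_add, map_sub, map_mul, map_pow, map_one, map_fU, map_fV, map_fa, map_fc,
    map_fg, AlgHom.commutes]

theorem map_nS (x k y : R) : f (nS P x k y) = nS P (f x) (f k) (f y) := by
  simp only [nS, map_add, map_sub, map_mul, map_pow, map_one, map_fU, map_fV, map_fa, map_fc,
    map_fg, AlgHom.commutes]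

theorem map_nQ (x k y : R) : f (nQ P x k y) = nQ P (f x) (f k) (f y) := by
  simp only [nQ, map_add, map_sub, map_mul, map_pow, map_one, map_fU, map_fV]

end numerators

section maps

variable (P : Par) {N N' : Type*} [Field N] [Algebra ℂ N] [Field N'] [Algebra ℂ N']
  (f : N →ₐ[ℂ] N')

theorem map_fD (x k y : N) : f (fD P x k y) = fD P (f x) (f k) (f y) := by
  simp only [fD, map_add, map_sub, map_mul, map_pow, map_one, map_fU, map_fV]

theorem E1.map {P : Par} {x k y σ τ : N} (h : E1 P x k y σ τ) (f : N →ₐ[ℂ] N') :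
    E1 P (f x) (f k) (f y) (f σ) (f τ) := by
  unfold E1 at h ⊢
  have h1 := congrArg f h
  simpa only [map_add, map_sub, map_mul, map_pow, map_fU, map_fV, map_fa, map_fc] using h1

theorem E2.map {P : Par} {x k y σ τ : N} (h : E2 P x k y σ τ) (f : N →ₐ[ℂ] N') :
    E2 P (f x) (f k) (f y) (f σ) (f τ) := by
  unfold E2 at h ⊢
  have h1 := congrArg f h
  simpa only [map_add, map_sub, map_mul, map_pow, map_div₀, map_one, map_fU, map_fV, map_fe,
    AlgHom.commutes] using h1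

theorem E3.map {P : Par} {x k y σ τ : N} (h : E3 P x k y σ τ) (f : N →ₐ[ℂ] N') :
    E3 P (f x) (f k) (f y) (f σ) (f τ) := by
  unfold E3 at h ⊢
  have h1 := congrArg f h
  simpa only [map_add, map_sub, map_mul, map_pow, map_div₀, map_ofNat, map_fU, map_fV, map_fa,
    map_fc, map_fm, AlgHom.commutes] using h1

end maps

section

variable {K N N' : Type} [Field K] [Algebra ℂ K] [Field N] [Algebra ℂ N] [Field N'] [Algebra ℂ N']
  {P : Par} {x : Fin 5 → K} {w : Fin 5 → N}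

/-- The coordinates `x`, `k`, `y` -/
def xyz (w : Fin 5 → N) : Fin 3 → N := ![w 0, w 1, w 2]

theorem GenS.zH (h : GenS P w) : fQ P (w 0) (w 1) (w 2) = 0 :=
  fQ_eq_zero P h.nU h.nV h.e1 h.e2 h.e3

theorem GenS.e2' (h : GenS P w) : w 0 * (fU P (w 2) * fV P (w 2) * (w 3 - w 1 * w 4 + w 1) +
    (algebraMap ℂ N P.P0 * fV P (w 2) + algebraMap ℂ N P.P2 * fU P (w 2)) * w 1 -
    algebraMap ℂ N P.P2 * fU P (w 2) * w 1 ^ 2 - algebraMap ℂ N P.P0 * fV P (w 2)) =
      fg P (w 2) := by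
  have h2 := h.e2
  have hU := h.nU
  have hV := h.nV
  unfold E2 at h2
  unfold fg
  field_simp at h2
  linear_combination h2

theorem GenS.t_eq (h : GenS P w) :
    nQ P (w 0) (w 1) (w 2) * w 4 = nT P (w 0) (w 1) (w 2) := by
  have h1 := h.e1
  have h2 := h.e2'
  unfold E1 at h1
  unfold nQ nT
  linear_combination (fU P (w 2) * fV P (w 2) * w 0) * h1 + (w 0 + fV P (w 2) ^ 2) * h2

theorem GenS.s_eq (h : GenS P w) :
    nQ P (w 0) (w 1) (w 2) * w 3 = nS P (w 0) (w 1) (w 2) := by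
  have h1 := h.e1
  have h2 := h.e2'
  unfold E1 at h1
  unfold nQ nS
  linear_combination (fU P (w 2) * fV P (w 2) * w 1 * w 0) * h1 +
    (w 1 ^ 2 * w 0 + fU P (w 2) ^ 2) * h2

theorem GenS.nQ_ne (h : GenS P w) : nQ P (w 0) (w 1) (w 2) ≠ 0 := by
  have h1 := h.nD
  unfold fD at h1
  unfold nQ
  exact mul_ne_zero (mul_ne_zero (mul_ne_zero h.nU h.nV) h.nx) h1

theorem GenS.mem3 (h : GenS P w) (i : Fin 5) :
    w i ∈ IntermediateField.adjoin ℂ (Set.range (xyz w)) := by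
  have h0 : w 0 ∈ IntermediateField.adjoin ℂ (Set.range (xyz w)) :=
    IntermediateField.subset_adjoin _ _ ⟨0, rfl⟩
  have h1 : w 1 ∈ IntermediateField.adjoin ℂ (Set.range (xyz w)) :=
    IntermediateField.subset_adjoin _ _ ⟨1, rfl⟩
  have h2 : w 2 ∈ IntermediateField.adjoin ℂ (Set.range (xyz w)) :=
    IntermediateField.subset_adjoin _ _ ⟨2, rfl⟩
  set E := IntermediateField.adjoin ℂ (Set.range (xyz w)) with hE
  have hT : nT P (w 0) (w 1) (w 2) ∈ E := by
    have e := map_nT P E.val (⟨w 0, h0⟩ : E) ⟨w 1, h1⟩ ⟨w 2, h2⟩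
    have : nT P (w 0) (w 1) (w 2) = E.val (nT P (⟨w 0, h0⟩ : E) ⟨w 1, h1⟩ ⟨w 2, h2⟩) :=
      e.symm
    rw [this]
    exact Subtype.property _
  have hS : nS P (w 0) (w 1) (w 2) ∈ E := by
    have e := map_nS P E.val (⟨w 0, h0⟩ : E) ⟨w 1, h1⟩ ⟨w 2, h2⟩
    have : nS P (w 0) (w 1) (w 2) = E.val (nS P (⟨w 0, h0⟩ : E) ⟨w 1, h1⟩ ⟨w 2, h2⟩) :=
      e.symm
    rw [this]
    exact Subtype.property _
  have hQ : nQ P (w 0) (w 1) (w 2) ∈ E := by
    have e := map_nQ P E.val (⟨w 0, h0⟩ : E) ⟨w 1, h1⟩ ⟨w 2, h2⟩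
    have : nQ P (w 0) (w 1) (w 2) = E.val (nQ P (⟨w 0, h0⟩ : E) ⟨w 1, h1⟩ ⟨w 2, h2⟩) :=
      e.symm
    rw [this]
    exact Subtype.property _
  have h3 : w 3 ∈ E := by
    have e : w 3 = nS P (w 0) (w 1) (w 2) / nQ P (w 0) (w 1) (w 2) := by
      rw [eq_div_iff h.nQ_ne]
      linear_combination h.s_eq
    rw [e]
    exact div_mem hS hQ
  have h4 : w 4 ∈ E := by
    have e : w 4 = nT P (w 0) (w 1) (w 2) / nQ P (w 0) (w 1) (w 2) := by
      rw [eq_div_iff h.nQ_ne]
      linear_combination h.t_eq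
    rw [e]
    exact div_mem hT hQ
  fin_cases i
  · exact h0
  · exact h1
  · exact h2
  · exact h3
  · exact h4

/-- Two of `x`, `k`, `y` are algebraically independent. -/
theorem GenS.ind3 (h : GenS P w) :
    ∃ s : Fin 2 → Fin 3, AlgebraicIndependent ℂ (fun i => xyz w (s i)) := by
  obtain ⟨i, j, hij⟩ := h.ind
  refine exists_indep (xyz w) _ hij ?_
  intro k
  fin_cases k
  · exact h.mem3 i
  · exact h.mem3 j

theorem GenS.of_alg (h1 : E1 P (w 0) (w 1) (w 2) (w 3) (w 4))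
    (h2 : E2 P (w 0) (w 1) (w 2) (w 3) (w 4)) (h3 : E3 P (w 0) (w 1) (w 2) (w 3) (w 4))
    (nx : w 0 ≠ 0) (nU : fU P (w 2) ≠ 0) (nV : fV P (w 2) ≠ 0)
    (nD : fD P (w 0) (w 1) (w 2) ≠ 0)
    (u : Fin 2 → N) (hu : AlgebraicIndependent ℂ u)
    (hmem : ∀ i, IsAlgebraic (IntermediateField.adjoin ℂ (Set.range w)) (u i)) : GenS P w where
  e1 := h1
  e2 := h2
  e3 := h3
  nx := nx
  nU := nU
  nV := nV
  nD := nD
  ind := by
    obtain ⟨s, hs⟩ := exists_indep_alg w u hu hmem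
    refine ⟨s 0, s 1, ?_⟩
    convert hs using 1
    funext i
    fin_cases i <;> rfl

theorem GenS.map (h : GenS P w) (σ : N →ₐ[ℂ] N') : GenS P (fun j => σ (w j)) where
  e1 := h.e1.map σ
  e2 := h.e2.map σ
  e3 := h.e3.map σ
  nx := (map_ne_zero σ).2 h.nx
  nU := by
    rw [← map_fU P σ]
    exact (map_ne_zero σ).2 h.nU
  nV := by
    rw [← map_fV P σ]
    exact (map_ne_zero σ).2 h.nV
  nD := by
    rw [← map_fD P σ]
    exact (map_ne_zero σ).2 h.nD
  ind := by
    obtain ⟨i, j, hij⟩ := h.ind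
    refine ⟨i, j, ?_⟩
    have h1 := hij.map' (f := σ) σ.toRingHom.injective
    convert h1 using 1
    funext k
    fin_cases k <;> rfl

/-- Only the multiples of the equation vanish at a generic point. -/
theorem GenS.dvd (h0 : P.P0 ≠ 0) (h : GenS P w)
    (f : MvPolynomial (Fin 3) ℂ) : MvPolynomial.aeval (xyz w) f = 0 ↔ hP P ∣ f := by
  obtain ⟨s, hs⟩ := h.ind3
  exact dvd_of_generic (hP P) (irr_hP P h0) (xyz w) (by rw [aeval_hP]; exact h.zH) s hs f

theorem IsFF.genS (hx : IsFF P x) : GenS P x where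
  e1 := hx.e1
  e2 := hx.e2
  e3 := hx.e3
  nx := hx.nx
  nU := hx.nU
  nV := hx.nV
  nD := hx.nD
  ind := by
    obtain ⟨t, ht⟩ := exists_isTranscendenceBasis' ℂ (A := K)
    obtain ⟨u, hu⟩ := ht
    have h1 : Cardinal.mk (Fin 2) = Cardinal.mk t := by
      rw [hu.cardinalMk_eq_trdeg, hx.trdeg, Cardinal.mk_fin]
      rfl
    obtain ⟨e⟩ := Cardinal.eq.1 h1
    obtain ⟨s, hs⟩ := exists_indep x (fun i => u (e i)) (hu.1.comp e e.injective) (by
      intro i
      rw [hx.top]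
      trivial)
    refine ⟨s 0, s 1, ?_⟩
    convert hs using 1
    funext i
    fin_cases i <;> rfl

theorem IsFF.top3 (hx : IsFF P x) :
    IntermediateField.adjoin ℂ (Set.range (xyz x)) = ⊤ := by
  rw [eq_top_iff, ← hx.top, IntermediateField.adjoin_le_iff]
  rintro _ ⟨i, rfl⟩
  exact hx.genS.mem3 i

/-- Generic points are embeddings of the function field. -/
theorem GenS.exists_phi (hx : IsFF P x) (hy : GenS P w) :
    ∃ φ : K →ₐ[ℂ] N, ∀ j, φ (x j) = w j := by
  obtain ⟨s, hs⟩ := hy.ind3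
  obtain ⟨φ, hφ⟩ := exists_emb (xyz x) hx.top3 (n := 2) hx.trdeg (xyz w)
    (fun f hf => by
      rw [hy.dvd hx.nP]
      rwa [hx.genS.dvd hx.nP] at hf)
    (fun i => MvPolynomial.X (s i)) (by simpa only [MvPolynomial.aeval_X] using hs)
  refine ⟨φ, fun j => ?_⟩
  have h0 : φ (x 0) = w 0 := hφ 0
  have h1 : φ (x 1) = w 1 := hφ 1
  have h2 : φ (x 2) = w 2 := hφ 2
  fin_cases j
  · exact h0
  · exact h1
  · exact h2
  · change φ (x 3) = w 3
    have h3 := congrArg φ hx.genS.s_eq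
    rw [map_mul, map_nQ, map_nS, h0, h1, h2] at h3
    have h4 := hy.s_eq
    apply mul_left_cancel₀ hy.nQ_ne
    rw [h3, h4]
  · change φ (x 4) = w 4
    have h3 := congrArg φ hx.genS.t_eq
    rw [map_mul, map_nQ, map_nT, h0, h1, h2] at h3
    have h4 := hy.t_eq
    apply mul_left_cancel₀ hy.nQ_ne
    rw [h3, h4]

theorem phi_ext (hx : IsFF P x) {φ ψ : K →ₐ[ℂ] N} (h : ∀ j, φ (x j) = ψ (x j)) : φ = ψ := by
  apply AlgHom.ext
  intro z
  have hz : z ∈ IntermediateField.adjoin ℂ (Set.range x) := by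
    rw [hx.top]
    trivial
  have hp : ∀ q : MvPolynomial (Fin 5) ℂ, φ (MvPolynomial.aeval x q) =
      ψ (MvPolynomial.aeval x q) := by
    intro q
    rw [MvPolynomial.comp_aeval_apply, MvPolynomial.comp_aeval_apply]
    congr 2
    funext s
    exact h s
  rw [IntermediateField.mem_adjoin_range_iff] at hz
  obtain ⟨b, c, rfl⟩ := hz
  rw [map_div₀, map_div₀, hp, hp]

open Classical in
/-- The point of the function field with coordinates `w`. -/
noncomputable def pt (x : Fin 5 → K) (w : Fin 5 → N) : (K →ₐ[ℂ] N) →₀ ℤ :=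
  if h : ∃ φ : K →ₐ[ℂ] N, ∀ j, φ (x j) = w j then Finsupp.single h.choose 1 else 0

theorem pt_eq (hx : IsFF P x) {φ : K →ₐ[ℂ] N} (h : ∀ j, φ (x j) = w j) :
    pt x w = Finsupp.single φ 1 := by
  have h1 : ∃ φ : K →ₐ[ℂ] N, ∀ j, φ (x j) = w j := ⟨φ, h⟩
  unfold pt
  rw [dif_pos h1]
  congr 1
  exact phi_ext hx fun j => (h1.choose_spec j).trans (h j).symm

theorem pt_phi (hx : IsFF P x) (φ : K →ₐ[ℂ] N) : pt x (fun j => φ (x j)) = Finsupp.single φ 1 :=
  pt_eq hx fun _ => rfl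

/-- Change of the field of values. -/
theorem map_pt (hx : IsFF P x) (hy : GenS P w) (σ : N →ₐ[ℂ] N') :
    Finsupp.mapDomain (fun φ : K →ₐ[ℂ] N => σ.comp φ) (pt x w) = pt x (fun j => σ (w j)) := by
  obtain ⟨φ, hφ⟩ := hy.exists_phi hx
  rw [pt_eq hx hφ, Finsupp.mapDomain_single]
  refine (pt_eq hx fun j => ?_).symm
  rw [AlgHom.comp_apply, hφ]

end

end Vale.Agent.P297.H160.Z2Irr
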