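import Vale.Agent.P297.H424.Z2.Nodes

/-!
The lines through the nodes that meet a line over `y`: at most one of the nodes carries such a line
over the closure of `ℂ(l)`.
-/

set_option linter.unusedSectionVars false
set_option linter.unusedVariables false

open Polynomial

namespace Vale.Agent.P297.H160.Z2Six

open Vale.Agent.P297 Vale.Agent.P297.Gen Vale.Agent.P297.Z2
open Vale.Agent.P297.H160.Z2Irr

section ring

variable {R : Type} [CommRing R] [Algebra ℂ R] (P : Par)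

/-- the cubic of the nodes -/
def g3 (l al be : R) : R :=
  al * be * (algebraMap ℂ R P.Q0 * al - algebraMap ℂ R P.Q1 * be) -
    l * (algebraMap ℂ R P.P0 * al ^ 2 - algebraMap ℂ R P.P1 * (al * be) +
      algebraMap ℂ R P.P2 * be ^ 2)

set_option maxRecDepth 4000 in
/-- **The quartic on a line towards the double line at infinity.** -/
theorem tB_line (hM : P.M1 = 0) (l al p r : R) : ∃ k2 k1 k0 : R,
    tB P (C l : R[X]) (C al * X + C p) (C (-(al + 1 - l)) * X + C r) X =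
      C (4 * g3 P l al (al + 1 - l)) * X ^ 3 + C k2 * X ^ 2 + C k1 * X + C k0 := by
  let A : R := algebraMap ℂ R P.P0
  let B : R := algebraMap ℂ R P.P2
  let q0 : R := algebraMap ℂ R P.Q0
  let q1 : R := algebraMap ℂ R P.Q1
  let b1 : R := algebraMap ℂ R P.P1
  let u : R := algebraMap ℂ R P.u
  let v : R := algebraMap ℂ R P.v
  let m : R := algebraMap ℂ R P.m
  let n : R := algebraMap ℂ R P.n
  let be : R := al + 1 - l
  let t1 : R := (p + r) * l + q0 * al - q1 * be - l * (u * al - v * be - b1)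
  let t0 : R := (p + r) ^ 2 + q0 * p + q1 * r - m - l * (u * p + v * r - n)
  let n2 : R := -(al * be)
  let n1 : R := al * r - be * p
  let n0 : R := p * r - A * B
  let e2 : R := al
  let e1 : R := p + v * al + B
  let e0 : R := v * p + B * u
  let f2 : R := -be
  let f1 : R := r - u * be + A
  let f0 : R := u * r + A * v
  refine ⟨t1 ^ 2 - 4 * (n2 * t0 + n1 * t1) + 4 * l * (n2 * (e0 + f0) + n1 * (e1 + f1) +
      n0 * (e2 + f2) - (l - 1) * (e2 * f0 + e1 * f1 + e0 * f2)),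
    2 * t1 * t0 - 4 * (n1 * t0 + n0 * t1) + 4 * l * (n1 * (e0 + f0) + n0 * (e1 + f1) -
      (l - 1) * (e1 * f0 + e0 * f1)),
    t0 ^ 2 - 4 * n0 * t0 + 4 * l * (n0 * (e0 + f0) - (l - 1) * (e0 * f0)), ?_⟩
  simp only [tB, dat, Dat.Bq, Dat.K, Dat.J0, Dat.J1, Dat.N, Dat.E, Dat.F, fU, fV, fa, fc, fe, fm,
    hM, map_zero, zero_mul, add_zero, g3, t1, t0, n2, n1, n0, e2, e1, e0, f2, f1, f0, A, B, q0, q1, b1, u, v, m, n,
    be]
  simp only [Polynomial.algebraMap_apply, C_add, C_sub, C_mul, C_neg, C_pow, C_1, C_ofNat]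
  ring

set_option maxRecDepth 4000 in
/-- The leading coefficient of the quartic over `y`. -/
theorem tB_plane (l y p0 p1 r0 r1 : R) : ∃ k3 k2 k1 k0 : R,
    tB P (C l : R[X]) (C p0 + C p1 * X) (C r0 + C r1 * X) (C y) =
      C ((p1 ^ 2 - r1 ^ 2) ^ 2) * X ^ 4 + C k3 * X ^ 3 + C k2 * X ^ 2 + C k1 * X + C k0 := by
  let D : Dat R := dat P y
  let j2 : R := (p1 + r1) ^ 2 - 2 * (p1 * r1)
  let j1 : R := 2 * (p0 + r0) * (p1 + r1) + D.a * p1 + D.c * r1 - l * (D.U * p1 + D.V * r1) -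
    2 * (p0 * r1 + p1 * r0)
  let j0 : R := (p0 + r0) ^ 2 + D.a * p0 + D.c * r0 - D.m - l * (D.U * p0 + D.V * r0 - D.e) -
    2 * (p0 * r0 - D.A * D.B)
  let n2 : R := p1 * r1
  let n1 : R := p0 * r1 + p1 * r0
  let n0 : R := p0 * r0 - D.A * D.B
  let e1 : R := D.V * p1
  let e0 : R := D.V * p0 + D.B * D.U
  let f1 : R := D.U * r1
  let f0 : R := D.U * r0 + D.A * D.V
  refine ⟨2 * (j2 * j1) - 4 * (2 * (n2 * n1) - l * (n2 * (e1 + f1))),
    2 * (j2 * j0) + j1 ^ 2 - 4 * (2 * (n2 * n0) + n1 ^ 2 - l * (n2 * (e0 + f0) + n1 * (e1 + f1)) +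
      (l ^ 2 - l) * (e1 * f1)),
    2 * (j1 * j0) - 4 * (2 * (n1 * n0) - l * (n1 * (e0 + f0) + n0 * (e1 + f1)) +
      (l ^ 2 - l) * (e1 * f0 + e0 * f1)),
    j0 ^ 2 - 4 * (n0 ^ 2 - l * (n0 * (e0 + f0)) + (l ^ 2 - l) * (e0 * f0)), ?_⟩
  have hD : dat P (C y : R[X]) = (dat P y).map (C : R → R[X]) := by
    simp only [dat, Dat.map, fU, fV, fa, fc, fe, fm, Polynomial.algebraMap_apply, C_add, C_sub,
      C_mul, C_pow, C_ofNat]
  simp only [tB, hD, Dat.map, Dat.Bq, Dat.K, Dat.J0, Dat.J1, Dat.N, Dat.E, Dat.F, j2, j1, j0, n2,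
    n1, n0, e1, e0, f1, f0, D]
  simp only [C_add, C_sub, C_mul, C_pow, C_ofNat]
  ring

end ring

section field

variable {N : Type} [Field N] [Algebra ℂ N] {P : Par} {l : N}

theorem yline_lead {y p0 p1 r0 r1 s0 s1 s2 : N} (h : YLine P l y p0 p1 r0 r1 s0 s1 s2) :
    s2 ^ 2 = (p1 ^ 2 - r1 ^ 2) ^ 2 := by
  obtain ⟨k3, k2, k1, k0, hk⟩ := tB_plane P l y p0 p1 r0 r1
  have h1 := h.eq
  rw [hk] at h1
  have e : (C s0 + C s1 * X + C s2 * X ^ 2) ^ 2 = C (s2 ^ 2) * X ^ 4 + C (2 * (s1 * s2)) * X ^ 3 +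
      C (2 * (s0 * s2) + s1 ^ 2) * X ^ 2 + C (2 * (s0 * s1)) * X + C (s0 ^ 2) := by
    simp only [C_add, C_mul, C_pow, C_ofNat]
    ring
  rw [e] at h1
  have h2 := congrArg (fun f => coeff f 4) h1
  simp only [coeff_add, coeff_C_mul, coeff_X_pow, coeff_X, coeff_C] at h2
  norm_num at h2
  exact h2.symm

/-- the value of the quartic on a line over `y` -/
theorem yline_eval {y p0 p1 r0 r1 s0 s1 s2 : N} (h : YLine P l y p0 p1 r0 r1 s0 s1 s2) (z : N) :
    tB P l (p0 + p1 * z) (r0 + r1 * z) y = (s0 + s1 * z + s2 * z ^ 2) ^ 2 := by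
  have h1 := congrArg (aeval z : N[X] →ₐ[N] N) h.eq
  have h2 := map_tB P ((aeval z : N[X] →ₐ[N] N).restrictScalars ℂ) (C l : N[X])
    (C p0 + C p1 * X) (C r0 + C r1 * X) (C y)
  simp only [AlgHom.coe_restrictScalars'] at h2
  rw [h2] at h1
  simpa only [map_add, map_mul, map_pow, aeval_C, aeval_X, Algebra.algebraMap_self,
    RingHom.id_apply] using h1

theorem nline_eval {al be p r s s' : N} (h : NLine P l al be p r s s') (z : N) :
    tB P l (al * z + p) (-be * z + r) z = (s * z + s') ^ 2 := by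
  have h1 := congrArg (aeval z : N[X] →ₐ[N] N) h.eq
  have h2 := map_tB P ((aeval z : N[X] →ₐ[N] N).restrictScalars ℂ) (C l : N[X])
    (C al * X + C p) (C (-be) * X + C r) X
  simp only [AlgHom.coe_restrictScalars'] at h2
  rw [h2] at h1
  simpa only [map_add, map_mul, map_pow, aeval_C, aeval_X, Algebra.algebraMap_self,
    RingHom.id_apply] using h1

/-- The key: on a line over a closed field towards the double line, the quartic at `y` is not the
square of a linear polynomial, unless the line goes to a node. -/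
theorem g3_eq_zero (hM : P.M1 = 0) {F : IntermediateField ℂ N}
    (hF : ∀ u, IsAlgebraic F u → u ∈ F) {y al p r a b : N} (hl : l ∈ F) (hy : y ∉ F)
    (hal : al ∈ F) (hp : p ∈ F) (hr : r ∈ F) (ha : a ∈ F) (hb : b ∈ F)
    (h : tB P l (al * y + p) (-(al + 1 - l) * y + r) y = (a + b * y) ^ 2) :
    g3 P l al (al + 1 - l) = 0 := by
  obtain ⟨k2, k1, k0, hk⟩ := tB_line (R := F) P hM ⟨l, hl⟩ ⟨al, hal⟩ ⟨p, hp⟩ ⟨r, hr⟩
  have htr : Transcendental F y := fun h0 => hy (hF y h0)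
  set H : F[X] := C (4 * g3 P (⟨l, hl⟩ : F) ⟨al, hal⟩ (⟨al, hal⟩ + 1 - ⟨l, hl⟩)) * X ^ 3 +
    C k2 * X ^ 2 + C k1 * X + C k0 with hH
  have e1 : aeval y H = (a + b * y) ^ 2 := by
    rw [← hk]
    have h2 := map_tB P ((aeval y : F[X] →ₐ[F] N).restrictScalars ℂ) (C (⟨l, hl⟩ : F))
      (C (⟨al, hal⟩ : F) * X + C ⟨p, hp⟩)
      (C (-((⟨al, hal⟩ : F) + 1 - ⟨l, hl⟩)) * X + C ⟨r, hr⟩) X
    simp only [AlgHom.coe_restrictScalars', map_add, map_sub, map_neg, map_mul, map_one, aeval_C,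
      aeval_X] at h2
    rw [← h]
    simp only [map_add, map_sub, map_neg, map_one]
    exact h2
  have e2 : aeval y (C (⟨b ^ 2, pow_mem hb 2⟩ : F) * X ^ 2 +
      C (⟨2 * (a * b), mul_mem (ofNat_mem F 2) (mul_mem ha hb)⟩ : F) * X +
      C (⟨a ^ 2, pow_mem ha 2⟩ : F)) = (a + b * y) ^ 2 := by
    simp only [map_add, map_mul, map_pow, aeval_C, aeval_X]
    change b ^ 2 * y ^ 2 + 2 * (a * b) * y + a ^ 2 = _
    ring
  have e3 : H = C (⟨b ^ 2, pow_mem hb 2⟩ : F) * X ^ 2 +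
      C (⟨2 * (a * b), mul_mem (ofNat_mem F 2) (mul_mem ha hb)⟩ : F) * X +
      C (⟨a ^ 2, pow_mem ha 2⟩ : F) := by
    by_contra hne
    exact htr ⟨_, sub_ne_zero.2 hne, by rw [map_sub, e1, e2, sub_self]⟩
  have h3 := congrArg (fun f => coeff f 3) e3
  rw [hH] at h3
  simp only [coeff_add, coeff_C_mul, coeff_X_pow, coeff_X, coeff_C] at h3
  norm_num at h3
  have h4 := congrArg (algebraMap F N) h3
  rw [map_zero] at h4
  rw [← h4]
  unfold g3
  simp only [map_add, map_sub, map_mul, map_one, map_pow]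
  rfl

theorem tB_mem {F : IntermediateField ℂ N} {p r y : N} (hl : l ∈ F) (hp : p ∈ F) (hr : r ∈ F)
    (hy : y ∈ F) : tB P l p r y ∈ F := by
  have h := map_tB P F.val (⟨l, hl⟩ : F) ⟨p, hp⟩ ⟨r, hr⟩ ⟨y, hy⟩
  have h2 : tB P l p r y = F.val (tB P (⟨l, hl⟩ : F) ⟨p, hp⟩ ⟨r, hr⟩ ⟨y, hy⟩) := h.symm
  rw [h2]
  exact SetLike.coe_mem _

theorem mem_of_sq {F : IntermediateField ℂ N} (hF : ∀ u, IsAlgebraic F u → u ∈ F) {x : N}
    (h : x ^ 2 ∈ F) : x ∈ F := by
  apply hF
  refine ⟨X ^ 2 - C (⟨x ^ 2, h⟩ : F), (monic_X_pow_sub_C _ two_ne_zero).ne_zero, ?_⟩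
  simp only [map_sub, map_pow, aeval_X, aeval_C]
  exact sub_self _

theorem nline_mem {F : IntermediateField ℂ N} (hF : ∀ u, IsAlgebraic F u → u ∈ F)
    {al be p r s s' : N} (h : NLine P l al be p r s s') (hl : l ∈ F) (hal : al ∈ F) (hbe : be ∈ F)
    (hp : p ∈ F) (hr : r ∈ F) : s ∈ F ∧ s' ∈ F := by
  have h0 := nline_eval h 0
  have h1 := nline_eval h 1
  have g0 : s' ∈ F := by
    apply mem_of_sq hF
    have : s' ^ 2 = (s * 0 + s') ^ 2 := by ring
    rw [this, ← h0]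
    exact tB_mem hl (add_mem (mul_mem hal F.zero_mem) hp)
      (add_mem (mul_mem (neg_mem hbe) F.zero_mem) hr) F.zero_mem
  have g1 : s * 1 + s' ∈ F := by
    apply mem_of_sq hF
    rw [← h1]
    exact tB_mem hl (add_mem (mul_mem hal F.one_mem) hp)
      (add_mem (mul_mem (neg_mem hbe) F.one_mem) hr) F.one_mem
  refine ⟨?_, g0⟩
  have := sub_mem g1 g0
  rwa [add_sub_cancel_right, mul_one] at this

/-- linear polynomials in `y` -/
def Lin (F : IntermediateField ℂ N) (y x : N) : Prop := ∃ a ∈ F, ∃ b ∈ F, x = a + b * y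

theorem Lin.add {F : IntermediateField ℂ N} {y x x' : N} (h : Lin F y x) (h' : Lin F y x') :
    Lin F y (x + x') := by
  obtain ⟨a, ha, b, hb, rfl⟩ := h
  obtain ⟨a', ha', b', hb', rfl⟩ := h'
  exact ⟨a + a', add_mem ha ha', b + b', add_mem hb hb', by ring⟩

theorem Lin.smul {F : IntermediateField ℂ N} {y x c : N} (hc : c ∈ F) (h : Lin F y x) :
    Lin F y (c * x) := by
  obtain ⟨a, ha, b, hb, rfl⟩ := h
  exact ⟨c * a, mul_mem hc ha, c * b, mul_mem hc hb, by ring⟩

theorem Lin.of_sq {F : IntermediateField ℂ N} {y x x' : N} (h : Lin F y x') (h2 : x ^ 2 = x' ^ 2) :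
    Lin F y x := by
  rcases sq_eq_sq_iff_eq_or_eq_neg.1 h2 with h3 | h3
  · rw [h3]
    exact h
  · rw [h3]
    have := h.smul (c := -1) (neg_mem F.one_mem)
    rwa [neg_one_mul] at this

/-- **Two lines through different nodes over a closed field do not meet a line over the generic
`y`.** -/
theorem two_bad [CharZero N] (hM : P.M1 = 0) (hQ : P.Q0 ≠ P.Q1) {F : IntermediateField ℂ N}
    (hF : ∀ u, IsAlgebraic F u → u ∈ F) {y p0 p1 r0 r1 s0 s1 s2 : N} (hl : l ∈ F) (hy : y ∉ F)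
    (hY : YLine P l y p0 p1 r0 r1 s0 s1 s2) {al be al' be' : N} (n1 : IsNode P l al be)
    (n2 : IsNode P l al' be') (hal : al ∈ F) (hal' : al' ∈ F) (hne : al ≠ al')
    {z p r s s' : N} (L : NLine P l al be p r s s') (hp : p ∈ F) (hr : r ∈ F)
    (e1 : al * y + p = p0 + p1 * z) (e2 : -be * y + r = r0 + r1 * z)
    {z' p' r' t t' : N} (L' : NLine P l al' be' p' r' t t') (hp' : p' ∈ F) (hr' : r' ∈ F)
    (e1' : al' * y + p' = p0 + p1 * z') (e2' : -be' * y + r' = r0 + r1 * z') : False := by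
  have hb : be = al + 1 - l := by linear_combination n1.sub
  have hb' : be' = al' + 1 - l := by linear_combination n2.sub
  have hbe : be ∈ F := by rw [hb]; exact sub_mem (add_mem hal F.one_mem) hl
  have hbe' : be' ∈ F := by rw [hb']; exact sub_mem (add_mem hal' F.one_mem) hl
  obtain ⟨hs, hs'⟩ := nline_mem hF L hl hal hbe hp hr
  obtain ⟨ht, ht'⟩ := nline_mem hF L' hl hal' hbe' hp' hr'
  have hQ0 : Lin F y (s0 + s1 * z + s2 * z ^ 2) := by
    refine Lin.of_sq (x' := s * y + s') ⟨s', hs', s, hs, by ring⟩ ?_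
    rw [← yline_eval hY z, ← nline_eval L y, e1, e2]
  have hQ1 : Lin F y (s0 + s1 * z' + s2 * z' ^ 2) := by
    refine Lin.of_sq (x' := t * y + t') ⟨t', ht', t, ht, by ring⟩ ?_
    rw [← yline_eval hY z', ← nline_eval L' y, e1', e2']
  have hQ2 : Lin F y (s2 * (z' - z) ^ 2) := by
    refine Lin.of_sq (x' := (p' - p + (r' - r)) *
      ((p' - p - (r' - r)) + 2 * (al' - al) * y)) ?_ ?_
    · exact Lin.smul (add_mem (sub_mem hp' hp) (sub_mem hr' hr))
        ⟨_, sub_mem (sub_mem hp' hp) (sub_mem hr' hr), _,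
          mul_mem (ofNat_mem F 2) (sub_mem hal' hal), rfl⟩
    · have h1 := yline_lead hY
      have g1 : p1 * (z' - z) = (al' - al) * y + (p' - p) := by linear_combination e1 - e1'
      have g2 : r1 * (z' - z) = -(al' - al) * y + (r' - r) := by
        rw [hb] at e2
        rw [hb'] at e2'
        linear_combination e2 - e2'
      have g3 : (s2 * (z' - z) ^ 2) ^ 2 = ((p1 * (z' - z)) ^ 2 - (r1 * (z' - z)) ^ 2) ^ 2 := by
        linear_combination (z' - z) ^ 4 * h1
      rw [g3, g1, g2]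
      ring
  have key : ∀ c : N, c ∈ F → g3 P l (al + c * (al' - al)) (al + c * (al' - al) + 1 - l) = 0 := by
    intro c hc
    have h1 := yline_eval hY (z + c * (z' - z))
    have h2 : Lin F y (s0 + s1 * (z + c * (z' - z)) + s2 * (z + c * (z' - z)) ^ 2) := by
      have h3 := ((hQ0.smul (c := 1 - c) (sub_mem F.one_mem hc)).add (hQ1.smul hc)).add
        (hQ2.smul (c := c ^ 2 - c) (sub_mem (pow_mem hc 2) hc))
      have h4 : s0 + s1 * (z + c * (z' - z)) + s2 * (z + c * (z' - z)) ^ 2 =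
          (1 - c) * (s0 + s1 * z + s2 * z ^ 2) + c * (s0 + s1 * z' + s2 * z' ^ 2) +
            (c ^ 2 - c) * (s2 * (z' - z) ^ 2) := by ring
      rw [h4]
      exact h3
    obtain ⟨a, ha, b, hb1, hab⟩ := h2
    rw [hab] at h1
    refine g3_eq_zero hM hF (y := y) (al := al + c * (al' - al)) (p := p + c * (p' - p))
      (r := r + c * (r' - r)) hl hy (add_mem hal (mul_mem hc (sub_mem hal' hal)))
      (add_mem hp (mul_mem hc (sub_mem hp' hp))) (add_mem hr (mul_mem hc (sub_mem hr' hr))) ha hb1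
      ?_
    rw [← h1]
    congr 1
    · linear_combination (1 - c) * e1 + c * e1'
    · rw [hb] at e2
      rw [hb'] at e2'
      linear_combination (1 - c) * e2 + c * e2'
  have k0 := key 0 F.zero_mem
  have k1 := key 1 F.one_mem
  have k2 := key 2 (ofNat_mem F 2)
  have k3 := key 3 (ofNat_mem F 3)
  unfold g3 at k0 k1 k2 k3
  have h6 : 6 * (al' - al) ^ 3 * (algebraMap ℂ N P.Q0 - algebraMap ℂ N P.Q1) = 0 := by
    linear_combination k3 - 3 * k2 + 3 * k1 - k0
  have h7 : (al' - al) ^ 3 ≠ 0 := pow_ne_zero _ (sub_ne_zero.2 (Ne.symm hne))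
  have h8 : algebraMap ℂ N P.Q0 - algebraMap ℂ N P.Q1 ≠ 0 :=
    sub_ne_zero.2 fun h => hQ ((algebraMap ℂ N).injective h)
  exact mul_ne_zero (mul_ne_zero (by norm_num) h7) h8 h6

end field

section good

variable {N : Type} [Field N] [Algebra ℂ N] [IsAlgClosed N] {P : Par} {l : N}

theorem node_mem (hP : NC P) (hl : Transcendental ℂ l) {al be : N} (hn : IsNode P l al be) :
    al ∈ cl0 ({l} : Set N) ∧ be ∈ cl0 ({l} : Set N) := by
  have h0 := tC_of_isNode hn
  have h1 := mem_cl0_of_root hP hl h0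
  obtain ⟨h2, h3⟩ := be_of_isNode hP hl hn
  have hc : ∀ c : ℂ, algebraMap ℂ N c ∈ cl0 ({l} : Set N) := fun c => algebraMap_mem _ c
  have hq : tq P (al / be) ∈ cl0 ({l} : Set N) := by
    unfold tq
    exact add_mem (sub_mem (mul_mem (hc _) (pow_mem h1 2)) (mul_mem (hc _) h1)) (hc _)
  have hg : tg P (al / be) ∈ cl0 ({l} : Set N) := by
    unfold tg
    exact mul_mem h1 (sub_mem (mul_mem (hc _) h1) (hc _))
  have hb : nbe P (al / be) ∈ cl0 ({l} : Set N) := by
    unfold nbe tD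
    exact div_mem hq (add_mem (mul_mem (sub_mem (one_mem _) h1) hq) hg)
  have ha : nal P (al / be) ∈ cl0 ({l} : Set N) := mul_mem h1 hb
  rw [← h2] at hb
  rw [← h3] at ha
  exact ⟨ha, hb⟩

theorem notMem_of_ind {y : N} (h : AlgebraicIndependent ℂ ![l, y]) : y ∉ cl0 ({l} : Set N) := by
  rw [mem_cl0]
  have h1 := (IntermediateField.transcendental_adjoin_iff (F := ℂ) (E := N)).2
    (h.transcendental_adjoin (s := {0}) (i := 1) (by simp))
  have h2 : ![l, y] '' ({0} : Set (Fin 2)) = {l} := by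
    rw [Set.image_singleton]
    rfl
  rw [h2] at h1
  exact h1

/-- **At most one of the nodes is bad.** For two nodes, all lines through one of them which meet the
given line over `y` are generic. -/
theorem good_node (hP : NC P) (hM : P.M1 = 0) {y p0 p1 r0 r1 s0 s1 s2 : N}
    (hi : AlgebraicIndependent ℂ ![l, y]) (hY : YLine P l y p0 p1 r0 r1 s0 s1 s2)
    {al be al' be' : N} (n1 : IsNode P l al be) (n2 : IsNode P l al' be') (hne : al ≠ al') :
    (∀ z p r s s', NLine P l al be p r s s' → al * y + p = p0 + p1 * z →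
      -be * y + r = r0 + r1 * z → p ∉ cl0 {l} ∨ r ∉ cl0 {l}) ∨
    (∀ z p r s s', NLine P l al' be' p r s s' → al' * y + p = p0 + p1 * z →
      -be' * y + r = r0 + r1 * z → p ∉ cl0 {l} ∨ r ∉ cl0 {l}) := by
  have hch : CharZero N := charZero_of_injective_algebraMap (algebraMap ℂ N).injective
  have hl : Transcendental ℂ l := by
    have := hi.transcendental 0
    exact this
  have hn1 := (node_mem hP hl n1).1
  have hn2 := (node_mem hP hl n2).1
  have hy := notMem_of_ind hi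
  have hll : l ∈ cl0 ({l} : Set N) := subset_cl0 _ (Set.mem_singleton l)
  by_contra hcon
  obtain ⟨h1, h2⟩ := not_or.1 hcon
  apply h1
  intro z p r s s' L e1 e2
  by_contra h3
  obtain ⟨hp, hr⟩ := not_or.1 h3
  apply h2
  intro z' p' r' t t' L' e1' e2'
  by_contra h4
  obtain ⟨hp', hr'⟩ := not_or.1 h4
  exact two_bad hM hP.Q (F := cl0 ({l} : Set N)) (cl0_closed _) hll hy hY n1 n2
    hn1 hn2 hne L (not_not.1 hp) (not_not.1 hr) e1 e2 L' (not_not.1 hp') (not_not.1 hr') e1' e2'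

/-- **There is a good node.** -/
theorem exists_good_node (hP : NC P) (hM : P.M1 = 0) {y p0 p1 r0 r1 s0 s1 s2 : N}
    (hi : AlgebraicIndependent ℂ ![l, y]) (hY : YLine P l y p0 p1 r0 r1 s0 s1 s2) :
    ∃ al be : N, IsNode P l al be ∧ al ∈ cl0 {l} ∧ be ∈ cl0 {l} ∧
      ∀ z p r s s', NLine P l al be p r s s' → al * y + p = p0 + p1 * z →
        -be * y + r = r0 + r1 * z → p ∉ cl0 {l} ∨ r ∉ cl0 {l} := by
  have hl : Transcendental ℂ l := by
    have := hi.transcendental 0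
    exact this
  obtain ⟨t, H⟩ := exists_tri hP hl
  have n0 := H.isNode hP hl 0
  have n1 := H.isNode hP hl 1
  have hne : nal P (t 0) ≠ nal P (t 1) := by
    intro h
    have hb : nbe P (t 0) = nbe P (t 1) := by
      have h1 := n0.sub
      have h2 := n1.sub
      linear_combination h1 - h2 + h
    have h3 : t 0 = t 1 := by
      have hb0 := n1.be0
      have h4 : t 0 * nbe P (t 0) = t 1 * nbe P (t 1) := h
      rw [hb] at h4
      exact mul_right_cancel₀ hb0 h4
    exact absurd (H.inj h3) (by decide)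
  rcases good_node hP hM hi hY n0 n1 hne with h | h
  · exact ⟨_, _, n0, (node_mem hP hl n0).1, (node_mem hP hl n0).2, h⟩
  · exact ⟨_, _, n1, (node_mem hP hl n1).1, (node_mem hP hl n1).2, h⟩

end good

end Vale.Agent.P297.H160.Z2Six
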