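import Vale.Agent.P297.H160.FourZeroHalf

/-!
Surfaces with torsion `ℤ/4`, the case `β = γ = 0`: the decomposition of the quartic.
-/

set_option linter.unusedSectionVars false

open Polynomial

namespace Vale.Agent.P297.H160

/-- The excluded parameters in the case `β = γ = 0` (for these, the function field is the field of a
quotient of an abelian surface). -/
def Special (m : Fin 11 → ℂ) : Prop :=
  ∃ r : ℂ, m 7 = -8 * m 0 * r ∧ m 3 = 6 * m 0 * r ^ 2 ∧ m 8 = -8 * m 0 * r ^ 3 ∧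
    m 2 = m 0 * r ^ 4 ∧ m 4 = -r * m 5 ∧ m 6 = r ^ 2 * m 5

/-- the four roots of a quartic -/
theorem exists_roots4 (a b c d e : ℂ) (ha : a ≠ 0) : ∃ r₁ r₂ r₃ r₄ : ℂ,
    b = -a * (r₁ + r₂ + r₃ + r₄) ∧
    c = a * (r₁ * r₂ + r₁ * r₃ + r₁ * r₄ + r₂ * r₃ + r₂ * r₄ + r₃ * r₄) ∧
    d = -a * (r₁ * r₂ * r₃ + r₁ * r₂ * r₄ + r₁ * r₃ * r₄ + r₂ * r₃ * r₄) ∧
    e = a * (r₁ * r₂ * r₃ * r₄) := by
  have hroot : ∀ p : ℂ[X], p.natDegree ≠ 0 → ∃ x, p.eval x = 0 := fun p hp =>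
    IsAlgClosed.exists_root p (fun h => hp (natDegree_eq_of_degree_eq_some h))
  obtain ⟨r₁, h₁⟩ := hroot (C a * X ^ 4 + C b * X ^ 3 + C c * X ^ 2 + C d * X + C e) (by
    have : (C a * X ^ 4 + C b * X ^ 3 + C c * X ^ 2 + C d * X + C e).natDegree = 4 := by
      compute_degree!
    rw [this]; norm_num)
  obtain ⟨b', hb'⟩ : ∃ b', b' = b + a * r₁ := ⟨_, rfl⟩
  obtain ⟨c', hc'⟩ : ∃ c', c' = c + b' * r₁ := ⟨_, rfl⟩
  obtain ⟨d', hd'⟩ : ∃ d', d' = d + c' * r₁ := ⟨_, rfl⟩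
  obtain ⟨r₂, h₂⟩ := hroot (C a * X ^ 3 + C b' * X ^ 2 + C c' * X + C d') (by
    have : (C a * X ^ 3 + C b' * X ^ 2 + C c' * X + C d').natDegree = 3 := by
      compute_degree!
    rw [this]; norm_num)
  obtain ⟨b'', hb''⟩ : ∃ b'', b'' = b' + a * r₂ := ⟨_, rfl⟩
  obtain ⟨c'', hc''⟩ : ∃ c'', c'' = c' + b'' * r₂ := ⟨_, rfl⟩
  obtain ⟨r₃, h₃⟩ := hroot (C a * X ^ 2 + C b'' * X + C c'') (by
    have : (C a * X ^ 2 + C b'' * X + C c'').natDegree = 2 := by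
      compute_degree!
    rw [this]; norm_num)
  simp only [eval_add, eval_mul, eval_C, eval_pow, eval_X] at h₁ h₂ h₃
  have h4 : a * (-(b'' + a * r₃) / a) = -(b'' + a * r₃) := by field_simp
  obtain ⟨r₄, hr₄⟩ : ∃ r₄, r₄ = -(b'' + a * r₃) / a := ⟨_, rfl⟩
  rw [← hr₄] at h4
  subst hb'' hc''
  subst hd'
  subst hc'
  subst hb'
  have e1 : b = -a * (r₁ + r₂ + r₃ + r₄) := by linear_combination h4
  subst e1
  have e2 : c = a * (r₁ * r₂ + r₁ * r₃ + r₁ * r₄ + r₂ * r₃ + r₂ * r₄ + r₃ * r₄) := by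
    linear_combination h₃
  subst e2
  have e3 : d = -a * (r₁ * r₂ * r₃ + r₁ * r₂ * r₄ + r₁ * r₃ * r₄ + r₂ * r₃ * r₄) := by
    linear_combination h₂
  subst e3
  refine ⟨r₁, r₂, r₃, r₄, rfl, rfl, rfl, ?_⟩
  linear_combination h₁

theorem gD_coeff_zero (m : Fin 11 → ℂ) (c d : Fin 3 → ℂ) :
    (gD m c d).coeff 0 = (2 * m 1) ^ 2 * (c 1 ^ 2 - 4 * c 2 * c 0) := by
  have h4 : (4 : ℂ[X]) = C 4 := rfl
  unfold gD gR
  rw [coeff_zero_eq_eval_zero, h4]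
  simp only [eval_sub, eval_mul, eval_pow, eval_add, eval_C, eval_X]
  ring

theorem exists_split {m : Fin 11 → ℂ} (m0 : m 0 ≠ 0) (m1 : m 1 ≠ 0) (h : ¬ Special m) :
    ∃ c d, Split m c d ∧ gD m c d ≠ 0 := by
  obtain ⟨r₁, r₂, r₃, r₄, e1, e2, e3, e4⟩ := exists_roots4 (2 * m 0) (m 7) (2 * m 3) (m 8)
    (2 * m 2) (mul_ne_zero two_ne_zero m0)
  -- a choice of a pair of roots
  have key : ∀ s₁ s₂ s₃ s₄ : ℂ, s₁ ≠ s₂ → m 7 = -(2 * m 0) * (s₁ + s₂ + s₃ + s₄) →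
      2 * m 3 = 2 * m 0 * (s₁ * s₂ + s₁ * s₃ + s₁ * s₄ + s₂ * s₃ + s₂ * s₄ + s₃ * s₄) →
      m 8 = -(2 * m 0) * (s₁ * s₂ * s₃ + s₁ * s₂ * s₄ + s₁ * s₃ * s₄ + s₂ * s₃ * s₄) →
      2 * m 2 = 2 * m 0 * (s₁ * s₂ * s₃ * s₄) → ∃ c d, Split m c d ∧ gD m c d ≠ 0 := by
    intro s₁ s₂ s₃ s₄ h12 f1 f2 f3 f4
    refine ⟨![2 * m 0, -(2 * m 0) * (s₁ + s₂), 2 * m 0 * (s₁ * s₂)],
      ![1, -(s₃ + s₄), s₃ * s₄], ⟨?_, ?_, ?_, ?_, ?_⟩, ?_⟩
    · simp
    · change 2 * m 0 * -(s₃ + s₄) + -(2 * m 0) * (s₁ + s₂) * 1 = m 7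
      rw [f1]; ring
    · change 2 * m 0 * (s₃ * s₄) + -(2 * m 0) * (s₁ + s₂) * -(s₃ + s₄) + 2 * m 0 * (s₁ * s₂) * 1 =
        2 * m 3
      rw [f2]; ring
    · change -(2 * m 0) * (s₁ + s₂) * (s₃ * s₄) + 2 * m 0 * (s₁ * s₂) * -(s₃ + s₄) = m 8
      rw [f3]; ring
    · change 2 * m 0 * (s₁ * s₂) * (s₃ * s₄) = 2 * m 2
      rw [f4]; ring
    · intro h0
      have h1 := gD_coeff_zero m ![2 * m 0, -(2 * m 0) * (s₁ + s₂), 2 * m 0 * (s₁ * s₂)]
        ![1, -(s₃ + s₄), s₃ * s₄]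
      rw [h0, coeff_zero] at h1
      change 0 = (2 * m 1) ^ 2 * ((-(2 * m 0) * (s₁ + s₂)) ^ 2 -
        4 * (2 * m 0 * (s₁ * s₂)) * (2 * m 0)) at h1
      have h2 : (2 * m 1) ^ 2 * (2 * m 0) ^ 2 * (s₁ - s₂) ^ 2 = 0 := by
        rw [h1]; ring
      refine mul_ne_zero (mul_ne_zero (pow_ne_zero 2 (mul_ne_zero two_ne_zero m1))
        (pow_ne_zero 2 (mul_ne_zero two_ne_zero m0))) (pow_ne_zero 2 (sub_ne_zero.2 h12)) h2
  by_cases h12 : r₁ = r₂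
  · by_cases h13 : r₁ = r₃
    · by_cases h14 : r₁ = r₄
      · subst h12 h13 h14
        -- four equal roots
        obtain ⟨d, hd⟩ : ∃ d : Fin 3 → ℂ, d = ![1, -(2 * r₁), r₁ ^ 2] := ⟨_, rfl⟩
        have d0 : d 0 = 1 := by rw [hd]; rfl
        have d1 : d 1 = -(2 * r₁) := by rw [hd]; rfl
        have d2 : d 2 = r₁ ^ 2 := by rw [hd]; rfl
        refine ⟨fun i => 2 * m 0 * d i, d, ⟨?_, ?_, ?_, ?_, ?_⟩, ?_⟩
        · rw [d0]; ring
        · rw [d0, d1, e1]; ring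
        · rw [d0, d1, d2, e2]; ring
        · rw [d1, d2, e3]; ring
        · rw [d2, e4]; ring
        · intro h0
          apply h
          have h4 : (4 : ℂ[X]) = C 4 := rfl
          have hev : ∀ x : ℂ, -4 * x * (x ^ 2 + 4 * m 0 * m 1) * (2 * r₁ * m 4 + r₁ ^ 2 * m 5 + m 6) +
              4 * x ^ 2 * (m 4 ^ 2 - m 5 * m 6) = 0 := by
            intro x
            have h1 := congrArg (eval x) h0
            unfold gD gR at h1
            rw [h4] at h1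
            simp only [eval_sub, eval_mul, eval_pow, eval_add, eval_C, eval_X, eval_zero] at h1
            rw [d0, d1, d2] at h1
            linear_combination h1
          have v1 := hev 1
          have v2 := hev (-1)
          have v3 := hev 2
          have v4 := hev (-2)
          have k1 : 2 * r₁ * m 4 + r₁ ^ 2 * m 5 + m 6 = 0 := by
            linear_combination (v3 - v4 - 2 * v1 + 2 * v2) / (-48)
          have k2 : m 4 ^ 2 - m 5 * m 6 = 0 := by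
            linear_combination (v1 + v2) / 8
          have k3 : m 4 = -r₁ * m 5 := by
            have h5 : (m 4 + r₁ * m 5) ^ 2 = 0 := by
              linear_combination k2 + m 5 * k1
            have h6 := (pow_eq_zero_iff two_ne_zero).1 h5
            linear_combination h6
          refine ⟨r₁, ?_, ?_, ?_, ?_, k3, ?_⟩
          · rw [e1]; ring
          · linear_combination e2 / 2
          · rw [e3]; ring
          · linear_combination e4 / 2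
          · rw [k3] at k1
            linear_combination k1
      · exact key r₁ r₄ r₂ r₃ h14 (by rw [e1]; ring) (by rw [e2]; ring) (by rw [e3]; ring)
          (by rw [e4]; ring)
    · exact key r₁ r₃ r₂ r₄ h13 (by rw [e1]; ring) (by rw [e2]; ring) (by rw [e3]; ring)
        (by rw [e4]; ring)
  · exact key r₁ r₂ r₃ r₄ h12 (by rw [e1]) (by rw [e2]) (by rw [e3]) (by rw [e4])

end Vale.Agent.P297.H160
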