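import Vale.Agent.P297.H160.FourOne
import Vale.Agent.P297.H160.FourSplit

/-!
Bloch's conjecture for the surfaces with torsion `ℤ/4`, with the case `β = γ = 0`.
-/

set_option linter.unusedSectionVars false
set_option linter.style.haveILetI false

open CategoryTheory AlgebraicGeometry IntermediateField Polynomial

namespace Vale.Agent.P297.H160

open Vale.Agent.P297 Vale.Agent.P297.H839 Vale.Agent.P297.G4
open Vale.Agent.P297.H600 Vale.Agent.P297.H729

variable {K : Type} [Field K] [Algebra ℂ K]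

/-- The condition on the parameters: some member of the net of quadrics is not degenerate. -/
def NonDegZ (m : Fin 11 → ℂ) : Prop :=
  (m 9 ≠ 0 ∨ m 10 ≠ 0 ∨ ¬ Special m) ∧
    (m 7 ≠ 0 ∨ m 8 ≠ 0 ∨ 4 * m 5 ≠ m 10 ^ 2 ∨ 4 * m 6 ≠ m 9 ^ 2)

/-- **Any two points are rationally equivalent**, from the relations on the other side. -/
theorem four_of_tside {m : Fin 11 → ℂ} (m0 : m 0 ≠ 0) (m1 : m 1 ≠ 0) (hm : NonDegZ m)
    {u w p q : K} (hs : OnSurf (fun i => algebraMap ℂ K (m i)) u w p q)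
    (hind : AlgebraicIndependent ℂ ![u, w])
    (htop : IntermediateField.adjoin ℂ {u, w, p, q} = ⊤)
    (hT : Algebra.trdeg ℂ (BigField K 2) = 4 → ∀ s X Y : BigField K 2, Gen m s X Y →
      (8 : ℤ) • (G4.Bs u w p q m s X Y - G4.Bs u w p q m s⁻¹ X Y) ∈
        stableRelations K (BigField K 2))
    {S : Scheme.{0}} [IsIntegral S] (f : S ⟶ Spec (.of ℂ)) [IsProper f]
    (hS : IsFunctionFieldOf f K) (x y : ClosedPt S) : RatEquiv f x y := by
  obtain ⟨h1, h2, h3⟩ := exists_field (Ω := BigField K 2) u w hind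
    (alg_top hs hind htop m0) (bigVar K 2) (bigVar_basis K 2)
  by_cases hz : m 9 = 0 ∧ m 10 = 0
  · obtain ⟨m9, m10⟩ := hz
    have hsp : ¬ Special m := by
      rcases hm.1 with h | h | h
      · exact absurd m9 h
      · exact absurd m10 h
      · exact h
    obtain ⟨c, d, hcd, hgD⟩ := exists_split m0 m1 hsp
    have h32 : Finsupp.single (IsScalarTower.toAlgHom ℂ K (BigField K 2)) (32 : ℤ) ∈
        stableRelations K (BigField K 2) :=
      kside_zero m m0 m1 m9 m10 hm.2 hcd hgD hs hind htop _ (bigVar K 2 0) (bigVar K 2 1) h1 h2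
        (hT h3)
    exact four_one_zero m m0 m9 m10 hcd hgD hs hind htop f hS (criterion_big _ 32 h32 f hS) x y
  · have hm' : NonDeg m := by
      refine ⟨?_, hm.2⟩
      by_contra hcon
      push Not at hcon
      exact hz hcon
    have h32 : Finsupp.single (IsScalarTower.toAlgHom ℂ K (BigField K 2)) (32 : ℤ) ∈
        stableRelations K (BigField K 2) :=
      kside' m m0 m1 hm' hs hind htop _ (bigVar K 2 0) (bigVar K 2 1) h1 h2 (hT h3)
    exact four_one m m0 m1 hm' hs hind htop f hS (criterion_big _ 32 h32 f hS) x y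

/-- **Any two points are rationally equivalent.** -/
theorem four_integral_all {m : Fin 11 → ℂ} {D : Fin 5 → Fin 3 → ℂ}
    (hD : ∀ l : ℂ, qI (H160.dq D l) = ID m l 1 ∧ qJ (H160.dq D l) = JD m l 1)
    (hj : ∀ α β : ℂ, (α ≠ 0 ∨ β ≠ 0) →
      C α * qI (H160.dq (fun i j => (C (D i j) : ℂ[X])) X) ^ 3 ≠
        C β * qJ (H160.dq (fun i j => (C (D i j) : ℂ[X])) X) ^ 2)
    (m0 : m 0 ≠ 0) (m1 : m 1 ≠ 0) (hm : NonDegZ m) {u w p q : K}
    (hs : OnSurf (fun i => algebraMap ℂ K (m i)) u w p q)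
    (hind : AlgebraicIndependent ℂ ![u, w])
    (htop : IntermediateField.adjoin ℂ {u, w, p, q} = ⊤)
    {S : Scheme.{0}} [IsIntegral S] (f : S ⟶ Spec (.of ℂ)) [IsProper f]
    (hS : IsFunctionFieldOf f K) (x y : ClosedPt S) : RatEquiv f x y :=
  four_of_tside m0 m1 hm hs hind htop (fun h3 _ _ _ hg =>
    tside hD hj h3 (G4.Bs u w p q m) (fun g e X Y => act_Bs g u w p q m e X Y) hg) f hS x y

end Vale.Agent.P297.H160
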