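import Vale.Agent.P297.H572.Data

/-! The discriminant identity of the family. -/

namespace Vale.Agent.P297.H160

open Vale.Agent.P297.H424 Vale.Agent.P297.H572

theorem run_step {M : Type*} {o : Bo M} {st L : List M} {e : E1} {es : List E1}
    (h : run o st (e :: es) = L) : ∃ r, ev o st e = r ∧ run o (r :: st) es = L :=
  ⟨_, rfl, by rwa [run_cons] at h⟩

/-- The discriminant identity. -/
theorem disc_id (s u ρ : ℂ) : (D s).DiscId ℂ u ρ := by
  obtain ⟨l', h⟩ := check1_sound chkDisc [s, u, ρ] rfl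
  unfold discP at h
  obtain ⟨m00, gm00, k⟩ := run_step h; clear h
  obtain ⟨m01, gm01, h⟩ := run_step k; clear k
  obtain ⟨m02, gm02, k⟩ := run_step h; clear h
  obtain ⟨m10, gm10, h⟩ := run_step k; clear k
  obtain ⟨m11, gm11, k⟩ := run_step h; clear h
  obtain ⟨m12, gm12, h⟩ := run_step k; clear k
  obtain ⟨m20, gm20, k⟩ := run_step h; clear h
  obtain ⟨m21, gm21, h⟩ := run_step k; clear k
  obtain ⟨m22, gm22, k⟩ := run_step h; clear h
  obtain ⟨b0, gb0, h⟩ := run_step k; clear k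
  obtain ⟨b1, gb1, k⟩ := run_step h; clear h
  obtain ⟨b2, gb2, h⟩ := run_step k; clear k
  obtain ⟨e0, ge0, k⟩ := run_step h; clear h
  obtain ⟨e1, ge1, h⟩ := run_step k; clear k
  obtain ⟨e2, ge2, k⟩ := run_step h; clear h
  obtain ⟨c, gc, h⟩ := run_step k; clear k
  obtain ⟨a, ga, k⟩ := run_step h; clear h
  obtain ⟨f0, gf0, h⟩ := run_step k; clear k
  obtain ⟨f1, gf1, k⟩ := run_step h; clear h
  obtain ⟨f2, gf2, h⟩ := run_step k; clear k
  obtain ⟨ep, gep, k⟩ := run_step h; clear h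
  obtain ⟨be, gbe, h⟩ := run_step k; clear k
  obtain ⟨fn, gfn, k⟩ := run_step h; clear h
  simp only [ev_add, ev_sub, ev_mul, ev_pow, ev_v, ev_k, ev_r, ev_hor, nth_zero, nth_succ, vec_0,
    vec_s] at gm00 gm01 gm02 gm10 gm11 gm12 gm20 gm21 gm22 gb0 gb1
  simp only [ev_add, ev_sub, ev_mul, ev_pow, ev_v, ev_k, ev_r, ev_hor, nth_zero, nth_succ, vec_0,
    vec_s] at gb2 ge0 ge1 ge2 gc ga gf0 gf1 gf2 gep gbe gfn
  have h0 : fn = 0 := List.head_eq_of_cons_eq k
  clear k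
  have k00 : (D s).mat u 0 0 = m00 := by
    rw [← gm00]; simp [Net.mat, D]
  have k01 : (D s).mat u 0 1 = m01 := by
    rw [← gm01]; simp [Net.mat, D]
  have k02 : (D s).mat u 0 2 = m02 := by
    rw [← gm02]; simp [Net.mat, D]
  have k10 : (D s).mat u 1 0 = m10 := by
    rw [← gm10]; simp [Net.mat, D]
  have k11 : (D s).mat u 1 1 = m11 := by
    rw [← gm11]; simp [Net.mat, D]
  have k12 : (D s).mat u 1 2 = m12 := by
    rw [← gm12]; simp [Net.mat, D]
  have k20 : (D s).mat u 2 0 = m20 := by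
    rw [← gm20]; simp [Net.mat, D]
  have k21 : (D s).mat u 2 1 = m21 := by
    rw [← gm21]; simp [Net.mat, D]
  have k22 : (D s).mat u 2 2 = m22 := by
    rw [← gm22]; simp [Net.mat, D]
  have kb0 : (D s).bb u 0 = b0 := by rw [← gb0, Net.bb, k00, k01, k02]
  have ke0 : (D s).ee u ρ 0 = e0 := by rw [← ge0, Net.ee, k00, k02]
  have kb1 : (D s).bb u 1 = b1 := by rw [← gb1, Net.bb, k10, k11, k12]
  have ke1 : (D s).ee u ρ 1 = e1 := by rw [← ge1, Net.ee, k10, k12]
  have kb2 : (D s).bb u 2 = b2 := by rw [← gb2, Net.bb, k20, k21, k22]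
  have ke2 : (D s).ee u ρ 2 = e2 := by rw [← ge2, Net.ee, k20, k22]
  have kc : hv (d := 3) (D s).c u ρ 1 = c := by
    rw [← gc]; simp [hv, D, Fin.sum_univ_succ]; ring
  have ka : hv (d := 2) (D s).a u ρ 1 = a := by
    rw [← ga]; simp [hv, D, Fin.sum_univ_succ]; ring
  have kep : pv (D s).e u = ep := by
    rw [← gep]; simp [pv, D, Fin.sum_univ_succ]
  have kbe : hv (d := 6) (D s).b u ρ 1 = be := by
    rw [← gbe]; simp [hv, D, Fin.sum_univ_succ]; ring
  unfold Data.DiscId Data.ff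
  rw [kb0, kb1, kb2, ke0, ke1, ke2, kc, ka, kep, kbe, gf0, gf1, gf2]
  rw [h0] at gfn
  push_cast at gfn
  linear_combination gfn

end Vale.Agent.P297.H160
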