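import Vale.Agent.P297.H160.C5Disc

/-! The twin identity of the family. -/

namespace Vale.Agent.P297.H160

open Vale.Agent.P297.H424 Vale.Agent.P297.H572

/-- The twin identity. -/
theorem twin_id (s : ℂ) (hk : kap s ≠ 0) (u : ℂ) (x : Fin 3 → ℂ) : (D s).TwinId ℂ u x := by
  obtain ⟨l', h⟩ := check1_sound chkTwin [s, u, x 0, x 1, x 2] rfl
  unfold twinP at h
  obtain ⟨al0, gal0, k⟩ := run_step h; clear h
  obtain ⟨al1, gal1, h⟩ := run_step k; clear k
  obtain ⟨al2, gal2, k⟩ := run_step h; clear h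
  obtain ⟨be0, gbe0, h⟩ := run_step k; clear k
  obtain ⟨be1, gbe1, k⟩ := run_step h; clear h
  obtain ⟨be2, gbe2, h⟩ := run_step k; clear k
  obtain ⟨A2, gA2, k⟩ := run_step h; clear h
  obtain ⟨A1, gA1, h⟩ := run_step k; clear k
  obtain ⟨A0, gA0, k⟩ := run_step h; clear h
  obtain ⟨yy, gyy, h⟩ := run_step k; clear k
  obtain ⟨zz, gzz, k⟩ := run_step h; clear h
  obtain ⟨ch, gch, h⟩ := run_step k; clear k
  obtain ⟨ah, gah, k⟩ := run_step h; clear h
  obtain ⟨ep, gep, h⟩ := run_step k; clear k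
  obtain ⟨lA0, glA0, k⟩ := run_step h; clear h
  obtain ⟨lA1, glA1, h⟩ := run_step k; clear k
  obtain ⟨lam, glam, k⟩ := run_step h; clear h
  obtain ⟨fn, gfn, h⟩ := run_step k; clear k
  simp only [ev_add, ev_sub, ev_mul, ev_pow, ev_v, ev_k, ev_r, ev_hor, nth_zero, nth_succ, vec_0,
    vec_s, Int.cast_zero, zero_sub] at gal0 gal1 gal2 gbe0 gbe1 gbe2 gA2 gA1 gA0
  simp only [ev_add, ev_sub, ev_mul, ev_pow, ev_v, ev_k, ev_r, ev_hor, nth_zero, nth_succ, vec_0,
    vec_s, Int.cast_zero, zero_sub] at gyy gzz gch gah gep glA0 glA1 glam gfn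
  have h0 : fn = 0 := List.head_eq_of_cons_eq h
  clear h
  have kal0 : (D s).al x 0 = al0 := by
    rw [← gal0]; simp [Net.al, D, Matrix.mulVec, dotProduct, Fin.sum_univ_succ]; ring
  have kbe0 : (D s).be x 0 = be0 := by
    rw [← gbe0]; simp [Net.be, D, Matrix.mulVec, dotProduct, Fin.sum_univ_succ]; ring
  have kal1 : (D s).al x 1 = al1 := by
    rw [← gal1]; simp [Net.al, D, Matrix.mulVec, dotProduct, Fin.sum_univ_succ]
  have kbe1 : (D s).be x 1 = be1 := by
    rw [← gbe1]; simp [Net.be, D, Matrix.mulVec, dotProduct, Fin.sum_univ_succ]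
  have kal2 : (D s).al x 2 = al2 := by
    rw [← gal2]; simp [Net.al, D, Matrix.mulVec, dotProduct, Fin.sum_univ_succ]; ring
  have kbe2 : (D s).be x 2 = be2 := by
    rw [← gbe2]; simp [Net.be, D, Matrix.mulVec, dotProduct, Fin.sum_univ_succ]; ring
  have kA2 : (D s).a2 x = A2 := by
    rw [← gA2, Net.a2, kbe0, kbe1, kbe2]; push_cast; ring
  have kA1 : (D s).a1 x = A1 := by
    rw [← gA1, Net.a1, kbe0, kbe1, kbe2, kal0, kal1, kal2]; push_cast; ring
  have kA0 : (D s).a0 x = A0 := by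
    rw [← gA0, Net.a0, kal0, kal1, kal2]; push_cast; ring
  have kch : hv (d := 3) (D s).c u yy zz = ch := by
    rw [← gch]; simp [hv, D, Fin.sum_univ_succ]; ring
  have kah : hv (d := 2) (D s).a u yy zz = ah := by
    rw [← gah]; simp [hv, D, Fin.sum_univ_succ]; ring
  have kep : pv (D s).e u = ep := by
    rw [← gep]; simp [pv, D, Fin.sum_univ_succ]
  have klA0 : kap s * lin (D s).A0 x = lA0 := by
    rw [← glA0]; simp [lin, D, Fin.sum_univ_succ]; field_simp
  have klA1 : kap s * lin (D s).A1 x = lA1 := by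
    rw [← glA1]; simp [lin, D, Fin.sum_univ_succ]; field_simp
  have klam : kap s * lv (D s).lam u x = lam := by
    rw [← glam]; simp [lv, D, Fin.sum_univ_succ]; field_simp; ring
  unfold Data.TwinId
  rw [show u * x 0 - x 1 = yy from gyy, show -(x 2 + u * x 1) = zz from gzz,
    kch, kah, kep, kA2, kA1, kA0]
  rw [h0] at gfn
  change kap s * (ch + x 1 * ah) - _ = 0 at gfn
  apply mul_left_cancel₀ hk
  linear_combination gfn - u * ep ^ 2 * A2 * klA0 + u * ep ^ 2 * (A1 + u * A2) * klA1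
    - u * (A2 * u ^ 2 + A1 * u + A0) * klam

end Vale.Agent.P297.H160
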