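import Vale.Agent.P297.H72.Fib

/-!
Components of plane curves through a point, and independence of two square roots on a line.
-/

set_option linter.unusedSectionVars false
set_option linter.style.haveILetI false

open IntermediateField Polynomial

namespace Vale.Agent.P297.H160

open Vale.Agent.P297 Vale.Agent.P297.H72

theorem ev_const {E : Type} [CommRing E] [Algebra ℂ E] (a : ℂ) (x : E) (p : ℂ[X][X]) :
    ev (algebraMap ℂ E a) x p = aeval x (p.map (evalRingHom a)) := by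
  induction p using Polynomial.induction_on' with
  | add p q hp hq => rw [map_add, Polynomial.map_add, map_add, hp, hq]
  | monomial n b =>
    rw [← C_mul_X_pow_eq_monomial, map_mul, map_pow, ev_C, ev_X, Polynomial.map_mul,
      Polynomial.map_pow, map_X, map_C, map_mul, map_pow, aeval_C, aeval_X, coe_evalRingHom]
    congr 1
    rw [aeval_algebraMap_apply]
    rfl

theorem ev_complex (a x : ℂ) (p : ℂ[X][X]) : ev a x p = (p.map (evalRingHom a)).eval x := by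
  have h := ev_const (E := ℂ) a x p
  rw [Algebra.algebraMap_self, RingHom.id_apply] at h
  rw [h, coe_aeval_eq_eval]

theorem map_natDegree {p : ℂ[X][X]} {a : ℂ} (h : p.leadingCoeff.eval a ≠ 0) :
    (p.map (evalRingHom a)).natDegree = p.natDegree :=
  natDegree_map_of_leadingCoeff_ne_zero _ h

/-- **[P3]** -/
theorem exists_component (G : ℂ[X][X]) (v₀ l₀ a : ℂ) (h0 : ev v₀ l₀ G = 0)
    (hv : G.map (evalRingHom v₀) ≠ 0) (ha : G.leadingCoeff.eval a ≠ 0) :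
    ∃ π : ℂ[X][X], Irreducible π ∧ π ∣ G ∧ ev v₀ l₀ π = 0 ∧ 0 < π.natDegree ∧
      ∃ l₁ : ℂ, ev a l₁ π = 0 := by
  have hG : G ≠ 0 := by
    rintro rfl
    exact hv (by simp)
  obtain ⟨s, hs, hu⟩ := WfDvdMonoid.exists_factors G hG
  obtain ⟨u, hu⟩ := hu
  have h1 : ev v₀ l₀ s.prod = 0 := by
    have h2 : ev v₀ l₀ (s.prod * u) = 0 := by rw [hu]; exact h0
    rw [map_mul] at h2
    refine (mul_eq_zero.1 h2).resolve_right ?_
    have h3 : IsUnit (ev v₀ l₀ (u : ℂ[X][X])) := u.isUnit.map _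
    exact h3.ne_zero
  rw [map_multiset_prod, Multiset.prod_eq_zero_iff, Multiset.mem_map] at h1
  obtain ⟨π, hπ, hπ0⟩ := h1
  have hirr := hs π hπ
  have hdvd : π ∣ G := (Multiset.dvd_prod hπ).trans ⟨u, hu.symm⟩
  have hlead : π.leadingCoeff.eval a ≠ 0 := by
    obtain ⟨r, rfl⟩ := hdvd
    rw [leadingCoeff_mul, eval_mul] at ha
    exact left_ne_zero_of_mul ha
  have hdeg : 0 < π.natDegree := by
    rw [Nat.pos_iff_ne_zero]
    intro h2
    rw [natDegree_eq_zero] at h2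
    obtain ⟨q, rfl⟩ := h2
    apply hv
    obtain ⟨r, rfl⟩ := hdvd
    rw [Polynomial.map_mul, map_C]
    rw [ev_C, coe_aeval_eq_eval] at hπ0
    rw [coe_evalRingHom, hπ0, C_0, zero_mul]
  refine ⟨π, hirr, hdvd, hπ0, hdeg, ?_⟩
  have h2 : (π.map (evalRingHom a)).degree ≠ 0 := by
    intro h3
    have h4 := natDegree_eq_zero_iff_degree_le_zero.2 h3.le
    rw [map_natDegree hlead] at h4
    omega
  obtain ⟨l₁, hl₁⟩ := IsAlgClosed.exists_root _ h2
  exact ⟨l₁, by rw [ev_complex]; exact hl₁⟩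

section

variable {E : Type} [Field E] [Algebra ℂ E]

/-- A polynomial that is a square in `ℂ(l)` is a square. -/
theorem sq_of_mem {l : E} (hl : Transcendental ℂ l) {q : ℂ[X]} {x : E} (hx : x ∈ ℂ⟮l⟯)
    (h : x ^ 2 = aeval l q) : ∃ s : ℂ[X], s ^ 2 = q := by
  rw [mem_adjoin_simple_iff] at hx
  obtain ⟨u, w, rfl⟩ := hx
  by_cases hw : aeval l w = 0
  · rw [hw, div_zero] at h
    have h1 : q = 0 := by
      by_contra hq
      exact hl ⟨q, hq, by rw [← h]; ring⟩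
    exact ⟨0, by rw [h1]; ring⟩
  · rw [div_pow, div_eq_iff (pow_ne_zero 2 hw), ← map_pow, ← map_pow, ← map_mul] at h
    have h1 : u ^ 2 = q * w ^ 2 := by
      by_contra hne
      apply hl
      refine ⟨u ^ 2 - q * w ^ 2, sub_ne_zero.2 hne, ?_⟩
      rw [map_sub, h, sub_self]
    have hw0 : w ≠ 0 := by
      rintro rfl
      exact hw (map_zero _)
    obtain ⟨s, rfl⟩ : w ∣ u := (IsIntegrallyClosed.pow_dvd_pow_iff two_ne_zero).1
      ⟨q, by rw [h1]; ring⟩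
    refine ⟨s, ?_⟩
    apply mul_left_cancel₀ (pow_ne_zero 2 hw0)
    linear_combination h1

/-- **[P4]** -/
theorem ind_of_nonsquare {Ψ Δ : ℂ[X][X]} (a : ℂ) {l Y Z : E}
    (hl : Transcendental ℂ l)
    (hY : Y ^ 2 = ev (algebraMap ℂ E a) l Ψ) (hZ : Z ^ 2 = ev (algebraMap ℂ E a) l Δ)
    (h1 : ∀ s : ℂ[X], s ^ 2 ≠ Ψ.map (evalRingHom a))
    (h2 : ∀ s : ℂ[X], s ^ 2 ≠ Δ.map (evalRingHom a))
    (h3 : ∀ s : ℂ[X], s ^ 2 ≠ (Ψ * Δ).map (evalRingHom a)) :
    ∀ p : Fin 4 → ℂ[X][X], val4 p (algebraMap ℂ E a) l Y Z = 0 → ∀ i, lin a ∣ p i := by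
  have : CharZero E := charZero_of_injective_algebraMap (algebraMap ℂ E).injective
  intro p hp
  rw [ev_const] at hY hZ
  have hF : ∀ q : ℂ[X], aeval l q ∈ ℂ⟮l⟯ := fun q =>
    IntermediateField.algebra_adjoin_le_adjoin ℂ {l} (Polynomial.aeval_mem_adjoin_singleton ℂ l)
  have hYF : Y ∉ ℂ⟮l⟯ := fun h => by
    obtain ⟨s, hs⟩ := sq_of_mem hl h hY
    exact h1 s hs
  have hY2 : Y ^ 2 ∈ ℂ⟮l⟯ := by rw [hY]; exact hF _
  have hZF : Z ∉ quadField ℂ⟮l⟯ Y hY2 := by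
    rintro ⟨α, hα, β, hβ, hαβ⟩
    have h4 : (α ^ 2 + β ^ 2 * Y ^ 2) + (2 * α * β) * Y =
        aeval l (Δ.map (evalRingHom a)) + 0 * Y := by
      rw [← hZ, hαβ]
      ring
    obtain ⟨-, h5⟩ := quad_unique ℂ⟮l⟯ Y hYF
      (add_mem (pow_mem hα 2) (mul_mem (pow_mem hβ 2) hY2))
      (mul_mem (mul_mem (ofNat_mem _ 2) hα) hβ) (hF _) (zero_mem _) h4
    rcases mul_eq_zero.1 h5 with h6 | h6
    · have h7 : α = 0 := (mul_eq_zero.1 h6).resolve_left two_ne_zero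
      rw [h7, zero_add] at hαβ
      obtain ⟨s, hs⟩ := sq_of_mem hl (q := (Ψ * Δ).map (evalRingHom a))
        (mul_mem hβ hY2) (by
          rw [Polynomial.map_mul, map_mul, ← hY, ← hZ, hαβ]
          ring)
      exact h3 s hs
    · rw [h6, zero_mul, add_zero] at hαβ
      obtain ⟨s, hs⟩ := sq_of_mem hl (q := Δ.map (evalRingHom a)) hα (by rw [← hZ, hαβ])
      exact h2 s hs
  have hdiv : ∀ q : ℂ[X][X], aeval l (q.map (evalRingHom a)) = 0 → lin a ∣ q := by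
    intro q hq
    have h4 : q.map (evalRingHom a) = 0 := by
      by_contra hne
      exact hl ⟨_, hne, hq⟩
    unfold lin
    rw [C_dvd_iff_dvd_coeff]
    intro n
    rw [dvd_iff_isRoot, IsRoot.def]
    have h5 := congrArg (fun r : ℂ[X] => r.coeff n) h4
    simpa using h5
  have hmem : ∀ q : ℂ[X][X], ev (algebraMap ℂ E a) l q ∈ ℂ⟮l⟯ := by
    intro q
    rw [ev_const]
    exact hF _
  have hle : ∀ x ∈ ℂ⟮l⟯, x ∈ quadField ℂ⟮l⟯ Y hY2 := fun x hx => ⟨x, hx, 0, zero_mem _, by ring⟩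
  have hYm : Y ∈ quadField ℂ⟮l⟯ Y hY2 := ⟨0, zero_mem _, 1, one_mem _, by ring⟩
  have h4 : (ev (algebraMap ℂ E a) l (p 0) + ev (algebraMap ℂ E a) l (p 1) * Y) +
      (ev (algebraMap ℂ E a) l (p 2) + ev (algebraMap ℂ E a) l (p 3) * Y) * Z = 0 + 0 * Z := by
    unfold val4 at hp
    linear_combination hp
  have hm : ∀ a' b' : ℂ[X][X], ev (algebraMap ℂ E a) l a' + ev (algebraMap ℂ E a) l b' * Y ∈
      quadField ℂ⟮l⟯ Y hY2 := fun a' b' =>
    add_mem (hle _ (hmem a')) (mul_mem (hle _ (hmem b')) hYm)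
  obtain ⟨h5, h6⟩ := quad_unique _ Z hZF (hm _ _) (hm _ _) (zero_mem _) (zero_mem _) h4
  have h7 : ∀ a' b' : ℂ[X][X], ev (algebraMap ℂ E a) l a' + ev (algebraMap ℂ E a) l b' * Y = 0 →
      lin a ∣ a' ∧ lin a ∣ b' := by
    intro a' b' hab
    have h8 : ev (algebraMap ℂ E a) l a' + ev (algebraMap ℂ E a) l b' * Y = 0 + 0 * Y := by
      rw [hab]; ring
    obtain ⟨h9, h10⟩ := quad_unique ℂ⟮l⟯ Y hYF (hmem a') (hmem b') (zero_mem _) (zero_mem _) h8
    rw [ev_const] at h9 h10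
    exact ⟨hdiv _ h9, hdiv _ h10⟩
  obtain ⟨k0, k1⟩ := h7 _ _ h5
  obtain ⟨k2, k3⟩ := h7 _ _ h6
  intro i
  fin_cases i
  · exact k0
  · exact k1
  · exact k2
  · exact k3

end

end Vale.Agent.P297.H160
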