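import Vale.Agent.P297.H160.Conn1
import Vale.Agent.P297.H572.Half.Tower

/-!
Chain connectivity: any two complex points of a suitable affine model of a field of transcendence
degree two are joined by a chain of irreducible curves.
-/

set_option linter.unusedSectionVars false
set_option linter.style.haveILetI false

open Polynomial IntermediateField

namespace Vale.Agent.P297.H160.Conn

open Vale.Agent.P297 Vale.Agent.P297.H572.Half

instance isFF_ratFunc : IsFF ℂ (RatFunc ℂ) := by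
  haveI : Algebra.EssFiniteType ℂ[X] (RatFunc ℂ) :=
    Algebra.EssFiniteType.of_isLocalization _ (nonZeroDivisors ℂ[X])
  refine ⟨Algebra.EssFiniteType.comp ℂ ℂ[X] (RatFunc ℂ), ?_⟩
  haveI : Algebra.IsAlgebraic ℂ[X] (RatFunc ℂ) :=
    IsLocalization.isAlgebraic _ (nonZeroDivisors ℂ[X])
  have h := trdeg_add_eq ℂ ℂ[X] (A := RatFunc ℂ)
  rw [Polynomial.trdeg_of_isDomain, trdeg_eq_zero, add_zero] at h
  exact h.symm

/-- the function field of a plane curve -/
theorem exists_component (g : ℂ[X][X]) (hg : g.Monic) (hgi : Irreducible g) :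
    ∃ (E : Type) (_ : Field E) (_ : Algebra ℂ E) (_ : IsFF ℂ E) (γ : ℂ[X] →ₐ[ℂ] E) (θ : E),
      Function.Injective γ ∧ ∀ G : ℂ[X][X], G.eval₂ (γ : ℂ[X] →+* E) θ = 0 ↔ g ∣ G := by
  have hinj : Function.Injective (algebraMap ℂ[X] (RatFunc ℂ)) :=
    IsFractionRing.injective ℂ[X] (RatFunc ℂ)
  have hirr : Irreducible (g.map (algebraMap ℂ[X] (RatFunc ℂ))) :=
    (hg.irreducible_iff_irreducible_map_fraction_map (K := RatFunc ℂ)).1 hgi
  haveI : Fact (Irreducible (g.map (algebraMap ℂ[X] (RatFunc ℂ)))) := ⟨hirr⟩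
  let E := AdjoinRoot (g.map (algebraMap ℂ[X] (RatFunc ℂ)))
  haveI : FiniteDimensional (RatFunc ℂ) E := (AdjoinRoot.powerBasis hirr.ne_zero).finite
  haveI : IsFF ℂ E := isFF_of_finite (RatFunc ℂ) E
  let γ : ℂ[X] →ₐ[ℂ] E := (IsScalarTower.toAlgHom ℂ (RatFunc ℂ) E).comp
    (IsScalarTower.toAlgHom ℂ ℂ[X] (RatFunc ℂ))
  refine ⟨E, inferInstance, inferInstance, inferInstance, γ, AdjoinRoot.root _, ?_, ?_⟩
  · exact (algebraMap (RatFunc ℂ) E).injective.comp hinj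
  · intro G
    rw [← map_dvd_map _ hinj hg, ← AdjoinRoot.mk_eq_zero, ← AdjoinRoot.aeval_eq, aeval_def,
      eval₂_map]
    rfl

section

variable {N : Type} [Field N] [Algebra ℂ N] [Algebra A2 N] [IsScalarTower ℂ A2 N]

/-- The ring `ℂ[x, y][1/h][θ]`. -/
theorem exists_ring (θ : N) (h : A2) (hh : algebraMap A2 N h ≠ 0) :
    ∃ (B : Subalgebra ℂ N) (_ : B.FG) (e : A2[X] →ₐ[ℂ] B),
      (∀ G, (e G : N) = Polynomial.aeval θ G) ∧ IsUnit (e (C h)) ∧
      (∀ z : B, ∃ (G : A2[X]) (n : ℕ), z * e (C h) ^ n = e G) ∧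
      ∀ (R : Type) [CommRing R] [Algebra ℂ R] (g : A2[X] →ₐ[ℂ] R)
        (_ : ∀ G, Polynomial.aeval θ G = 0 → g G = 0) (_ : IsUnit (g (C h))),
        ∃ m : B →ₐ[ℂ] R, ∀ G, m (e G) = g G := by
  let e₀ : A2[X] →ₐ[ℂ] N := (Polynomial.aeval θ : A2[X] →ₐ[A2] N).restrictScalars ℂ
  have he₀ : ∀ G, e₀ G = Polynomial.aeval θ G := fun _ => rfl
  have hu : IsUnit (e₀ (C h)) := by
    rw [he₀, aeval_C]
    exact hh.isUnit
  let P := Localization.Away (C h : A2[X])
  let i₀ : A2[X] →ₐ[ℂ] P := IsScalarTower.toAlgHom ℂ A2[X] P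
  let ψ : P →ₐ[ℂ] N := awayLift e₀ (C h) hu
  have hψ : ∀ G, ψ (i₀ G) = e₀ G := fun G => awayLift_algebraMap e₀ (C h) hu G
  have hsurj : ∀ a : P, ∃ (u : A2[X]) (n : ℕ), a * i₀ (C h) ^ n = i₀ u := by
    intro a
    obtain ⟨⟨u, ⟨_, n, rfl⟩⟩, hun⟩ := IsLocalization.surj (Submonoid.powers (C h : A2[X])) a
    refine ⟨u, n, ?_⟩
    rw [← map_pow]
    exact hun
  have huP : IsUnit (i₀ (C h)) := IsLocalization.Away.algebraMap_isUnit (C h : A2[X])
  let ψr : P →ₐ[ℂ] ψ.range := ψ.rangeRestrict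
  have hψr : Function.Surjective ψr := ψ.rangeRestrict_surjective
  refine ⟨ψ.range, ?_, ψr.comp i₀, ?_, ?_, ?_, ?_⟩
  · haveI : Algebra.FiniteType ℂ A2[X] :=
      Algebra.FiniteType.trans (S := A2) inferInstance inferInstance
    haveI : Algebra.FiniteType ℂ P := by
      haveI : Algebra.FiniteType A2[X] P :=
        IsLocalization.finiteType_of_monoid_fg (Submonoid.powers (C h : A2[X])) _
      exact Algebra.FiniteType.trans (S := A2[X]) inferInstance inferInstance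
    rw [← Algebra.map_top]
    exact (Algebra.FiniteType.out).map ψ
  · intro G
    exact hψ G
  · exact huP.map ψr
  · intro z
    obtain ⟨a, rfl⟩ := hψr z
    obtain ⟨u, n, hun⟩ := hsurj a
    refine ⟨u, n, ?_⟩
    change ψr a * (ψr (i₀ (C h))) ^ n = ψr (i₀ u)
    rw [← hun, map_mul, map_pow]
  · intro R _ _ g hg hgu
    obtain ⟨m, hm⟩ := exists_alg_lift ψr hψr (awayLift g (C h) hgu) (by
      intro a ha
      obtain ⟨u, n, hun⟩ := hsurj a
      have h1 : ψ a = 0 := congrArg Subtype.val ha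
      have h2 := congrArg ψ hun
      rw [map_mul, h1, zero_mul, hψ, he₀] at h2
      have h3 := congrArg (awayLift g (C h) hgu) hun
      rw [map_mul, map_pow] at h3
      have h4 : ∀ G, awayLift g (C h) hgu (i₀ G) = g G := fun G =>
        awayLift_algebraMap g (C h) hgu G
      rw [h4, h4, hg u h2.symm] at h3
      exact (hgu.pow n).mul_left_eq_zero.1 h3)
    refine ⟨m, fun G => ?_⟩
    change m (ψr (i₀ G)) = g G
    rw [hm]
    exact awayLift_algebraMap g (C h) hgu G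

/-- evaluation at a point -/
noncomputable def pe (a b t : ℂ) : A2[X] →ₐ[ℂ] ℂ :=
  Polynomial.eval₂AlgHom (ev a b) t (fun _ => Commute.all _ _)

theorem pe_apply (a b t : ℂ) (G : A2[X]) :
    pe a b t G = (G.map (ev a b : A2 →+* ℂ)).eval t := by
  rw [eval_map]
  rfl

theorem pe_of_ring {B : Type} [CommRing B] [Algebra ℂ B] (e : A2[X] →ₐ[ℂ] B) (ξ : B →ₐ[ℂ] ℂ) :
    ξ.comp e = pe (ξ (e (C (MvPolynomial.X 0)))) (ξ (e (C (MvPolynomial.X 1)))) (ξ (e X)) := by
  apply Polynomial.algHom_ext'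
  · apply MvPolynomial.algHom_ext
    intro i
    have h1 : ∀ a b t : ℂ, ∀ u : A2, pe a b t (C u) = ev a b u := by
      intro a b t u
      rw [pe_apply, Polynomial.map_C, eval_C]
      rfl
    fin_cases i
    · change ξ (e (C (MvPolynomial.X 0))) = pe _ _ _ (C (MvPolynomial.X 0))
      rw [h1, ev, MvPolynomial.aeval_X]
      rfl
    · change ξ (e (C (MvPolynomial.X 1))) = pe _ _ _ (C (MvPolynomial.X 1))
      rw [h1, ev, MvPolynomial.aeval_X]
      rfl
  · rw [pe_apply, Polynomial.map_X, eval_X]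
    rfl

/-- A component of the preimage of a line. -/
theorem line_step {F : A2[X]} {h : A2} {B : Subalgebra ℂ N} (e : A2[X] →ₐ[ℂ] B)
    (θ : N) (hker : ∀ G, Polynomial.aeval θ G = 0 → F ∣ G)
    (hz : ∀ z : B, ∃ (G : A2[X]) (n : ℕ), z * e (C h) ^ n = e G)
    (hlift : ∀ (R : Type) [CommRing R] [Algebra ℂ R] (g : A2[X] →ₐ[ℂ] R)
        (_ : ∀ G, Polynomial.aeval θ G = 0 → g G = 0) (_ : IsUnit (g (C h))),
        ∃ m : B →ₐ[ℂ] R, ∀ G, m (e G) = g G)
    {Q : Type} (cl : (B →ₐ[ℂ] ℂ) → Q)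
    (hcl : ∀ (E : Type) [Field E] [Algebra ℂ E] [IsFF ℂ E] (m : B →ₐ[ℂ] E) (ξ₁ ξ₂ : B →ₐ[ℂ] ℂ),
      (∀ a, m a = 0 → ξ₁ a = 0) → (∀ a, m a = 0 → ξ₂ a = 0) → (∃ b, m b ≠ 0 ∧ ξ₁ b = 0) →
      (∃ b, m b ≠ 0 ∧ ξ₂ b = 0) → cl ξ₁ = cl ξ₂)
    (ℓ : A2 →ₐ[ℂ] ℂ[X]) (u : A2) (hu : ℓ u = X) (g : ℂ[X][X]) (hg : g.Monic)
    (hgi : Irreducible g) (hgF : g ∣ F.map (ℓ : A2 →+* ℂ[X])) (c t c' t' : ℂ)
    (hc : (ℓ h).eval c ≠ 0) (hc' : (ℓ h).eval c' ≠ 0) (ht : (g.map (evalRingHom c)).eval t = 0)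
    (ht' : (g.map (evalRingHom c')).eval t' = 0) (ξ ξ' : B →ₐ[ℂ] ℂ)
    (hξ : ∀ G : A2[X], ξ (e G) = ((G.map (ℓ : A2 →+* ℂ[X])).map (evalRingHom c)).eval t)
    (hξ' : ∀ G : A2[X], ξ' (e G) = ((G.map (ℓ : A2 →+* ℂ[X])).map (evalRingHom c')).eval t') :
    cl ξ = cl ξ' := by
  obtain ⟨E, _, _, _, γ, η, hγ, hdvd⟩ := exists_component g hg hgi
  let gE : A2[X] →ₐ[ℂ] E := Polynomial.eval₂AlgHom (γ.comp ℓ) η (fun _ => Commute.all _ _)
  have hgE : ∀ G, gE G = (G.map (ℓ : A2 →+* ℂ[X])).eval₂ (γ : ℂ[X] →+* E) η := by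
    intro G
    rw [eval₂_map]
    rfl
  have hgC : ∀ v : A2, gE (C v) = γ (ℓ v) := by
    intro v
    rw [hgE, Polynomial.map_C, eval₂_C]
    rfl
  have hℓh : ℓ h ≠ 0 := by
    intro h0
    rw [h0, eval_zero] at hc
    exact hc rfl
  have hγ0 : ∀ v : ℂ[X], v ≠ 0 → γ v ≠ 0 := fun v hv h0 => hv (hγ (by rw [h0, map_zero]))
  obtain ⟨m, hm⟩ := hlift E gE (by
    intro G hG
    rw [hgE, hdvd]
    exact hgF.trans (Polynomial.map_dvd _ (hker G hG))) (by
    rw [hgC]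
    exact (hγ0 _ hℓh).isUnit)
  have hstep : ∀ (c t : ℂ) (_ : (ℓ h).eval c ≠ 0) (_ : (g.map (evalRingHom c)).eval t = 0)
      (ξ : B →ₐ[ℂ] ℂ)
      (_ : ∀ G : A2[X], ξ (e G) = ((G.map (ℓ : A2 →+* ℂ[X])).map (evalRingHom c)).eval t),
      (∀ z, m z = 0 → ξ z = 0) ∧ ∃ b, m b ≠ 0 ∧ ξ b = 0 := by
    intro c t hc ht ξ hξ
    have hC : ∀ v : A2, ξ (e (C v)) = (ℓ v).eval c := by
      intro v
      rw [hξ, Polynomial.map_C, Polynomial.map_C, eval_C]
      rfl
    refine ⟨?_, e (C (u - algebraMap ℂ A2 c)), ?_, ?_⟩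
    · intro z hz0
      obtain ⟨G, n, hG⟩ := hz z
      have h1 := congrArg m hG
      rw [map_mul, hz0, zero_mul, hm, hgE] at h1
      have h2 : g ∣ G.map (ℓ : A2 →+* ℂ[X]) := (hdvd _).1 h1.symm
      have h3 := congrArg ξ hG
      rw [map_mul, map_pow, hC, hξ] at h3
      have h4 : ((G.map (ℓ : A2 →+* ℂ[X])).map (evalRingHom c)).eval t = 0 :=
        eval_eq_zero_of_dvd_of_eval_eq_zero (Polynomial.map_dvd _ h2) ht
      rw [h4] at h3
      exact (mul_eq_zero.1 h3).resolve_right (pow_ne_zero n hc)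
    · rw [hm, hgC, map_sub, hu, AlgHom.commutes]
      exact hγ0 _ (X_sub_C_ne_zero c)
    · rw [hC, map_sub, hu, AlgHom.commutes]
      change (X - C c).eval c = 0
      rw [eval_sub, eval_X, eval_C, sub_self]
  obtain ⟨h1, h2⟩ := hstep c t hc ht ξ hξ
  obtain ⟨h3, h4⟩ := hstep c' t' hc' ht' ξ' hξ'
  exact hcl E m ξ ξ' h1 h3 h2 h4

/-- clearing denominators -/
theorem exists_clear (p : (FractionRing A2)[X]) : ∃ (c : A2) (q : A2[X]), c ≠ 0 ∧
    q.map (algebraMap A2 (FractionRing A2)) = C (algebraMap A2 (FractionRing A2) c) * p := by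
  obtain ⟨b, hb0, hb⟩ := IsLocalization.integerNormalization_spec (nonZeroDivisors A2) p
  refine ⟨b, _, nonZeroDivisors.ne_zero hb0, hb.trans ?_⟩
  rw [← Polynomial.smul_eq_C_mul, algebraMap_smul]

/-- a primitive element, integral over `ℂ[x, y]` -/
theorem exists_primitive (hinj : Function.Injective (algebraMap A2 N))
    (hN : ∀ z : N, IsAlgebraic A2 z) (T : Finset N) :
    ∃ θ : N, IsIntegral A2 θ ∧ ∀ z ∈ T, ∃ (c : A2) (G : A2[X]), c ≠ 0 ∧
      algebraMap A2 N c * z = Polynomial.aeval θ G := by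
  classical
  haveI : FaithfulSMul A2 N := (faithfulSMul_iff_algebraMap_injective A2 N).2 hinj
  letI : Algebra (FractionRing A2) N := FractionRing.liftAlgebra A2 N
  haveI : IsScalarTower A2 (FractionRing A2) N := FractionRing.isScalarTower_liftAlgebra A2 N
  have hN' : ∀ z : N, IsIntegral (FractionRing A2) z := by
    intro z
    rw [← isAlgebraic_iff_isIntegral]
    exact (IsFractionRing.isAlgebraic_iff A2 (FractionRing A2) N).1 (hN z)
  let K := IntermediateField.adjoin (FractionRing A2) (T : Set N)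
  haveI : FiniteDimensional (FractionRing A2) K :=
    IntermediateField.finiteDimensional_adjoin fun z _ => hN' z
  obtain ⟨α, hα⟩ := Field.exists_primitive_element (FractionRing A2) K
  obtain ⟨y, hy0, hy⟩ := (hN (α : N)).exists_integral_multiple
  have hy0' : algebraMap A2 N y ≠ 0 := fun h0 => hy0 (hinj (by rw [h0, map_zero]))
  refine ⟨y • (α : N), hy, fun z hz => ?_⟩
  have hzK : z ∈ K := IntermediateField.subset_adjoin _ _ hz
  have h1 : (⟨z, hzK⟩ : K) ∈ (FractionRing A2)⟮α⟯ := by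
    rw [hα]; trivial
  have h2 : IsIntegral (FractionRing A2) α := Algebra.IsIntegral.isIntegral α
  rw [← IntermediateField.mem_toSubalgebra,
    IntermediateField.adjoin_simple_toSubalgebra_of_isAlgebraic h2.isAlgebraic,
    Algebra.adjoin_singleton_eq_range_aeval] at h1
  obtain ⟨p, hp⟩ := h1
  have hp' : z = Polynomial.aeval (α : N) p := by
    have h3 := congrArg (algebraMap K N) hp
    change algebraMap K N (Polynomial.aeval α p) = z at h3
    rw [← h3]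
    exact (Polynomial.aeval_algebraMap_apply N α p).symm
  obtain ⟨c, G, hc, hG⟩ := exists_clear (p.comp (C (algebraMap A2 (FractionRing A2) y)⁻¹ * X))
  refine ⟨c, G, hc, ?_⟩
  have h4 : Polynomial.aeval (y • (α : N)) G =
      Polynomial.aeval (y • (α : N)) (G.map (algebraMap A2 (FractionRing A2))) := by
    rw [Polynomial.aeval_map_algebraMap]
  rw [h4, hG, map_mul, aeval_C, ← IsScalarTower.algebraMap_apply, Polynomial.aeval_comp, map_mul,
    aeval_C, aeval_X, map_inv₀, ← IsScalarTower.algebraMap_apply, Algebra.smul_def,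
    inv_mul_cancel_left₀ hy0', ← hp']

/-- the discriminant locus -/
theorem exists_sep (hinj : Function.Injective (algebraMap A2 N)) {θ : N} (hθ : IsIntegral A2 θ) :
    ∃ (c : A2) (U V : A2[X]), c ≠ 0 ∧
      U * minpoly A2 θ + V * derivative (minpoly A2 θ) = C c := by
  haveI : FaithfulSMul A2 N := (faithfulSMul_iff_algebraMap_injective A2 N).2 hinj
  letI : Algebra (FractionRing A2) N := FractionRing.liftAlgebra A2 N
  haveI : IsScalarTower A2 (FractionRing A2) N := FractionRing.isScalarTower_liftAlgebra A2 N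
  have h1 : minpoly (FractionRing A2) θ = (minpoly A2 θ).map (algebraMap A2 (FractionRing A2)) :=
    minpoly.isIntegrallyClosed_eq_field_fractions' (FractionRing A2) hθ
  have h2 : IsIntegral (FractionRing A2) θ := hθ.tower_top
  have h3 := (minpoly.irreducible h2).separable
  rw [h1] at h3
  obtain ⟨a, b, hab⟩ := h3
  obtain ⟨c₁, U, hc₁, hU⟩ := exists_clear a
  obtain ⟨c₂, V, hc₂, hV⟩ := exists_clear b
  have hinj' : Function.Injective (algebraMap A2 (FractionRing A2)) :=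
    IsFractionRing.injective _ _
  refine ⟨c₁ * c₂, C c₂ * U, C c₁ * V, mul_ne_zero hc₁ hc₂, ?_⟩
  apply Polynomial.map_injective _ hinj'
  rw [Polynomial.map_add, Polynomial.map_mul, Polynomial.map_mul, Polynomial.map_mul,
    Polynomial.map_mul, Polynomial.map_C, Polynomial.map_C, Polynomial.map_C, hU, hV,
    ← Polynomial.derivative_map, map_mul (algebraMap A2 (FractionRing A2)), C_mul]
  linear_combination (C (algebraMap A2 (FractionRing A2) c₁) *
    C (algebraMap A2 (FractionRing A2) c₂)) * hab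

/-- **Chain connectivity**, over `A2`. -/
theorem conn_aux (hinj : Function.Injective (algebraMap A2 N))
    (hN : ∀ z : N, IsAlgebraic A2 z) (T : Finset N) :
    ∃ B : Subalgebra ℂ N, B.FG ∧ (∀ z ∈ T, z ∈ B) ∧ ∀ (Q : Type) (cl : (B →ₐ[ℂ] ℂ) → Q),
      (∀ (E : Type) [Field E] [Algebra ℂ E] [IsFF ℂ E] (m : B →ₐ[ℂ] E) (ξ₁ ξ₂ : B →ₐ[ℂ] ℂ),
        (∀ a, m a = 0 → ξ₁ a = 0) → (∀ a, m a = 0 → ξ₂ a = 0) → (∃ b, m b ≠ 0 ∧ ξ₁ b = 0) →
        (∃ b, m b ≠ 0 ∧ ξ₂ b = 0) → cl ξ₁ = cl ξ₂) → ∀ ξ₁ ξ₂, cl ξ₁ = cl ξ₂ := by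
  classical
  haveI : FaithfulSMul A2 N := (faithfulSMul_iff_algebraMap_injective A2 N).2 hinj
  obtain ⟨θ, hθ, hT⟩ := exists_primitive hinj hN T
  obtain ⟨c, U, V, hc, hUV⟩ := exists_sep hinj hθ
  have hFm : (minpoly A2 θ).Monic := minpoly.monic hθ
  have hFi : Irreducible (minpoly A2 θ) := minpoly.irreducible hθ
  have hker : ∀ G, Polynomial.aeval θ G = 0 → minpoly A2 θ ∣ G := fun G hG =>
    minpoly.isIntegrallyClosed_dvd hθ hG
  have hroot : Polynomial.aeval θ (minpoly A2 θ) = 0 := minpoly.aeval A2 θ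
  obtain ⟨F, hF⟩ : ∃ F, F = minpoly A2 θ := ⟨_, rfl⟩
  rw [← hF] at hUV hFm hFi hroot
  simp only [← hF] at hker
  choose! d G hd hdG using hT
  obtain ⟨h, hh⟩ : ∃ h : A2, h = c * ∏ z ∈ T, d z := ⟨_, rfl⟩
  have h0 : h ≠ 0 := by
    rw [hh]
    exact mul_ne_zero hc (Finset.prod_ne_zero_iff.2 hd)
  have hhN : algebraMap A2 N h ≠ 0 := fun h1 => h0 (hinj (by rw [h1, map_zero]))
  obtain ⟨B, hB, e, he, hunit, hz, hlift⟩ := exists_ring θ h hhN
  refine ⟨B, hB, ?_, ?_⟩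
  · intro z hzT
    obtain ⟨w, hw⟩ := hunit.exists_right_inv
    obtain ⟨r, hr⟩ : d z ∣ h := by
      rw [hh]
      exact (Finset.dvd_prod_of_mem d hzT).mul_left c
    have h1 : z = (e (C r * G z) * w : B) := by
      have h2 : (e (C h) * w : N) = 1 := by
        have := congrArg Subtype.val hw
        exact this
      rw [he, aeval_C] at h2
      have h3 : algebraMap A2 N h * z = Polynomial.aeval θ (C r * G z) := by
        rw [map_mul, aeval_C, ← hdG z hzT, hr, map_mul]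
        ring
      change z = (e (C r * G z) : N) * w
      rw [he, ← h3, mul_assoc, mul_comm z, ← mul_assoc, h2, one_mul]
    rw [h1]
    exact SetLike.coe_mem _
  · intro Q cl hcl ξ₁ ξ₂
    have hpt : ∀ ξ : B →ₐ[ℂ] ℂ, ∃ a b t, ev a b h ≠ 0 ∧
        (F.map (ev a b : A2 →+* ℂ)).eval t = 0 ∧ ξ.comp e = pe a b t := by
      intro ξ
      refine ⟨_, _, _, ?_, ?_, pe_of_ring e ξ⟩
      · have h1 := DFunLike.congr_fun (pe_of_ring e ξ) (C h)
        rw [pe_apply, Polynomial.map_C, eval_C] at h1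
        change ξ (e (C h)) = ev _ _ h at h1
        rw [← h1]
        exact (hunit.map ξ).ne_zero
      · have h1 := DFunLike.congr_fun (pe_of_ring e ξ) F
        rw [pe_apply] at h1
        rw [← h1]
        change ξ (e F) = 0
        have h2 : e F = 0 := by
          apply Subtype.ext
          rw [he, hroot]
          rfl
        rw [h2, map_zero]
    have huniq : ∀ ξ ξ' : B →ₐ[ℂ] ℂ, ξ.comp e = ξ'.comp e → ξ = ξ' := by
      intro ξ ξ' hξ
      apply AlgHom.ext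
      intro z
      obtain ⟨G, n, hG⟩ := hz z
      have h1 := congrArg ξ hG
      have h2 := congrArg ξ' hG
      rw [map_mul, map_pow] at h1 h2
      have h3 := DFunLike.congr_fun hξ G
      have h4 := DFunLike.congr_fun hξ (C h)
      change ξ (e G) = ξ' (e G) at h3
      change ξ (e (C h)) = ξ' (e (C h)) at h4
      rw [h3, ← h2, h4] at h1
      exact mul_right_cancel₀ (pow_ne_zero n (hunit.map ξ').ne_zero) h1
    have hex : ∀ a b t, ev a b h ≠ 0 → (F.map (ev a b : A2 →+* ℂ)).eval t = 0 →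
        ∃ ξ : B →ₐ[ℂ] ℂ, ξ.comp e = pe a b t := by
      intro a b t hab ht
      obtain ⟨ξ, hξ⟩ := hlift ℂ (pe a b t) (by
        intro G hG
        rw [pe_apply]
        exact eval_eq_zero_of_dvd_of_eval_eq_zero (Polynomial.map_dvd _ (hker G hG)) ht) (by
        rw [pe_apply, Polynomial.map_C, eval_C]
        exact hab.isUnit)
      exact ⟨ξ, AlgHom.ext hξ⟩
    obtain ⟨a₁, b₁, t₁, h₁, ht₁, hξ₁⟩ := hpt ξ₁
    obtain ⟨a₂, b₂, t₂, h₂, ht₂, hξ₂⟩ := hpt ξ₂
    have hmain := all_of_some hFm hFi h0 (fun a b hab => by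
        have h1 := congrArg (Polynomial.map (ev a b : A2 →+* ℂ)) hUV
        rw [Polynomial.map_add, Polynomial.map_mul, Polynomial.map_mul, ← derivative_map,
          Polynomial.map_C] at h1
        have h2 : ev a b c ≠ 0 := by
          intro h3
          apply hab
          rw [hh, map_mul, h3, zero_mul]
        refine ⟨C (ev a b c)⁻¹ * U.map (ev a b : A2 →+* ℂ),
          C (ev a b c)⁻¹ * V.map (ev a b : A2 →+* ℂ), ?_⟩
        rw [mul_assoc, mul_assoc, ← mul_add, h1]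
        change C (ev a b c)⁻¹ * C (ev a b c) = 1
        rw [← C_mul, inv_mul_cancel₀ h2, C_1])
      (fun a b t => ∃ ξ : B →ₐ[ℂ] ℂ, ξ.comp e = pe a b t ∧ cl ξ₁ = cl ξ) (by
        rintro b g hg hgi hgF a t a' t' hab hab' ht ht' ⟨ξ, hξ, hξcl⟩
        obtain ⟨ξ', hξ'⟩ := hex a' b t' hab' (by
          rw [← map_rh]
          exact eval_eq_zero_of_dvd_of_eval_eq_zero (Polynomial.map_dvd _ hgF) ht')
        refine ⟨ξ', hξ', hξcl.trans ?_⟩
        refine line_step e θ hker hz hlift cl hcl (rh b) (MvPolynomial.X 0) ?_ g hg hgi hgF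
          a t a' t' ?_ ?_ ht ht' ξ ξ' ?_ ?_
        · simp [rh]
        · rw [ev_rh]; exact hab
        · rw [ev_rh]; exact hab'
        · intro G
          rw [map_rh, ← pe_apply, ← hξ]
          rfl
        · intro G
          rw [map_rh, ← pe_apply, ← hξ']
          rfl) (by
        rintro a g hg hgi hgF b t b' t' hab hab' ht ht' ⟨ξ, hξ, hξcl⟩
        obtain ⟨ξ', hξ'⟩ := hex a b' t' hab' (by
          rw [← map_sv]
          exact eval_eq_zero_of_dvd_of_eval_eq_zero (Polynomial.map_dvd _ hgF) ht')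
        refine ⟨ξ', hξ', hξcl.trans ?_⟩
        refine line_step e θ hker hz hlift cl hcl (sv a) (MvPolynomial.X 1) ?_ g hg hgi hgF
          b t b' t' ?_ ?_ ht ht' ξ ξ' ?_ ?_
        · simp [sv]
        · rw [ev_sv]; exact hab
        · rw [ev_sv]; exact hab'
        · intro G
          rw [map_sv, ← pe_apply, ← hξ]
          rfl
        · intro G
          rw [map_sv, ← pe_apply, ← hξ']
          rfl) h₁ ht₁ ⟨ξ₁, hξ₁, rfl⟩ a₂ b₂ t₂ h₂ ht₂
    obtain ⟨ξ, hξ, hξcl⟩ := hmain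
    rw [hξcl, huniq ξ ξ₂ (hξ.trans hξ₂.symm)]

end

/-- **Chain connectivity.** -/
theorem exists_conn {N : Type} [Field N] [Algebra ℂ N] (x : Fin 2 → N)
    (hx : AlgebraicIndependent ℂ x)
    (hN : ∀ z : N, IsAlgebraic (IntermediateField.adjoin ℂ (Set.range x)) z) (T : Finset N) :
    ∃ B : Subalgebra ℂ N, B.FG ∧ (∀ z ∈ T, z ∈ B) ∧ ∀ (Q : Type) (cl : (B →ₐ[ℂ] ℂ) → Q),
      (∀ (E : Type) [Field E] [Algebra ℂ E] [IsFF ℂ E] (m : B →ₐ[ℂ] E) (ξ₁ ξ₂ : B →ₐ[ℂ] ℂ),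
        (∀ a, m a = 0 → ξ₁ a = 0) → (∀ a, m a = 0 → ξ₂ a = 0) → (∃ b, m b ≠ 0 ∧ ξ₁ b = 0) →
        (∃ b, m b ≠ 0 ∧ ξ₂ b = 0) → cl ξ₁ = cl ξ₂) → ∀ ξ₁ ξ₂, cl ξ₁ = cl ξ₂ := by
  letI : Algebra A2 N := (MvPolynomial.aeval x : A2 →ₐ[ℂ] N).toRingHom.toAlgebra
  haveI : IsScalarTower ℂ A2 N := IsScalarTower.of_algebraMap_eq fun r =>
    ((MvPolynomial.aeval x : A2 →ₐ[ℂ] N).commutes r).symm
  have hmap : ∀ p : A2, algebraMap A2 N p = MvPolynomial.aeval x p := fun _ => rfl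
  have hinj : Function.Injective (algebraMap A2 N) := hx
  refine conn_aux hinj ?_ T
  let L := IntermediateField.adjoin ℂ (Set.range x)
  have hmem : ∀ p : A2, MvPolynomial.aeval x p ∈ L := by
    intro p
    have h1 : MvPolynomial.aeval x p ∈ Algebra.adjoin ℂ (Set.range x) := by
      rw [Algebra.adjoin_range_eq_range_aeval]
      exact ⟨p, rfl⟩
    exact IntermediateField.algebra_adjoin_le_adjoin ℂ _ h1
  letI : Algebra A2 L := ((MvPolynomial.aeval x : A2 →ₐ[ℂ] N).codRestrict L.toSubalgebra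
    hmem).toRingHom.toAlgebra
  haveI : IsScalarTower A2 L N := IsScalarTower.of_algebraMap_eq fun r => rfl
  haveI : FaithfulSMul A2 L := by
    rw [faithfulSMul_iff_algebraMap_injective]
    intro p q hpq
    exact hinj (congrArg (algebraMap L N) hpq)
  haveI : IsFractionRing A2 L := by
    refine IsFractionRing.of_field A2 L ?_
    intro z
    obtain ⟨p, q, hpq⟩ := (IntermediateField.mem_adjoin_range_iff ℂ x (z : N)).1 z.2
    refine ⟨p, q, ?_⟩
    apply Subtype.ext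
    exact hpq
  intro z
  exact (IsFractionRing.isAlgebraic_iff A2 L N).2 (hN z)

/-- **Chain connectivity** for a field of transcendence degree two. -/
theorem exists_conn_of_trdeg {N : Type} [Field N] [Algebra ℂ N] (htr : Algebra.trdeg ℂ N = 2)
    (T : Finset N) :
    ∃ B : Subalgebra ℂ N, B.FG ∧ (∀ z ∈ T, z ∈ B) ∧ ∀ (Q : Type) (cl : (B →ₐ[ℂ] ℂ) → Q),
      (∀ (E : Type) [Field E] [Algebra ℂ E] [IsFF ℂ E] (m : B →ₐ[ℂ] E) (ξ₁ ξ₂ : B →ₐ[ℂ] ℂ),
        (∀ a, m a = 0 → ξ₁ a = 0) → (∀ a, m a = 0 → ξ₂ a = 0) → (∃ b, m b ≠ 0 ∧ ξ₁ b = 0) →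
        (∃ b, m b ≠ 0 ∧ ξ₂ b = 0) → cl ξ₁ = cl ξ₂) → ∀ ξ₁ ξ₂, cl ξ₁ = cl ξ₂ := by
  obtain ⟨s, hs⟩ := exists_isTranscendenceBasis ℂ N
  have h1 : Cardinal.mk s = 2 := by
    rw [← htr, hs.cardinalMk_eq_trdeg]
  haveI : Finite s := by
    rw [← Cardinal.lt_aleph0_iff_finite, h1]
    exact Cardinal.ofNat_lt_aleph0
  have h2 : Nat.card s = 2 := by
    rw [Nat.card, h1]
    exact Cardinal.toNat_ofNat 2
  let e : Fin 2 ≃ s := (Finite.equivFinOfCardEq h2).symm
  let x : Fin 2 → N := fun i => (e i : N)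
  have hx : AlgebraicIndependent ℂ x := hs.1.comp e e.injective
  have hr : Set.range x = s := by
    ext z
    constructor
    · rintro ⟨i, rfl⟩
      exact (e i).2
    · intro hz
      exact ⟨e.symm ⟨z, hz⟩, by simp [x]⟩
  refine exists_conn x hx ?_ T
  intro z
  have h3 := hs.isAlgebraic_field
  rw [Subtype.range_coe] at h3
  rw [hr]
  exact Algebra.IsAlgebraic.isAlgebraic z

end Vale.Agent.P297.H160.Conn
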