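import Mathlib

/-!
Polynomials in three variables: a set of points of the hypersurface `F(x, y; T) = 0` which is a
union of components over every horizontal and every vertical line is everything.
-/

set_option linter.unusedSectionVars false

open Polynomial

namespace Vale.Agent.P297.H160.Conn

theorem coeff_coeff_swap (f : ℂ[X][X]) (m n : ℕ) :
    ((Bivariate.swap f).coeff m).coeff n = (f.coeff n).coeff m := by
  induction f using Polynomial.induction_on' with
  | add p q hp hq => simp only [map_add, coeff_add, hp, hq]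
  | monomial k a =>
    induction a using Polynomial.induction_on' with
    | add p q hp hq => simp only [map_add, coeff_add, hp, hq]
    | monomial l r =>
      rw [Bivariate.swap_monomial_monomial]
      simp only [coeff_monomial]
      by_cases h1 : l = m <;> by_cases h2 : k = n <;> simp [h1, h2, coeff_monomial]

/-- degree bounds pass to divisors -/
theorem natDegree_coeff_of_dvd {f g : ℂ[X][X]} (hf : f ≠ 0) (hg : g ∣ f) {D : ℕ}
    (hD : ∀ n, (f.coeff n).natDegree ≤ D) (n : ℕ) : (g.coeff n).natDegree ≤ D := by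
  obtain ⟨q, rfl⟩ := hg
  have hinj : Function.Injective (Bivariate.swap (R := ℂ)) := (Bivariate.swap (R := ℂ)).injective
  have h1 : Bivariate.swap (g * q) ≠ 0 := by
    intro h0
    exact hf (hinj (by rw [h0, map_zero]))
  have h2 : (Bivariate.swap (g * q)).natDegree ≤ D := by
    rw [natDegree_le_iff_coeff_eq_zero]
    intro N hN
    ext k
    rw [coeff_coeff_swap, coeff_zero]
    exact coeff_eq_zero_of_natDegree_lt (lt_of_le_of_lt (hD k) hN)
  have h3 : (Bivariate.swap g).natDegree ≤ D := by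
    rw [map_mul] at h1 h2
    exact le_trans (natDegree_le_of_dvd (Dvd.intro _ rfl) h1) h2
  rw [natDegree_le_iff_coeff_eq_zero]
  intro N hN
  rw [← coeff_coeff_swap]
  have h4 := (natDegree_le_iff_coeff_eq_zero.1 h3) N hN
  rw [h4, coeff_zero]

theorem monic_irreducible_factor {f : ℂ[X][X]} (hf : f.Monic) (hd : f.natDegree ≠ 0) :
    ∃ g : ℂ[X][X], g.Monic ∧ Irreducible g ∧ g ∣ f := by
  have h1 : ¬ IsUnit f := by
    intro hu
    exact hd (by rw [hf.isUnit_iff] at hu; rw [hu, natDegree_one])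
  obtain ⟨g, hg, q, rfl⟩ := WfDvdMonoid.exists_irreducible_factor h1 hf.ne_zero
  have h2 : g.leadingCoeff * q.leadingCoeff = 1 := by
    rw [← leadingCoeff_mul]
    exact hf
  have hu : IsUnit (C q.leadingCoeff : ℂ[X][X]) :=
    (IsUnit.of_mul_eq_one g.leadingCoeff (by rw [mul_comm]; exact h2)).map C
  refine ⟨g * C q.leadingCoeff, ?_, ?_, ?_⟩
  · rw [Monic, leadingCoeff_mul, leadingCoeff_C, h2]
  · exact (irreducible_mul_isUnit hu).2 hg
  · obtain ⟨u, hu'⟩ := hu
    refine ⟨(↑u⁻¹ : ℂ[X][X]) * q, ?_⟩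
    rw [← hu', mul_assoc, ← mul_assoc (u : ℂ[X][X]), Units.mul_inv, one_mul]

/-- two monic divisors of a separable polynomial with the same roots -/
theorem eq_of_roots {f p q : ℂ[X]} (hf : f.Separable) (hp : p.Monic) (hq : q.Monic)
    (hpf : p ∣ f) (hqf : q ∣ f) (h : ∀ t, f.eval t = 0 → (p.eval t = 0 ↔ q.eval t = 0)) :
    p = q := by
  have h1 : p.roots = q.roots := by
    refine (Multiset.Nodup.ext (nodup_roots (hf.of_dvd hpf)) (nodup_roots (hf.of_dvd hqf))).2 ?_
    intro t
    rw [mem_roots hp.ne_zero, mem_roots hq.ne_zero, IsRoot, IsRoot]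
    by_cases ht : f.eval t = 0
    · exact h t ht
    · constructor
      · intro h0
        exact absurd (eval_eq_zero_of_dvd_of_eval_eq_zero hpf h0) ht
      · intro h0
        exact absurd (eval_eq_zero_of_dvd_of_eval_eq_zero hqf h0) ht
  have h2 := (IsAlgClosed.splits p).eq_prod_roots_of_monic hp
  have h3 := (IsAlgClosed.splits q).eq_prod_roots_of_monic hq
  rw [h2, h3, h1]

/-- **The product over a union of components of a curve.** -/
theorem line_split (h : ℂ[X]) (S : ℂ → ℂ → Prop) (n : ℕ) : ∀ (f : ℂ[X][X]) (_ : f.natDegree = n)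
    (_ : f.Monic) (_ : ∀ a, h.eval a ≠ 0 → (f.map (evalRingHom a)).Separable)
    (_ : ∀ g : ℂ[X][X], g.Monic → Irreducible g → g ∣ f → ∀ a b c d, h.eval a ≠ 0 →
      h.eval c ≠ 0 → (g.map (evalRingHom a)).eval b = 0 → (g.map (evalRingHom c)).eval d = 0 →
      S a b → S c d),
    ∃ g : ℂ[X][X], g.Monic ∧ g ∣ f ∧ ∀ a b, h.eval a ≠ 0 → (f.map (evalRingHom a)).eval b = 0 →
      ((g.map (evalRingHom a)).eval b = 0 ↔ S a b) := by
  induction n using Nat.strong_induction_on with
  | _ n ih =>
  intro f hn hf hsep hS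
  by_cases hd : f.natDegree = 0
  · have h1 : f = 1 := hf.natDegree_eq_zero.1 hd
    refine ⟨1, monic_one, one_dvd _, ?_⟩
    intro a b _ hb
    rw [h1, Polynomial.map_one, eval_one] at hb
    exact absurd hb one_ne_zero
  · obtain ⟨g, hg, hgi, q, rfl⟩ := monic_irreducible_factor hf hd
    have hq : q.Monic := hg.of_mul_monic_left hf
    have hg1 : g.natDegree ≠ 0 := by
      intro h0
      rw [hg.natDegree_eq_zero] at h0
      rw [h0] at hgi
      exact not_irreducible_one hgi
    have hlt : q.natDegree < n := by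
      rw [← hn, hg.natDegree_mul hq]
      omega
    obtain ⟨g', hg', hg'q, hroots⟩ := ih q.natDegree hlt q rfl hq
      (fun a ha => by
        have h1 := hsep a ha
        rw [Polynomial.map_mul] at h1
        exact h1.of_mul_right)
      (fun g₁ h1 h2 h3 => hS g₁ h1 h2 (h3.mul_left g))
    have hcop : ∀ a b, h.eval a ≠ 0 → (g.map (evalRingHom a)).eval b = 0 →
        (q.map (evalRingHom a)).eval b ≠ 0 := by
      intro a b ha h1 h2
      have h3 := hsep a ha
      rw [Polynomial.map_mul] at h3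
      obtain ⟨u, v, huv⟩ := h3.isCoprime
      have h4 := congrArg (eval b) huv
      rw [eval_add, eval_mul, eval_mul, h1, h2, mul_zero, mul_zero, add_zero, eval_one] at h4
      exact zero_ne_one h4
    have hg'q' : ∀ a b, (g'.map (evalRingHom a)).eval b = 0 →
        (q.map (evalRingHom a)).eval b = 0 := by
      intro a b h1
      obtain ⟨r, rfl⟩ := hg'q
      rw [Polynomial.map_mul, eval_mul, h1, zero_mul]
    by_cases hex : ∃ a b, h.eval a ≠ 0 ∧ (g.map (evalRingHom a)).eval b = 0 ∧ S a b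
    · obtain ⟨a₀, b₀, ha₀, hb₀, hS₀⟩ := hex
      refine ⟨g * g', hg.mul hg', mul_dvd_mul_left g hg'q, ?_⟩
      intro a b ha hb
      rw [Polynomial.map_mul, eval_mul, mul_eq_zero] at hb ⊢
      rcases hb with hb | hb
      · constructor
        · intro _
          exact hS g hg hgi (Dvd.intro _ rfl) a₀ b₀ a b ha₀ ha hb₀ hb hS₀
        · intro _
          exact Or.inl hb
      · rw [← hroots a b ha hb]
        constructor
        · rintro (h1 | h1)
          · exact absurd hb (hcop a b ha h1)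
          · exact h1
        · exact Or.inr
    · push Not at hex
      refine ⟨g', hg', hg'q.mul_left g, ?_⟩
      intro a b ha hb
      rw [Polynomial.map_mul, eval_mul, mul_eq_zero] at hb
      rcases hb with hb | hb
      · constructor
        · intro h1
          exact absurd (hg'q' a b h1) (hcop a b ha hb)
        · intro h1
          exact absurd h1 (hex a b ha hb)
      · exact hroots a b ha hb

/-- polynomials in `x, y` -/
abbrev A2 : Type := MvPolynomial (Fin 2) ℂ

/-- the horizontal line `y = b` -/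
noncomputable def rh (b : ℂ) : A2 →ₐ[ℂ] ℂ[X] := MvPolynomial.aeval ![X, C b]

/-- the vertical line `x = a` -/
noncomputable def sv (a : ℂ) : A2 →ₐ[ℂ] ℂ[X] := MvPolynomial.aeval ![C a, X]

/-- the point `(a, b)` -/
noncomputable def ev (a b : ℂ) : A2 →ₐ[ℂ] ℂ := MvPolynomial.aeval ![a, b]

theorem ev_rh (a b : ℂ) (u : A2) : (rh b u).eval a = ev a b u := by
  have h1 : (Polynomial.aeval a : ℂ[X] →ₐ[ℂ] ℂ).comp (rh b) = ev a b := by
    apply MvPolynomial.algHom_ext
    intro i
    fin_cases i <;> simp [rh, ev]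
  exact DFunLike.congr_fun h1 u

theorem ev_sv (a b : ℂ) (u : A2) : (sv a u).eval b = ev a b u := by
  have h1 : (Polynomial.aeval b : ℂ[X] →ₐ[ℂ] ℂ).comp (sv a) = ev a b := by
    apply MvPolynomial.algHom_ext
    intro i
    fin_cases i <;> simp [sv, ev]
  exact DFunLike.congr_fun h1 u

theorem map_rh (a b : ℂ) (F : A2[X]) :
    (F.map (rh b : A2 →+* ℂ[X])).map (evalRingHom a) = F.map (ev a b : A2 →+* ℂ) := by
  rw [Polynomial.map_map]
  congr 1
  exact RingHom.ext fun u => ev_rh a b u

theorem map_sv (a b : ℂ) (F : A2[X]) :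
    (F.map (sv a : A2 →+* ℂ[X])).map (evalRingHom b) = F.map (ev a b : A2 →+* ℂ) := by
  rw [Polynomial.map_map]
  congr 1
  exact RingHom.ext fun u => ev_sv a b u

/-- a polynomial vanishing on infinitely many vertical lines is zero -/
theorem eq_zero_of_sv {u : A2} {s : Set ℂ} (hs : s.Infinite) (h : ∀ a ∈ s, sv a u = 0) : u = 0 := by
  refine MvPolynomial.funext_set (fun i : Fin 2 => if i = 0 then s else Set.univ) ?_ ?_
  · intro i
    fin_cases i
    · simpa using hs
    · simpa using Set.infinite_univ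
  · intro x hx
    have h0 : x 0 ∈ s := by simpa using hx 0 (Set.mem_univ _)
    have h1 := ev_sv (x 0) (x 1) u
    rw [h _ h0, eval_zero] at h1
    rw [map_zero]
    have h2 : (![x 0, x 1] : Fin 2 → ℂ) = x := by
      ext i; fin_cases i <;> rfl
    rw [ev, h2, MvPolynomial.aeval_eq_eval] at h1
    exact h1.symm

/-- the bad horizontal lines -/
theorem finite_rh {u : A2} (hu : u ≠ 0) : {b | rh b u = 0}.Finite := by
  by_contra hcon
  apply hu
  refine MvPolynomial.funext_set (fun i : Fin 2 => if i = 1 then {b | rh b u = 0} else Set.univ)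
    ?_ ?_
  · intro i
    fin_cases i
    · simpa using Set.infinite_univ
    · simpa using hcon
  · intro x hx
    have h0 : rh (x 1) u = 0 := by simpa using hx 1 (Set.mem_univ _)
    have h1 := ev_rh (x 0) (x 1) u
    rw [h0, eval_zero] at h1
    rw [map_zero]
    have h2 : (![x 0, x 1] : Fin 2 → ℂ) = x := by
      ext i; fin_cases i <;> rfl
    rw [ev, h2, MvPolynomial.aeval_eq_eval] at h1
    exact h1.symm

theorem finite_sv {u : A2} (hu : u ≠ 0) : {a | sv a u = 0}.Finite := by
  by_contra hcon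
  exact hu (eq_zero_of_sv hcon fun a ha => ha)

/-- vertical lines: degrees are bounded -/
theorem exists_bound (F : A2[X]) : ∃ D : ℕ, ∀ a n, ((F.map (sv a : A2 →+* ℂ[X])).coeff n).natDegree ≤ D := by
  refine ⟨F.support.sup fun n => (F.coeff n).totalDegree, fun a n => ?_⟩
  rw [coeff_map]
  by_cases hn : n ∈ F.support
  · have h1 : (sv a (F.coeff n)).natDegree ≤ (F.coeff n).totalDegree * 1 := by
      refine MvPolynomial.aeval_natDegree_le _ le_rfl _ ?_
      intro i
      fin_cases i
      · simp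
      · simp
    rw [mul_one] at h1
    exact h1.trans (Finset.le_sup (f := fun n => (F.coeff n).totalDegree) hn)
  · rw [notMem_support_iff.1 hn, map_zero, natDegree_zero]
    exact Nat.zero_le _

/-- polynomials in `x` -/
noncomputable def etax : ℂ[X] →ₐ[ℂ] A2 := Polynomial.aeval (MvPolynomial.X 0 : A2)

/-- polynomials in `y` -/
noncomputable def etay : ℂ[X] →ₐ[ℂ] A2 := Polynomial.aeval (MvPolynomial.X 1 : A2)

theorem sv_etax (a : ℂ) (u : ℂ[X]) : sv a (etax u) = C (u.eval a) := by
  have h1 : (sv a).comp etax = (Algebra.ofId ℂ ℂ[X]).comp (Polynomial.aeval a) := by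
    apply Polynomial.algHom_ext
    simp [sv, etax, Algebra.ofId_apply]
  exact DFunLike.congr_fun h1 u

theorem sv_etay (a : ℂ) (u : ℂ[X]) : sv a (etay u) = u := by
  have h1 : (sv a).comp etay = AlgHom.id ℂ _ := by
    apply Polynomial.algHom_ext
    simp [sv, etay]
  exact DFunLike.congr_fun h1 u

/-- the interpolating polynomial -/
noncomputable def interP (s : Finset ℂ) (G : ℂ → ℂ[X][X]) : A2[X] :=
  ∑ b ∈ s, (G b).map (etax : ℂ[X] →+* A2) * C (etay (Lagrange.basis s id b))

theorem sv_interP (s : Finset ℂ) (G : ℂ → ℂ[X][X]) (a : ℂ) (n : ℕ) :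
    sv a ((interP s G).coeff n) =
      Lagrange.interpolate s id (fun b => ((G b).coeff n).eval a) := by
  rw [Lagrange.interpolate_apply, interP, finsetSum_coeff, map_sum]
  refine Finset.sum_congr rfl fun b _ => ?_
  rw [coeff_mul_C, coeff_map, map_mul, sv_etay]
  congr 1
  exact sv_etax a _

/-- **A non-empty set of points of `F(x, y; T) = 0` which is a union of components over every
horizontal and every vertical line is everything.** -/
theorem all_of_some {F : A2[X]} (hF : F.Monic) (hirr : Irreducible F) {h : A2} (h0 : h ≠ 0)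
    (hsep : ∀ a b, ev a b h ≠ 0 → (F.map (ev a b : A2 →+* ℂ)).Separable)
    (S : ℂ → ℂ → ℂ → Prop)
    (hH : ∀ b, ∀ g : ℂ[X][X], g.Monic → Irreducible g → g ∣ F.map (rh b : A2 →+* ℂ[X]) →
      ∀ a t a' t', ev a b h ≠ 0 → ev a' b h ≠ 0 → (g.map (evalRingHom a)).eval t = 0 →
      (g.map (evalRingHom a')).eval t' = 0 → S a b t → S a' b t')
    (hV : ∀ a, ∀ g : ℂ[X][X], g.Monic → Irreducible g → g ∣ F.map (sv a : A2 →+* ℂ[X]) →
      ∀ b t b' t', ev a b h ≠ 0 → ev a b' h ≠ 0 → (g.map (evalRingHom b)).eval t = 0 →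
      (g.map (evalRingHom b')).eval t' = 0 → S a b t → S a b' t')
    {a₀ b₀ t₀ : ℂ} (hg₀ : ev a₀ b₀ h ≠ 0) (hF₀ : (F.map (ev a₀ b₀ : A2 →+* ℂ)).eval t₀ = 0)
    (hS₀ : S a₀ b₀ t₀) :
    ∀ a b t, ev a b h ≠ 0 → (F.map (ev a b : A2 →+* ℂ)).eval t = 0 → S a b t := by
  classical
  -- the products over the lines
  have hh : ∀ b, ∃ G : ℂ[X][X], G.Monic ∧ G ∣ F.map (rh b : A2 →+* ℂ[X]) ∧
      ∀ a t, ev a b h ≠ 0 → (F.map (ev a b : A2 →+* ℂ)).eval t = 0 →
        ((G.map (evalRingHom a)).eval t = 0 ↔ S a b t) := by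
    intro b
    obtain ⟨G, h1, h2, h3⟩ := line_split (rh b h) (fun a t => S a b t) _
      (F.map (rh b : A2 →+* ℂ[X])) rfl (hF.map _)
      (fun a ha => by
        rw [ev_rh] at ha
        rw [map_rh]
        exact hsep a b ha)
      (fun g hg hgi hgd a t a' t' ha ha' => by
        rw [ev_rh] at ha ha'
        exact hH b g hg hgi hgd a t a' t' ha ha')
    refine ⟨G, h1, h2, fun a t ha ht => h3 a t ?_ ?_⟩
    · rw [ev_rh]; exact ha
    · rw [map_rh]; exact ht
  have hv : ∀ a, ∃ G : ℂ[X][X], G.Monic ∧ G ∣ F.map (sv a : A2 →+* ℂ[X]) ∧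
      ∀ b t, ev a b h ≠ 0 → (F.map (ev a b : A2 →+* ℂ)).eval t = 0 →
        ((G.map (evalRingHom b)).eval t = 0 ↔ S a b t) := by
    intro a
    obtain ⟨G, h1, h2, h3⟩ := line_split (sv a h) (fun b t => S a b t) _
      (F.map (sv a : A2 →+* ℂ[X])) rfl (hF.map _)
      (fun b hb => by
        rw [ev_sv] at hb
        rw [map_sv]
        exact hsep a b hb)
      (fun g hg hgi hgd b t b' t' hb hb' => by
        rw [ev_sv] at hb hb'
        exact hV a g hg hgi hgd b t b' t' hb hb')
    refine ⟨G, h1, h2, fun b t hb ht => h3 b t ?_ ?_⟩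
    · rw [ev_sv]; exact hb
    · rw [map_sv]; exact ht
  choose GH hGH1 hGH2 hGH3 using hh
  choose GV hGV1 hGV2 hGV3 using hv
  have hmapH : ∀ a b, (GH b).map (evalRingHom a) ∣ F.map (ev a b : A2 →+* ℂ) := by
    intro a b
    rw [← map_rh]
    exact Polynomial.map_dvd _ (hGH2 b)
  have hmapV : ∀ a b, (GV a).map (evalRingHom b) ∣ F.map (ev a b : A2 →+* ℂ) := by
    intro a b
    rw [← map_sv]
    exact Polynomial.map_dvd _ (hGV2 a)
  have heq : ∀ a b, ev a b h ≠ 0 → (GH b).map (evalRingHom a) = (GV a).map (evalRingHom b) := by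
    intro a b hab
    refine eq_of_roots (hsep a b hab) ((hGH1 b).map _) ((hGV1 a).map _) (hmapH a b) (hmapV a b) ?_
    intro t ht
    rw [hGH3 b a t hab ht, hGV3 a b t hab ht]
  -- interpolation
  obtain ⟨D, hD⟩ := exists_bound F
  have hdegV : ∀ a n, ((GV a).coeff n).natDegree ≤ D := fun a =>
    natDegree_coeff_of_dvd (hF.map _).ne_zero (hGV2 a) (hD a)
  have hinf : {b | rh b h = 0}ᶜ.Infinite := (finite_rh h0).infinite_compl
  obtain ⟨s, hs, hcard⟩ := hinf.exists_subset_card_eq (D + 1)
  obtain ⟨P, hP⟩ : ∃ P : A2[X], P = interP s GH := ⟨_, rfl⟩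
  have hPc : ∀ a n, sv a (P.coeff n) =
      Lagrange.interpolate s id (fun b => ((GH b).coeff n).eval a) := by
    intro a n
    rw [hP, sv_interP]
  let good : Set ℂ := {a | ∀ b ∈ s, ev a b h ≠ 0}
  have hgood : goodᶜ.Finite := by
    have h1 : goodᶜ = ⋃ b ∈ s, {a | ev a b h = 0} := by
      ext a
      simp [good]
    rw [h1]
    refine s.finite_toSet.biUnion fun b hb => ?_
    have h2 : rh b h ≠ 0 := hs hb
    have h3 : {a | ev a b h = 0} = {a | (rh b h).IsRoot a} := by
      ext a
      rw [Set.mem_ofPred_eq, Set.mem_ofPred_eq, IsRoot, ev_rh]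
    rw [h3]
    exact finite_setOfPred_isRoot h2
  have hgoodi : ∀ t : Set ℂ, t.Finite → (good \ t).Infinite := by
    intro t ht
    have h1 : good.Infinite := by
      intro h2
      exact Set.infinite_univ ((h2.union hgood).subset (by rw [Set.union_compl_self]))
    exact h1.sdiff ht
  have hPV : ∀ a ∈ good, P.map (sv a : A2 →+* ℂ[X]) = GV a := by
    intro a ha
    ext1 n
    rw [coeff_map]
    refine (hPc a n).trans ?_
    symm
    refine Lagrange.eq_interpolate_of_eval_eq _ Function.injective_id.injOn ?_ ?_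
    · rw [hcard]
      refine lt_of_le_of_lt degree_le_natDegree ?_
      exact_mod_cast Nat.lt_succ_of_le (hdegV a n)
    · intro b hb
      have h1 := congrArg (fun p => p.coeff n) (heq a b (ha b hb))
      simp only [coeff_map, coe_evalRingHom] at h1
      exact h1.symm
  have hP0 : P ≠ 0 := by
    intro h1
    obtain ⟨a, ha, -⟩ := (hgoodi ∅ Set.finite_empty).nonempty
    have h2 := hPV a ha
    rw [h1, Polynomial.map_zero] at h2
    exact (hGV1 a).ne_zero h2.symm
  have hPm : P.Monic := by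
    have hlc : P.leadingCoeff ≠ 0 := leadingCoeff_ne_zero.2 hP0
    have h1 : P.leadingCoeff - 1 = 0 := by
      refine eq_zero_of_sv (hgoodi _ (finite_sv hlc)) ?_
      rintro a ⟨ha, ha'⟩
      have h2 : (sv a : A2 →+* ℂ[X]) P.leadingCoeff ≠ 0 := ha'
      have h3 := leadingCoeff_map_of_leadingCoeff_ne_zero (sv a : A2 →+* ℂ[X]) h2
      rw [hPV a ha, hGV1 a] at h3
      rw [map_sub, map_one]
      exact sub_eq_zero.2 h3.symm
    exact sub_eq_zero.1 h1
  have hPF : P ∣ F := by
    rw [← modByMonic_eq_zero_iff_dvd hPm]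
    ext1 n
    rw [coeff_zero]
    refine eq_zero_of_sv (hgoodi ∅ Set.finite_empty) ?_
    rintro a ⟨ha, -⟩
    have h1 := congrArg (fun p => p.coeff n) (map_modByMonic (sv a : A2 →+* ℂ[X]) hPm (p := F))
    simp only [coeff_map] at h1
    rw [hPV a ha, (modByMonic_eq_zero_iff_dvd (hGV1 a)).2 (hGV2 a), coeff_zero] at h1
    exact h1
  -- all horizontal degrees are equal
  have hdeg : ∀ a b, ev a b h ≠ 0 → (GH b).natDegree = P.natDegree := by
    intro a b hab
    have h1 : rh b h ≠ 0 := by
      intro h2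
      apply hab
      rw [← ev_rh, h2, eval_zero]
    obtain ⟨a', ha', ha''⟩ := (hgoodi _ (finite_setOfPred_isRoot h1)).nonempty
    have h2 : ev a' b h ≠ 0 := by
      intro h3
      apply ha''
      rw [Set.mem_ofPred_eq, IsRoot, ev_rh]
      exact h3
    have h3 := congrArg natDegree (heq a' b h2)
    rw [(hGH1 b).natDegree_map, (hGV1 a').natDegree_map, ← hPV a' ha', hPm.natDegree_map] at h3
    exact h3
  obtain ⟨q, hq⟩ := hPF
  have hPF' : P = F := by
    rcases hirr.isUnit_or_isUnit hq with hu | hu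
    · exfalso
      have h1 : P = 1 := by rwa [hPm.isUnit_iff] at hu
      have h2 := hdeg a₀ b₀ hg₀
      rw [h1, natDegree_one, (hGH1 b₀).natDegree_eq_zero] at h2
      have h3 := (hGH3 b₀ a₀ t₀ hg₀ hF₀).2 hS₀
      rw [h2, Polynomial.map_one, eval_one] at h3
      exact one_ne_zero h3
    · have hqm : q.Monic := hPm.of_mul_monic_left (hq ▸ hF)
      rw [hqm.isUnit_iff] at hu
      rw [hq, hu, mul_one]
  intro a b t hab ht
  rw [← hGH3 b a t hab ht]
  have h1 : GH b = F.map (rh b : A2 →+* ℂ[X]) := by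
    obtain ⟨r, hr⟩ := hGH2 b
    have hrm : r.Monic := (hGH1 b).of_mul_monic_left (hr ▸ hF.map _)
    have h2 := congrArg natDegree hr
    rw [hF.natDegree_map, (hGH1 b).natDegree_mul hrm, hdeg a b hab, hPF'] at h2
    have h3 : r.natDegree = 0 := by omega
    rw [hrm.natDegree_eq_zero] at h3
    rw [hr, h3, mul_one]
  rw [h1, map_rh]
  exact ht

end Vale.Agent.P297.H160.Conn
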