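import Mathlib

/-! Straight-line programs over the ring `ℤ[s][x₀,x₁,…]` (`s³ = s² - 1`) and its quadratic
extensions; generic evaluation. Part of a kernel-friendly checker for polynomial identities. -/

namespace Vale.Agent.P297.H160

/-- operations needed to evaluate a program. `fc` is only used to force evaluation. -/
structure Al (M : Type*) where
  add : M → M → M
  sub : M → M → M
  mul : M → M → M
  cst : ℤ → ℤ → ℤ → M
  var : ℕ → M
  q : M
  fc : M → Bool

/-- coefficients `x + y s + z s²`. -/
abbrev Co := ℤ × ℤ × ℤ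

/-- expressions. -/
inductive Ex : Type
  | v : ℕ → Ex
  | k : ℤ → ℤ → ℤ → Ex
  | q : Ex
  | r : ℕ → Ex
  | add : Ex → Ex → Ex
  | sub : Ex → Ex → Ex
  | mul : Ex → Ex → Ex
  | pow : Ex → ℕ → Ex
  /-- `app n d a b c e`: the form `∑ dⱼᵢ aⁱ bⁿ⁻ⁱ cʲ e^(m-j)`, `m + 1` rows of length `n + 1`. -/
  | app : ℕ → List (List Co) → Ex → Ex → Ex → Ex → Ex

instance : Add Ex := ⟨Ex.add⟩
instance : Sub Ex := ⟨Ex.sub⟩
instance : Mul Ex := ⟨Ex.mul⟩
instance : HPow Ex ℕ Ex := ⟨Ex.pow⟩

namespace Al

variable {M : Type*} (al : Al M)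

/-- powers. -/
def pw (x : M) : ℕ → M
  | 0 => al.cst 1 0 0
  | 1 => x
  | n + 2 => al.mul (pw x (n + 1)) x

/-- `[x^n, …, x, 1]`. -/
def powers (x : M) : ℕ → List M
  | 0 => [al.cst 1 0 0]
  | n + 1 =>
    match powers x n with
    | [] => []
    | y :: l => al.mul y x :: y :: l

/-- `[bⁿ, a bⁿ⁻¹, …, aⁿ]`. -/
def monos (a b : M) (n : ℕ) : List M :=
  List.zipWith al.mul (al.powers a n).reverse (al.powers b n)

/-- linear combination. -/
def lin : List Co → List M → M
  | [], _ => al.cst 0 0 0
  | _ :: _, [] => al.cst 0 0 0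
  | c :: cs, m :: ms => al.add (al.mul (al.cst c.1 c.2.1 c.2.2) m) (lin cs ms)

/-- sum of products. -/
def dot : List M → List M → M
  | [], _ => al.cst 0 0 0
  | _ :: _, [] => al.cst 0 0 0
  | a :: as, b :: bs => al.add (al.mul a b) (dot as bs)

/-- bihomogeneous forms. -/
def bih (n : ℕ) (d : List (List Co)) (a b c e : M) : M :=
  al.dot (d.map fun row => al.lin row (al.monos a b n)) (al.monos c e (d.length - 1))

/-- list access. -/
def nth : List M → ℕ → M
  | [], _ => al.cst 0 0 0
  | x :: _, 0 => x
  | _ :: l, n + 1 => nth l n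

/-- evaluation. -/
def ev (st : List M) : Ex → M
  | .v i => al.var i
  | .k x y z => al.cst x y z
  | .q => al.q
  | .r i => al.nth st i
  | .add a b => al.add (ev st a) (ev st b)
  | .sub a b => al.sub (ev st a) (ev st b)
  | .mul a b => al.mul (ev st a) (ev st b)
  | .pow a n => al.pw (ev st a) n
  | .app n d a b c e => al.bih n d (ev st a) (ev st b) (ev st c) (ev st e)

/-- run a program: the registers, most recent first. -/
def run (st : List M) : List Ex → List M
  | [] => st
  | e :: es =>
    match al.fc (al.ev st e) with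
    | true => run (al.ev st e :: st) es
    | false => run (al.ev st e :: st) es

end Al

/-- a relation compatible with the operations. -/
structure Rel {M N : Type*} (al : Al M) (al' : Al N) (R : M → N → Prop) : Prop where
  add : ∀ {a b a' b'}, R a a' → R b b' → R (al.add a b) (al'.add a' b')
  sub : ∀ {a b a' b'}, R a a' → R b b' → R (al.sub a b) (al'.sub a' b')
  mul : ∀ {a b a' b'}, R a a' → R b b' → R (al.mul a b) (al'.mul a' b')
  cst : ∀ x y z, R (al.cst x y z) (al'.cst x y z)
  var : ∀ i, R (al.var i) (al'.var i)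
  q : R al.q al'.q

namespace Rel

variable {M N : Type*} {al : Al M} {al' : Al N} {R : M → N → Prop} (h : Rel al al' R)
include h

theorem pw {x : M} {y : N} (hx : R x y) : ∀ n, R (al.pw x n) (al'.pw y n)
  | 0 => h.cst _ _ _
  | 1 => hx
  | n + 2 => h.mul (pw hx (n + 1)) hx

theorem powers {x : M} {y : N} (hx : R x y) : ∀ n,
    List.Forall₂ R (al.powers x n) (al'.powers y n)
  | 0 => .cons (h.cst _ _ _) .nil
  | n + 1 => by
    have := powers hx n
    unfold Al.powers
    revert this
    generalize al.powers x n = l, al'.powers y n = l'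
    intro this
    cases this with
    | nil => exact .nil
    | cons h1 h2 => exact .cons (h.mul h1 hx) (.cons h1 h2)

theorem zipW {l l2 : List M} {l' l2' : List N} (h1 : List.Forall₂ R l l')
    (h2 : List.Forall₂ R l2 l2') :
    List.Forall₂ R (List.zipWith al.mul l l2) (List.zipWith al'.mul l' l2') := by
  induction h1 generalizing l2 l2' with
  | nil => simp
  | cons ha _ ih =>
    cases h2 with
    | nil => simp
    | cons hb h2 => exact .cons (h.mul ha hb) (ih h2)

theorem monos {a b : M} {a' b' : N} (ha : R a a') (hb : R b b') (n : ℕ) :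
    List.Forall₂ R (al.monos a b n) (al'.monos a' b' n) :=
  h.zipW (List.rel_reverse (h.powers ha n)) (h.powers hb n)

theorem lin : ∀ (cs : List Co) {l : List M} {l' : List N}, List.Forall₂ R l l' →
    R (al.lin cs l) (al'.lin cs l')
  | [], _, _, _ => by
    unfold Al.lin; exact h.cst _ _ _
  | _ :: _, _, _, .nil => by
    unfold Al.lin; exact h.cst _ _ _
  | c :: cs, _, _, .cons h1 h2 => by
    unfold Al.lin; exact h.add (h.mul (h.cst _ _ _) h1) (lin cs h2)

theorem dot {l : List M} {l' : List N} (h1 : List.Forall₂ R l l') : ∀ {k : List M} {k' : List N},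
    List.Forall₂ R k k' → R (al.dot l k) (al'.dot l' k') := by
  induction h1 with
  | nil => intro k k' _; unfold Al.dot; exact h.cst _ _ _
  | cons ha _ ih =>
    intro k k' hk
    cases hk with
    | nil => unfold Al.dot; exact h.cst _ _ _
    | cons hb h2 => unfold Al.dot; exact h.add (h.mul ha hb) (ih h2)

theorem bih (n : ℕ) (d : List (List Co)) {a b c e : M} {a' b' c' e' : N} (ha : R a a')
    (hb : R b b') (hc : R c c') (he : R e e') :
    R (al.bih n d a b c e) (al'.bih n d a' b' c' e') := by
  unfold Al.bih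
  refine h.dot ?_ (h.monos hc he _)
  have hm := h.monos ha hb n
  generalize al.monos a b n = ms at hm ⊢
  generalize al'.monos a' b' n = ms' at hm ⊢
  induction d with
  | nil => exact .nil
  | cons r d ih => exact .cons (h.lin r hm) ih

theorem nth {l : List M} {l' : List N} (h1 : List.Forall₂ R l l') : ∀ n,
    R (al.nth l n) (al'.nth l' n) := by
  induction h1 with
  | nil => intro n; unfold Al.nth; exact h.cst _ _ _
  | cons ha _ ih =>
    intro n
    cases n with
    | zero => exact ha
    | succ n => exact ih n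

theorem ev {st : List M} {st' : List N} (hst : List.Forall₂ R st st') : ∀ e : Ex,
    R (al.ev st e) (al'.ev st' e)
  | .v i => h.var i
  | .k _ _ _ => h.cst _ _ _
  | .q => h.q
  | .r i => h.nth hst i
  | .add a b => h.add (ev hst a) (ev hst b)
  | .sub a b => h.sub (ev hst a) (ev hst b)
  | .mul a b => h.mul (ev hst a) (ev hst b)
  | .pow a n => h.pw (ev hst a) n
  | .app n d a b c e => h.bih n d (ev hst a) (ev hst b) (ev hst c) (ev hst e)

theorem run : ∀ (es : List Ex) {st : List M} {st' : List N}, List.Forall₂ R st st' →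
    List.Forall₂ R (al.run st es) (al'.run st' es)
  | [], _, _, hst => hst
  | e :: es, st, st', hst => by
    have h1 := h.ev hst e
    unfold Al.run
    have h2 := run es (List.Forall₂.cons h1 hst)
    split <;> split <;> exact h2

end Rel

end Vale.Agent.P297.H160
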