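import Mathlib

/-!
An algebraically closed field of transcendence degree two over the complex numbers, and the
subfields generated by finitely many elements.
-/

open MvPolynomial

namespace Vale.Agent.P297.H160.Ex

/-- polynomials in two variables -/
abbrev PP : Type := MvPolynomial (Fin 2) ℂ

/-- an algebraic closure of the field of rational functions in two variables -/
abbrev OO : Type := AlgebraicClosure (FractionRing PP)

/-- the inclusion of the polynomials -/
noncomputable def em : PP →ₐ[ℂ] OO := IsScalarTower.toAlgHom ℂ PP OO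

theorem em_inj : Function.Injective em := by
  have h : Function.Injective (algebraMap PP OO) := by
    rw [IsScalarTower.algebraMap_eq PP (FractionRing PP) OO]
    exact (algebraMap (FractionRing PP) OO).injective.comp (IsFractionRing.injective PP _)
  exact h

theorem em_ne {p : PP} (h : p ≠ 0) : em p ≠ 0 := fun h0 => h (em_inj (h0.trans (map_zero em).symm))

theorem indep : AlgebraicIndependent ℂ ![em (X 0), em (X 1)] := by
  have h : AlgebraicIndependent ℂ (em ∘ (X : Fin 2 → PP)) :=
    (MvPolynomial.algebraicIndependent_X (Fin 2) ℂ).map' em_inj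
  have e : (em ∘ (X : Fin 2 → PP)) = ![em (X 0), em (X 1)] := by
    funext i
    fin_cases i <;> rfl
  rwa [e] at h

theorem trdeg_OO : Algebra.trdeg ℂ OO = 2 := by
  have h1 : Algebra.trdeg ℂ PP = 2 := by
    rw [MvPolynomial.trdeg_of_isDomain]
    simp
  have : Algebra.IsAlgebraic PP (FractionRing PP) :=
    IsLocalization.isAlgebraic _ (nonZeroDivisors PP)
  have : Algebra.IsAlgebraic PP OO := Algebra.IsAlgebraic.trans PP (FractionRing PP) OO
  have : FaithfulSMul PP OO := (faithfulSMul_iff_algebraMap_injective PP OO).2 em_inj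
  have h2 : Algebra.trdeg PP OO = 0 := _root_.trdeg_eq_zero
  have h3 := _root_.trdeg_add_eq ℂ PP (A := OO)
  rw [h1, h2, add_zero] at h3
  exact h3.symm

/-- independence of two elements of a subfield -/
theorem indep_sub (K : IntermediateField ℂ OO) (a b : K)
    (h : AlgebraicIndependent ℂ ![(a : OO), (b : OO)]) : AlgebraicIndependent ℂ ![a, b] := by
  have e : (K.val ∘ ![a, b]) = ![(a : OO), (b : OO)] := by
    funext i
    fin_cases i <;> rfl
  rw [← e] at h
  exact h.of_comp K.val

theorem trdeg_sub (K : IntermediateField ℂ OO) (a b : K)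
    (h : AlgebraicIndependent ℂ ![(a : OO), (b : OO)]) : Algebra.trdeg ℂ K = 2 := by
  refine le_antisymm ?_ ?_
  · rw [← trdeg_OO]
    exact _root_.trdeg_le_of_injective K.val K.val.injective
  · have h1 := (indep_sub K a b h).lift_cardinalMk_le_trdeg
    simpa using h1

theorem top_four (s u v w : OO) :
    ∃ (K : Type) (_ : Field K) (_ : Algebra ℂ K) (ι : K →ₐ[ℂ] OO) (s' u' v' w' : K),
      ι s' = s ∧ ι u' = u ∧ ι v' = v ∧ ι w' = w ∧
        IntermediateField.adjoin ℂ {s', u', v', w'} = ⊤ := by
  let K := IntermediateField.adjoin ℂ ({s, u, v, w} : Set OO)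
  have hs : ∀ z ∈ ({s, u, v, w} : Set OO), z ∈ K := fun z hz =>
    IntermediateField.subset_adjoin ℂ _ hz
  refine ⟨K, inferInstance, inferInstance, K.val, ⟨s, hs s (by simp)⟩, ⟨u, hs u (by simp)⟩,
    ⟨v, hs v (by simp)⟩, ⟨w, hs w (by simp)⟩, rfl, rfl, rfl, rfl, ?_⟩
  apply IntermediateField.map_injective K.val
  rw [IntermediateField.adjoin_map, ← AlgHom.fieldRange_eq_map, IntermediateField.fieldRange_val]
  simp only [Set.image_insert_eq, Set.image_singleton]
  rfl

theorem top_five (x k y s t : OO) :
    ∃ (K : Type) (_ : Field K) (_ : Algebra ℂ K) (ι : K →ₐ[ℂ] OO) (x' k' y' s' t' : K),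
      ι x' = x ∧ ι k' = k ∧ ι y' = y ∧ ι s' = s ∧ ι t' = t ∧
        IntermediateField.adjoin ℂ {x', k', y', s', t'} = ⊤ := by
  let K := IntermediateField.adjoin ℂ ({x, k, y, s, t} : Set OO)
  have hs : ∀ z ∈ ({x, k, y, s, t} : Set OO), z ∈ K := fun z hz =>
    IntermediateField.subset_adjoin ℂ _ hz
  refine ⟨K, inferInstance, inferInstance, K.val, ⟨x, hs x (by simp)⟩, ⟨k, hs k (by simp)⟩,
    ⟨y, hs y (by simp)⟩, ⟨s, hs s (by simp)⟩, ⟨t, hs t (by simp)⟩, rfl, rfl, rfl, rfl, rfl, ?_⟩
  apply IntermediateField.map_injective K.val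
  rw [IntermediateField.adjoin_map, ← AlgHom.fieldRange_eq_map, IntermediateField.fieldRange_val]
  simp only [Set.image_insert_eq, Set.image_singleton]
  rfl

end Vale.Agent.P297.H160.Ex
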