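import Vale.Agent.P297.H160.ExTwo

/-!
The fields of the third family exist.
-/

open MvPolynomial

namespace Vale.Agent.P297.H160.Ex

theorem e1_ne (m : Fin 11 → ℂ) (h : m 2 ≠ 0) :
    (C (m 0) * X 0 ^ 2 + C (m 1) * X 1 + C (m 2) * X 0 ^ 2 * X 1 ^ 2 + C (m 3) * X 0 ^ 2 * X 1 +
      C (m 4) * X 0 * X 1 : PP) ≠ 0 := by
  intro h0
  have e : ∀ a b : ℂ, m 0 * a ^ 2 + m 1 * b + m 2 * a ^ 2 * b ^ 2 + m 3 * a ^ 2 * b +
      m 4 * a * b = 0 := by
    intro a b
    have h1 := congrArg (eval (![a, b] : Fin 2 → ℂ)) h0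
    simpa only [map_add, map_mul, map_pow, eval_X, eval_C, map_zero, Matrix.cons_val_zero,
      Matrix.cons_val_one] using h1
  apply h
  have h4 : 4 * m 2 = 0 := by
    linear_combination e 1 1 + e 1 (-1) - 2 * e 1 0 + e (-1) 1 + e (-1) (-1) - 2 * e (-1) 0 -
      2 * (e 0 1 + e 0 (-1) - 2 * e 0 0)
  exact (mul_eq_zero.1 h4).resolve_left (by norm_num)

/-- the fields of the third family exist -/
theorem four (m : Fin 11 → ℂ) (h : m 2 ≠ 0) :
    ∃ (K : Type) (_ : Field K) (_ : Algebra ℂ K) (u w p q : K),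
      AlgebraicIndependent ℂ ![u, w] ∧ IntermediateField.adjoin ℂ {u, w, p, q} = ⊤ ∧
      p * q + (algebraMap ℂ K (m 0) * u / w + algebraMap ℂ K (m 1) / u +
        algebraMap ℂ K (m 2) * u * w + algebraMap ℂ K (m 3) * u + algebraMap ℂ K (m 4)) = 0 ∧
      w * p ^ 2 + q ^ 2 + algebraMap ℂ K (m 9) * w * p + algebraMap ℂ K (m 10) * q +
        (algebraMap ℂ K (m 5) + algebraMap ℂ K (m 6) * w +
          (algebraMap ℂ K (m 7) + algebraMap ℂ K (m 8) * w) * u) = 0 := by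
  have hc : ∀ c : ℂ, algebraMap ℂ OO c = em (C c) := fun c => (em.commutes c).symm
  obtain ⟨P, hP⟩ : ∃ P : Fin 11 → OO, ∀ i, P i = algebraMap ℂ OO (m i) := ⟨_, fun _ => rfl⟩
  obtain ⟨u, hu⟩ : ∃ y : OO, y = em (X 0) := ⟨_, rfl⟩
  obtain ⟨w, hw⟩ : ∃ k : OO, k = em (X 1) := ⟨_, rfl⟩
  have hu0 : u ≠ 0 := by
    rw [hu]
    exact em_ne (X_ne_zero 0)
  have hw0 : w ≠ 0 := by
    rw [hw]
    exact em_ne (X_ne_zero 1)
  have hE := em_ne (e1_ne m h)
  simp only [map_add, map_mul, map_pow, ← hc, ← hP, ← hu, ← hw] at hE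
  obtain ⟨e, he⟩ : ∃ e, e = P 0 * u / w + P 1 / u + P 2 * u * w + P 3 * u + P 4 := ⟨_, rfl⟩
  have he0 : e ≠ 0 := by
    intro h0
    apply hE
    have h1 : u * w * e = P 0 * u ^ 2 + P 1 * w + P 2 * u ^ 2 * w ^ 2 + P 3 * u ^ 2 * w +
        P 4 * u * w := by
      rw [he]
      field_simp
    rw [← h1, h0, mul_zero]
  obtain ⟨p, hp⟩ := quartic_root w (P 9 * w) (P 5 + P 6 * w + (P 7 + P 8 * w) * u)
    (-(P 10 * e)) (e ^ 2) hw0
  have hp0 : p ≠ 0 := by
    rintro rfl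
    apply he0
    have h1 : e ^ 2 = 0 := by linear_combination hp
    exact pow_eq_zero_iff (two_ne_zero) |>.1 h1
  have e1 : p * (-e / p) + (P 0 * u / w + P 1 / u + P 2 * u * w + P 3 * u + P 4) = 0 := by
    rw [← he]
    field_simp
    ring
  have e2 : w * p ^ 2 + (-e / p) ^ 2 + P 9 * w * p + P 10 * (-e / p) +
      (P 5 + P 6 * w + (P 7 + P 8 * w) * u) = 0 := by
    field_simp
    linear_combination hp
  obtain ⟨K, _, _, ι, u', w', p', q', hu', hw', hp', hq', htop⟩ := top_four u w p (-e / p)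
  rw [← hq'] at e1 e2
  have hι : ∀ c : ℂ, ι (algebraMap ℂ K c) = algebraMap ℂ OO c := fun c => ι.commutes c
  have hinj : ∀ a b : K, ι a = ι b → a = b := fun a b h => ι.toRingHom.injective h
  refine ⟨K, inferInstance, inferInstance, u', w', p', q', ?_, htop, ?_, ?_⟩
  · have h1 := indep
    rw [← hu, ← hw, ← hu', ← hw'] at h1
    have e : (ι ∘ ![u', w']) = ![ι u', ι w'] := by
      funext i
      fin_cases i <;> rfl
    rw [← e] at h1
    exact h1.of_comp ι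
  · apply hinj
    simp only [map_add, map_mul, map_div₀, map_zero, hι, hu', hw', hp', ← hP]
    exact e1
  · apply hinj
    simp only [map_add, map_mul, map_pow, map_zero, hι, hu', hw', hp', ← hP]
    exact e2

end Vale.Agent.P297.H160.Ex
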