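import Vale.Agent.P297.H160.ExTwo

/-!
The fields of the second family exist.
-/

open MvPolynomial

namespace Vale.Agent.P297.H160.Ex

theorem trdeg_of {K : Type} [Field K] [Algebra ℂ K] (ι : K →ₐ[ℂ] OO) (a b : K)
    (h : AlgebraicIndependent ℂ ![a, b]) : Algebra.trdeg ℂ K = 2 := by
  refine le_antisymm ?_ ?_
  · rw [← trdeg_OO]
    exact _root_.trdeg_le_of_injective ι ι.toRingHom.injective
  · have h1 := h.lift_cardinalMk_le_trdeg
    simpa using h1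

section alg

variable {Ω : Type} [Field Ω]

theorem exists_sol3 [IsAlgClosed Ω] [CharZero Ω] (u v a2 a0 b1 b0 : Ω) (h2 : a2 ≠ 0)
    (h0 : a0 ≠ 0) (hab : a0 * b1 - a2 * b0 ≠ 0)
    (hF : ((u + v) * (a0 - a2) - 3 * (b0 - b1)) ^ 2 +
      (u + v + 3) * ((u + v) * (a0 - a2) - 3 * (b0 - b1)) * (a0 - a2) +
      (u ^ 2 + v ^ 2 - u * v) * (a0 - a2) ^ 2 ≠ 0) :
    ∃ w s : Ω, w ≠ -1 ∧
      (1 + w) * (w * a2 + a0) =
        3 * w * (s ^ 2 + u ^ 2 + v ^ 2 + s * u + s * v - u * v + 3 * s) ∧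
      (1 + w) * (w * b1 + b0) =
        w * (u + v - s) * (s ^ 2 + u ^ 2 + v ^ 2 + s * u + s * v - u * v + 3 * s) := by
  obtain ⟨e1, he1⟩ : ∃ e, e = (u + v) * a2 - 3 * b1 := ⟨_, rfl⟩
  obtain ⟨e0, he0⟩ : ∃ e, e = (u + v) * a0 - 3 * b0 := ⟨_, rfl⟩
  obtain ⟨r, hr⟩ : ∃ e, e = u + v + 3 := ⟨_, rfl⟩
  obtain ⟨c, hc⟩ : ∃ e, e = u ^ 2 + v ^ 2 - u * v := ⟨_, rfl⟩
  obtain ⟨w, hw⟩ := quartic_root (a2 ^ 3)
    (a2 ^ 3 + 3 * a2 ^ 2 * a0 - 3 * (e1 ^ 2 + r * e1 * a2 + c * a2 ^ 2))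
    (3 * a2 ^ 2 * a0 + 3 * a2 * a0 ^ 2 -
      3 * (2 * e1 * e0 + r * (e1 * a0 + e0 * a2) + 2 * c * a2 * a0))
    (3 * a2 * a0 ^ 2 + a0 ^ 3 - 3 * (e0 ^ 2 + r * e0 * a0 + c * a0 ^ 2)) (a0 ^ 3)
    (pow_ne_zero _ h2)
  have hw0 : w ≠ 0 := by
    rintro rfl
    apply h0
    have h1 : a0 ^ 3 = 0 := by linear_combination hw
    exact pow_eq_zero_iff (three_ne_zero) |>.1 h1
  have hw1 : w ≠ -1 := by
    rintro rfl
    apply hF
    rw [← hr, ← hc]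
    have h1 : (3 : Ω) * (((u + v) * (a0 - a2) - 3 * (b0 - b1)) ^ 2 +
      r * ((u + v) * (a0 - a2) - 3 * (b0 - b1)) * (a0 - a2) + c * (a0 - a2) ^ 2) = 0 := by
      rw [he1, he0] at hw
      linear_combination hw
    exact (mul_eq_zero.1 h1).resolve_left three_ne_zero
  obtain ⟨a, ha⟩ : ∃ a, a = w * a2 + a0 := ⟨_, rfl⟩
  obtain ⟨b, hb⟩ : ∃ b, b = w * b1 + b0 := ⟨_, rfl⟩
  have hQ : 3 * w * (((u + v) * a - 3 * b) ^ 2 + (u + v + 3) * ((u + v) * a - 3 * b) * a +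
      (u ^ 2 + v ^ 2 - u * v) * a ^ 2) = (1 + w) * a ^ 3 := by
    rw [ha, hb, ← hr, ← hc]
    rw [he1, he0] at hw
    linear_combination -hw
  have ha0 : a ≠ 0 := by
    intro h1
    rw [h1] at hQ
    have h3 : 27 * w * b ^ 2 = 0 := by linear_combination hQ
    have h4 : b = 0 := by
      rcases mul_eq_zero.1 h3 with h5 | h5
      · rcases mul_eq_zero.1 h5 with h6 | h6
        · norm_num at h6
        · exact absurd h6 hw0
      · exact pow_eq_zero_iff (two_ne_zero) |>.1 h5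
    apply hab
    rw [h1] at ha
    rw [h4] at hb
    linear_combination (-b1) * ha + a2 * hb
  refine ⟨w, u + v - 3 * b / a, hw1, ?_, ?_⟩
  · rw [← ha]
    field_simp
    linear_combination -hQ
  · rw [← hb]
    field_simp
    linear_combination -b * hQ

end alg

theorem a_ne (i : Fin 2) (c d : ℂ) : (3 * X i ^ 2 - C c * X i - C d : PP) ≠ 0 := by
  intro h
  have h0 := congrArg (eval (fun _ : Fin 2 => (0 : ℂ))) h
  have h1 := congrArg (eval (fun _ : Fin 2 => (1 : ℂ))) h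
  have h2 := congrArg (eval (fun _ : Fin 2 => (2 : ℂ))) h
  simp only [map_sub, map_mul, map_pow, eval_X, eval_C, map_zero, map_ofNat] at h0 h1 h2
  have h5 : (6 : ℂ) = 0 := by
    linear_combination h0 - 2 * h1 + h2
  norm_num at h5

theorem ab_ne (z t : Fin 4 → ℂ) :
    ((3 * X 0 ^ 2 - C (z 3) * X 0 - C (z 1)) * (X 1 ^ 3 - C (t 2) * X 1 - C (t 0)) -
      (3 * X 1 ^ 2 - C (z 2) * X 1 - C (z 0)) * (X 0 ^ 3 - C (t 3) * X 0 - C (t 1)) : PP) ≠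
      0 := by
  intro h0
  have e : ∀ a b : ℂ, (3 * a ^ 2 - z 3 * a - z 1) * (b ^ 3 - t 2 * b - t 0) -
      (3 * b ^ 2 - z 2 * b - z 0) * (a ^ 3 - t 3 * a - t 1) = 0 := by
    intro a b
    have h1 := congrArg (eval (![a, b] : Fin 2 → ℂ)) h0
    simpa only [map_sub, map_mul, map_pow, eval_X, eval_C, map_zero, map_ofNat,
      Matrix.cons_val_zero, Matrix.cons_val_one] using h1
  have h5 : (36 : ℂ) = 0 := by
    linear_combination -(e 3 2 - 3 * e 2 2 + 3 * e 1 2 - e 0 2) +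
      2 * (e 3 1 - 3 * e 2 1 + 3 * e 1 1 - e 0 1) - (e 3 0 - 3 * e 2 0 + 3 * e 1 0 - e 0 0)
  norm_num at h5

theorem F_ne (z t : Fin 4 → ℂ) :
    (((X 0 + X 1) * ((3 * X 0 ^ 2 - C (z 3) * X 0 - C (z 1)) -
          (3 * X 1 ^ 2 - C (z 2) * X 1 - C (z 0))) -
        3 * ((X 0 ^ 3 - C (t 3) * X 0 - C (t 1)) - (X 1 ^ 3 - C (t 2) * X 1 - C (t 0)))) ^ 2 +
      (X 0 + X 1 + 3) * ((X 0 + X 1) * ((3 * X 0 ^ 2 - C (z 3) * X 0 - C (z 1)) -
          (3 * X 1 ^ 2 - C (z 2) * X 1 - C (z 0))) -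
        3 * ((X 0 ^ 3 - C (t 3) * X 0 - C (t 1)) -
          (X 1 ^ 3 - C (t 2) * X 1 - C (t 0)))) * ((3 * X 0 ^ 2 - C (z 3) * X 0 - C (z 1)) -
          (3 * X 1 ^ 2 - C (z 2) * X 1 - C (z 0))) +
      (X 0 ^ 2 + X 1 ^ 2 - X 0 * X 1) * ((3 * X 0 ^ 2 - C (z 3) * X 0 - C (z 1)) -
          (3 * X 1 ^ 2 - C (z 2) * X 1 - C (z 0))) ^ 2 : PP) ≠ 0 := by
  intro h0
  have e : ∀ a : ℂ, (a * ((3 * a ^ 2 - z 3 * a - z 1) + z 0) -
        3 * ((a ^ 3 - t 3 * a - t 1) + t 0)) ^ 2 +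
      (a + 3) * (a * ((3 * a ^ 2 - z 3 * a - z 1) + z 0) -
        3 * ((a ^ 3 - t 3 * a - t 1) + t 0)) * ((3 * a ^ 2 - z 3 * a - z 1) + z 0) +
      a ^ 2 * ((3 * a ^ 2 - z 3 * a - z 1) + z 0) ^ 2 = 0 := by
    intro a
    have h1 := congrArg (eval (![a, 0] : Fin 2 → ℂ)) h0
    simp only [map_sub, map_add, map_mul, map_pow, eval_X, eval_C, map_zero, map_ofNat,
      Matrix.cons_val_zero, Matrix.cons_val_one] at h1
    linear_combination h1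
  have h5 : (6480 : ℂ) = 0 := by
    linear_combination e 6 - 6 * e 5 + 15 * e 4 - 20 * e 3 + 15 * e 2 - 6 * e 1 + e 0
  norm_num at h5

/-- the fields of the second family exist -/
theorem three (z t : Fin 4 → ℂ) :
    ∃ (K : Type) (_ : Field K) (_ : Algebra ℂ K) (s u v w : K), Algebra.trdeg ℂ K = 2 ∧
      IntermediateField.adjoin ℂ {s, u, v, w} = ⊤ ∧ w ≠ -1 ∧
      (1 + w) * (w * (3 * v ^ 2 - algebraMap ℂ K (z 2) * v - algebraMap ℂ K (z 0)) +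
          (3 * u ^ 2 - algebraMap ℂ K (z 3) * u - algebraMap ℂ K (z 1))) =
        3 * w * (s ^ 2 + u ^ 2 + v ^ 2 + s * u + s * v - u * v + 3 * s) ∧
      (1 + w) * (w * (v ^ 3 - algebraMap ℂ K (t 2) * v - algebraMap ℂ K (t 0)) +
          (u ^ 3 - algebraMap ℂ K (t 3) * u - algebraMap ℂ K (t 1))) =
        w * (u + v - s) * (s ^ 2 + u ^ 2 + v ^ 2 + s * u + s * v - u * v + 3 * s) := by
  have hc : ∀ c : ℂ, algebraMap ℂ OO c = em (C c) := fun c => (em.commutes c).symm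
  obtain ⟨Z, hZ⟩ : ∃ P : Fin 4 → OO, ∀ i, P i = algebraMap ℂ OO (z i) := ⟨_, fun _ => rfl⟩
  obtain ⟨T, hT⟩ : ∃ P : Fin 4 → OO, ∀ i, P i = algebraMap ℂ OO (t i) := ⟨_, fun _ => rfl⟩
  obtain ⟨u, hu⟩ : ∃ y : OO, y = em (X 0) := ⟨_, rfl⟩
  obtain ⟨v, hv⟩ : ∃ k : OO, k = em (X 1) := ⟨_, rfl⟩
  have h1 := em_ne (a_ne 1 (z 2) (z 0))
  have h2 := em_ne (a_ne 0 (z 3) (z 1))
  have h3 := em_ne (ab_ne z t)
  have h4 := em_ne (F_ne z t)
  simp only [map_add, map_sub, map_mul, map_pow, map_ofNat, ← hc, ← hZ, ← hT, ← hu,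
    ← hv] at h1 h2 h3 h4
  obtain ⟨w, s, hw1, e1, e2⟩ := exists_sol3 u v _ _ _ _ h1 h2 h3 h4
  obtain ⟨K, _, _, ι, s', u', v', w', hs', hu', hv', hw', htop⟩ := top_four s u v w
  have hι : ∀ c : ℂ, ι (algebraMap ℂ K c) = algebraMap ℂ OO c := fun c => ι.commutes c
  have hinj : ∀ a b : K, ι a = ι b → a = b := fun a b h => ι.toRingHom.injective h
  refine ⟨K, inferInstance, inferInstance, s', u', v', w', ?_, htop, ?_, ?_, ?_⟩
  · have h1 := indep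
    rw [← hu, ← hv, ← hu', ← hv'] at h1
    have e : (ι ∘ ![u', v']) = ![ι u', ι v'] := by
      funext i
      fin_cases i <;> rfl
    rw [← e] at h1
    exact trdeg_of ι u' v' (h1.of_comp ι)
  · intro h5
    apply hw1
    rw [← hw', h5, map_neg, map_one]
  · apply hinj
    simp only [map_add, map_sub, map_mul, map_pow, map_ofNat, map_one, hι, hu', hv', hw', hs',
      ← hZ]
    exact e1
  · apply hinj
    simp only [map_add, map_sub, map_mul, map_pow, map_ofNat, map_one, hι, hu', hv', hw', hs',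
      ← hT]
    exact e2

end Vale.Agent.P297.H160.Ex
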