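import Vale.Agent.P297.H160.ExBase

/-!
The fields of the first family exist.
-/

open MvPolynomial

namespace Vale.Agent.P297.H160.Ex

section alg

variable {Ω : Type} [Field Ω]

theorem quartic_root [IsAlgClosed Ω] (c4 c3 c2 c1 c0 : Ω) (h : c4 ≠ 0) :
    ∃ x : Ω, c4 * x ^ 4 + c3 * x ^ 3 + c2 * x ^ 2 + c1 * x + c0 = 0 := by
  have hd : (Polynomial.C c4 * Polynomial.X ^ 4 + Polynomial.C c3 * Polynomial.X ^ 3 +
      Polynomial.C c2 * Polynomial.X ^ 2 + Polynomial.C c1 * Polynomial.X +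
      Polynomial.C c0 : Polynomial Ω).degree = 4 := by
    compute_degree!
  obtain ⟨x, hx⟩ := IsAlgClosed.exists_root _ (by rw [hd]; decide : (Polynomial.C c4 *
      Polynomial.X ^ 4 + Polynomial.C c3 * Polynomial.X ^ 3 +
      Polynomial.C c2 * Polynomial.X ^ 2 + Polynomial.C c1 * Polynomial.X +
      Polynomial.C c0 : Polynomial Ω).degree ≠ 0)
  refine ⟨x, ?_⟩
  simpa [Polynomial.IsRoot.def] using hx

/-- the linear equations for `s` and `t` -/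
theorem solve_st (x k U V A B G M L : Ω) (hx : x ≠ 0)
    (hD : x * (k ^ 2 - k) + U ^ 2 - k * V ^ 2 ≠ 0)
    (hq : (k * (G * x + (x + V ^ 2) * (M - x * ((1 + A + B) * k - B * k ^ 2 - A))) +
          (M - x * ((1 + A + B) * k - B * k ^ 2 - A)) *
            (x * (k ^ 2 - k) + U ^ 2 - k * V ^ 2) +
          2 * A * k * x * (x * (k ^ 2 - k) + U ^ 2 - k * V ^ 2)) *
        (G * x + (x + V ^ 2) * (M - x * ((1 + A + B) * k - B * k ^ 2 - A)) -
          2 * B * x * (x * (k ^ 2 - k) + U ^ 2 - k * V ^ 2)) +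
        (A + B * k) ^ 2 * x ^ 2 * (x * (k ^ 2 - k) + U ^ 2 - k * V ^ 2) ^ 2 =
      L * x * (x * (k ^ 2 - k) + U ^ 2 - k * V ^ 2) ^ 2) :
    ∃ s t : Ω, x * (k ^ 2 * t - s) + U ^ 2 * t - V ^ 2 * s = G ∧
      x * (s - k * t + (1 + A + B) * k - B * k ^ 2 - A) = M ∧
      x * ((s + 2 * A * k) * (t - 2 * B) + (A + B * k) ^ 2) = L := by
  generalize hN : (1 + A + B) * k - B * k ^ 2 - A = N at *
  generalize hE : x * (k ^ 2 - k) + U ^ 2 - k * V ^ 2 = D at *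
  generalize hT : G * x + (x + V ^ 2) * (M - x * N) = T at *
  refine ⟨(k * T + (M - x * N) * D) / (x * D), T / (x * D), ?_, ?_, ?_⟩
  · field_simp
    rw [← hT, ← hE]
    ring
  · have h1 : (k * T + (M - x * N) * D) / (x * D) - k * (T / (x * D)) = M / x - N := by
      field_simp
      ring
    have h2 : x * ((k * T + (M - x * N) * D) / (x * D) - k * (T / (x * D)) +
        (1 + A + B) * k - B * k ^ 2 - A) =
      x * (((k * T + (M - x * N) * D) / (x * D) - k * (T / (x * D))) + N) := by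
      rw [← hN]
      ring
    rw [h2, h1]
    field_simp
    ring
  · field_simp
    linear_combination hq

theorem exists_sol [IsAlgClosed Ω] (k U V A B G M L : Ω) (hk : k ≠ 0) (hU : U ≠ 0)
    (hV : V ≠ 0) (hM : M ≠ 0)
    (hZ : -G * (U ^ 2 - k * V ^ 2) * (k ^ 2 - k) + (k ^ 2 * V ^ 2 - U ^ 2) *
      (M * (k ^ 2 - k) + (U ^ 2 - k * V ^ 2) * ((1 + A + B) * k - B * k ^ 2 - A)) ≠ 0) :
    ∃ x s t : Ω, x * (k ^ 2 * t - s) + U ^ 2 * t - V ^ 2 * s = G ∧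
      x * (s - k * t + (1 + A + B) * k - B * k ^ 2 - A) = M ∧
      x * ((s + 2 * A * k) * (t - 2 * B) + (A + B * k) ^ 2) = L := by
  obtain ⟨N, hN⟩ : ∃ N, N = (1 + A + B) * k - B * k ^ 2 - A := ⟨_, rfl⟩
  obtain ⟨d1, hd1⟩ : ∃ d, d = k ^ 2 - k := ⟨_, rfl⟩
  obtain ⟨d0, hd0⟩ : ∃ d, d = U ^ 2 - k * V ^ 2 := ⟨_, rfl⟩
  obtain ⟨α2, h2⟩ : ∃ a, a = k * (-N) - N * d1 + 2 * A * k * d1 := ⟨_, rfl⟩
  obtain ⟨α1, h1⟩ : ∃ a, a = k * (G + M - V ^ 2 * N) + M * d1 - N * d0 + 2 * A * k * d0 :=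
    ⟨_, rfl⟩
  obtain ⟨α0, h0⟩ : ∃ a, a = k * (V ^ 2 * M) + M * d0 := ⟨_, rfl⟩
  obtain ⟨β2, g2⟩ : ∃ a, a = -N - 2 * B * d1 := ⟨_, rfl⟩
  obtain ⟨β1, g1⟩ : ∃ a, a = G + M - V ^ 2 * N - 2 * B * d0 := ⟨_, rfl⟩
  obtain ⟨β0, g0⟩ : ∃ a, a = V ^ 2 * M := ⟨_, rfl⟩
  obtain ⟨w, hw⟩ : ∃ a, a = A + B * k := ⟨_, rfl⟩
  have hc4 : α2 * β2 + w ^ 2 * d1 ^ 2 = k ^ 4 := by
    rw [h2, g2, hw, hd1, hN]
    ring
  obtain ⟨x, hx⟩ := quartic_root (α2 * β2 + w ^ 2 * d1 ^ 2)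
    (α2 * β1 + α1 * β2 + 2 * w ^ 2 * d1 * d0 - L * d1 ^ 2)
    (α2 * β0 + α1 * β1 + α0 * β2 + w ^ 2 * d0 ^ 2 - 2 * L * d1 * d0)
    (α1 * β0 + α0 * β1 - L * d0 ^ 2) (α0 * β0) (by rw [hc4]; exact pow_ne_zero _ hk)
  have hq : (k * (G * x + (x + V ^ 2) * (M - x * N)) +
          (M - x * N) * (x * (k ^ 2 - k) + U ^ 2 - k * V ^ 2) +
          2 * A * k * x * (x * (k ^ 2 - k) + U ^ 2 - k * V ^ 2)) *
        (G * x + (x + V ^ 2) * (M - x * N) -
          2 * B * x * (x * (k ^ 2 - k) + U ^ 2 - k * V ^ 2)) +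
        (A + B * k) ^ 2 * x ^ 2 * (x * (k ^ 2 - k) + U ^ 2 - k * V ^ 2) ^ 2 =
      L * x * (x * (k ^ 2 - k) + U ^ 2 - k * V ^ 2) ^ 2 := by
    have e1 : k * (G * x + (x + V ^ 2) * (M - x * N)) +
          (M - x * N) * (x * (k ^ 2 - k) + U ^ 2 - k * V ^ 2) +
          2 * A * k * x * (x * (k ^ 2 - k) + U ^ 2 - k * V ^ 2) =
        α2 * x ^ 2 + α1 * x + α0 := by
      rw [h2, h1, h0, hd1, hd0]
      ring
    have e2 : G * x + (x + V ^ 2) * (M - x * N) -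
          2 * B * x * (x * (k ^ 2 - k) + U ^ 2 - k * V ^ 2) = β2 * x ^ 2 + β1 * x + β0 := by
      rw [g2, g1, g0, hd1, hd0]
      ring
    have e3 : x * (k ^ 2 - k) + U ^ 2 - k * V ^ 2 = d1 * x + d0 := by
      rw [hd1, hd0]
      ring
    rw [e1, e2, e3, ← hw]
    linear_combination hx
  have hx0 : x ≠ 0 := by
    rintro rfl
    have h3 : α0 * β0 = 0 := by linear_combination hx
    have h4 : α0 = U ^ 2 * M := by
      rw [h0, hd0]
      ring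
    rw [h4, g0] at h3
    exact mul_ne_zero (mul_ne_zero (pow_ne_zero _ hU) hM) (mul_ne_zero (pow_ne_zero _ hV) hM) h3
  have hD : x * (k ^ 2 - k) + U ^ 2 - k * V ^ 2 ≠ 0 := by
    intro h
    rw [h] at hq
    have h5 : k * (G * x + (x + V ^ 2) * (M - x * N)) ^ 2 = 0 := by linear_combination hq
    have h6 : G * x + (x + V ^ 2) * (M - x * N) = 0 := by
      rcases mul_eq_zero.1 h5 with h7 | h7
      · exact absurd h7 hk
      · exact pow_eq_zero_iff (two_ne_zero) |>.1 h7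
    apply hZ
    rw [← hN]
    have h8 : x * (k ^ 2 - k) = -(U ^ 2 - k * V ^ 2) := by linear_combination h
    have h9 : (k ^ 2 - k) ^ 2 * (G * x + (x + V ^ 2) * (M - x * N)) =
        G * (x * (k ^ 2 - k)) * (k ^ 2 - k) +
        (x * (k ^ 2 - k) + V ^ 2 * (k ^ 2 - k)) * (M * (k ^ 2 - k) - x * (k ^ 2 - k) * N) := by
      ring
    rw [h6, mul_zero, h8] at h9
    linear_combination -h9
  rw [hN] at hq
  obtain ⟨s, t, h7, h8, h9⟩ := solve_st x k U V A B G M L hx0 hD hq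
  exact ⟨x, s, t, h7, h8, h9⟩

end alg

theorem X_add_C_ne (c : ℂ) : (X 0 + C c : PP) ≠ 0 := by
  intro h
  have h1 := congrArg (eval (fun _ : Fin 2 => 1 - c)) h
  simp at h1

theorem M_ne (p : Fin 9 → ℂ) : ((X 0 + C (p 5)) * (X 0 + C (p 6)) *
      (C (p 8) - X 0 ^ 2 + C (p 1) * X 0) + C (p 2) * (X 0 + C (p 5)) ^ 3 +
      C (p 0) * (X 0 + C (p 6)) ^ 3 : PP) ≠ 0 := by
  intro h
  have h0 := congrArg (eval (fun _ : Fin 2 => (0 : ℂ))) h
  have h1 := congrArg (eval (fun _ : Fin 2 => (1 : ℂ))) h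
  have h2 := congrArg (eval (fun _ : Fin 2 => (2 : ℂ))) h
  have h3 := congrArg (eval (fun _ : Fin 2 => (3 : ℂ))) h
  have h4 := congrArg (eval (fun _ : Fin 2 => (4 : ℂ))) h
  simp only [map_add, map_sub, map_mul, map_pow, eval_X, eval_C, map_zero] at h0 h1 h2 h3 h4
  have h5 : (24 : ℂ) = 0 := by
    linear_combination -h0 + 4 * h1 - 6 * h2 + 4 * h3 - h4
  norm_num at h5

theorem Z_ne (p : Fin 9 → ℂ) (hp : p 0 ≠ 0) :
    (-((2 * X 0 + C (p 3)) * (X 0 + C (p 5)) + (2 * X 0 + C (p 4)) * X 1 * (X 0 + C (p 6))) *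
        ((X 0 + C (p 5)) ^ 2 - X 1 * (X 0 + C (p 6)) ^ 2) * (X 1 ^ 2 - X 1) *
        ((X 0 + C (p 5)) * (X 0 + C (p 6))) +
      (X 1 ^ 2 * (X 0 + C (p 6)) ^ 2 - (X 0 + C (p 5)) ^ 2) *
      (((X 0 + C (p 5)) * (X 0 + C (p 6)) *
      (C (p 8) - X 0 ^ 2 + C (p 1) * X 0) + C (p 2) * (X 0 + C (p 5)) ^ 3 +
      C (p 0) * (X 0 + C (p 6)) ^ 3) * (X 1 ^ 2 - X 1) +
        ((X 0 + C (p 5)) ^ 2 - X 1 * (X 0 + C (p 6)) ^ 2) *
        (((X 0 + C (p 5)) * (X 0 + C (p 6)) + C (p 0) * (X 0 + C (p 6)) +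
          C (p 2) * (X 0 + C (p 5))) * X 1 - C (p 2) * (X 0 + C (p 5)) * X 1 ^ 2 -
          C (p 0) * (X 0 + C (p 6)))) : PP) ≠ 0 := by
  intro h
  have h1 := congrArg (aeval (![X 0, 0] : Fin 2 → PP)) h
  simp only [map_add, map_sub, map_mul, map_pow, map_neg, aeval_X, aeval_C, map_zero,
    Matrix.cons_val_zero, Matrix.cons_val_one, map_ofNat, algebraMap_eq] at h1
  have h2 : (C (p 0) * (X 0 + C (p 5)) ^ 4 * (X 0 + C (p 6)) : PP) = 0 := by
    linear_combination h1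
  have h3 : (C (p 0) : PP) ≠ 0 := by
    intro h4
    exact hp (C_injective _ _ (h4.trans (map_zero C).symm))
  exact mul_ne_zero (mul_ne_zero h3 (pow_ne_zero _ (X_add_C_ne _))) (X_add_C_ne _) h2

/-- the fields of the first family exist -/
theorem two (p : Fin 9 → ℂ) (h : p 0 ≠ 0) :
    ∃ (K : Type) (_ : Field K) (_ : Algebra ℂ K) (x k y s t : K),
      AlgebraicIndependent ℂ ![y, k] ∧ IntermediateField.adjoin ℂ {x, k, y, s, t} = ⊤ ∧
      x * (k ^ 2 * t - s) + (y + algebraMap ℂ K (p 5)) ^ 2 * t -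
          (y + algebraMap ℂ K (p 6)) ^ 2 * s =
        (2 * y + algebraMap ℂ K (p 3)) * (y + algebraMap ℂ K (p 5)) +
          (2 * y + algebraMap ℂ K (p 4)) * k * (y + algebraMap ℂ K (p 6)) ∧
      x * (s - k * t + (1 + algebraMap ℂ K (p 0) / (y + algebraMap ℂ K (p 5)) +
          algebraMap ℂ K (p 2) / (y + algebraMap ℂ K (p 6))) * k -
          algebraMap ℂ K (p 2) / (y + algebraMap ℂ K (p 6)) * k ^ 2 -
          algebraMap ℂ K (p 0) / (y + algebraMap ℂ K (p 5))) =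
        algebraMap ℂ K (p 8) - y ^ 2 + algebraMap ℂ K (p 1) * y +
          algebraMap ℂ K (p 2) / (y + algebraMap ℂ K (p 6)) * (y + algebraMap ℂ K (p 5)) ^ 2 +
          algebraMap ℂ K (p 0) / (y + algebraMap ℂ K (p 5)) *
            (y + algebraMap ℂ K (p 6)) ^ 2 ∧
      x * ((s + 2 * (algebraMap ℂ K (p 0) / (y + algebraMap ℂ K (p 5))) * k) *
          (t - 2 * (algebraMap ℂ K (p 2) / (y + algebraMap ℂ K (p 6)))) +
          (algebraMap ℂ K (p 0) / (y + algebraMap ℂ K (p 5)) +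
            algebraMap ℂ K (p 2) / (y + algebraMap ℂ K (p 6)) * k) ^ 2) =
        algebraMap ℂ K (p 7) - y ^ 2 + algebraMap ℂ K (p 0) / (y + algebraMap ℂ K (p 5)) *
            (2 * y + algebraMap ℂ K (p 4)) * (y + algebraMap ℂ K (p 6)) +
          algebraMap ℂ K (p 2) / (y + algebraMap ℂ K (p 6)) *
            (2 * y + algebraMap ℂ K (p 3)) * (y + algebraMap ℂ K (p 5)) -
          (algebraMap ℂ K (p 0) / (y + algebraMap ℂ K (p 5)) * (y + algebraMap ℂ K (p 6)) +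
            algebraMap ℂ K (p 2) / (y + algebraMap ℂ K (p 6)) *
              (y + algebraMap ℂ K (p 5))) ^ 2 := by
  have hc : ∀ c : ℂ, algebraMap ℂ OO c = em (C c) := fun c => (em.commutes c).symm
  obtain ⟨P, hP⟩ : ∃ P : Fin 9 → OO, ∀ i, P i = algebraMap ℂ OO (p i) := ⟨_, fun _ => rfl⟩
  obtain ⟨y, hy⟩ : ∃ y : OO, y = em (X 0) := ⟨_, rfl⟩
  obtain ⟨k, hk⟩ : ∃ k : OO, k = em (X 1) := ⟨_, rfl⟩
  have hU : y + P 5 ≠ 0 := by
    have h1 := em_ne (X_add_C_ne (p 5))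
    rw [map_add] at h1
    rwa [hy, hP, hc]
  have hV : y + P 6 ≠ 0 := by
    have h1 := em_ne (X_add_C_ne (p 6))
    rw [map_add] at h1
    rwa [hy, hP, hc]
  have hk0 : k ≠ 0 := by
    rw [hk]
    exact em_ne (X_ne_zero 1)
  have hM := em_ne (M_ne p)
  have hZ := em_ne (Z_ne p h)
  simp only [map_add, map_sub, map_mul, map_pow, map_neg, map_ofNat, ← hc, ← hP, ← hy,
    ← hk] at hM hZ
  obtain ⟨A, hA⟩ : ∃ A, A = P 0 / (y + P 5) := ⟨_, rfl⟩
  obtain ⟨B, hB⟩ : ∃ B, B = P 2 / (y + P 6) := ⟨_, rfl⟩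
  have hA' : P 0 = A * (y + P 5) := by rw [hA, div_mul_cancel₀ _ hU]
  have hB' : P 2 = B * (y + P 6) := by rw [hB, div_mul_cancel₀ _ hV]
  rw [hA', hB'] at hM hZ
  obtain ⟨x, s, t, e1, e2, e3⟩ := exists_sol k (y + P 5) (y + P 6) A B
    ((2 * y + P 3) * (y + P 5) + (2 * y + P 4) * k * (y + P 6))
    (P 8 - y ^ 2 + P 1 * y + B * (y + P 5) ^ 2 + A * (y + P 6) ^ 2)
    (P 7 - y ^ 2 + A * (2 * y + P 4) * (y + P 6) + B * (2 * y + P 3) * (y + P 5) -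
      (A * (y + P 6) + B * (y + P 5)) ^ 2) hk0 hU hV
    (fun h1 => hM (by linear_combination ((y + P 5) * (y + P 6)) * h1))
    (fun h1 => hZ (by linear_combination ((y + P 5) * (y + P 6)) * h1))
  rw [hA, hB] at e2 e3
  obtain ⟨K, _, _, ι, x', k', y', s', t', hx', hk', hy', hs', ht', htop⟩ := top_five x k y s t
  have hι : ∀ c : ℂ, ι (algebraMap ℂ K c) = algebraMap ℂ OO c := fun c => ι.commutes c
  have hinj : ∀ a b : K, ι a = ι b → a = b := fun a b h => ι.toRingHom.injective h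
  refine ⟨K, inferInstance, inferInstance, x', k', y', s', t', ?_, htop, ?_, ?_, ?_⟩
  · have h1 := indep
    rw [← hy, ← hk, ← hy', ← hk'] at h1
    have e : (ι ∘ ![y', k']) = ![ι y', ι k'] := by
      funext i
      fin_cases i <;> rfl
    rw [← e] at h1
    exact h1.of_comp ι
  · apply hinj
    simp only [map_add, map_sub, map_mul, map_pow, map_ofNat, hι, hx', hk',
      hy', hs', ht', ← hP]
    exact e1
  · apply hinj
    simp only [map_add, map_sub, map_mul, map_pow, map_div₀, map_one, hι, hx', hk',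
      hy', hs', ht', ← hP]
    exact e2
  · apply hinj
    simp only [map_add, map_sub, map_mul, map_pow, map_ofNat, map_div₀, hι, hx', hk',
      hy', hs', ht', ← hP]
    exact e3

end Vale.Agent.P297.H160.Ex
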