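import Vale.Agent.P297.H160.TsenN
import Vale.Agent.P297.H212.Tower

/-!
Classes of places that agree on the fibres of a map of curves come from the base.
-/

set_option linter.unusedSectionVars false
set_option linter.style.haveILetI false

open IntermediateField Polynomial

namespace Vale.Agent.P297.H160

open Vale.Agent.P297 Vale.Agent.P297.H572.Half Vale.Agent.P297.H124

section

variable {E : Type} [Field E] [Algebra ℂ E] [IsFF ℂ E]

theorem hom_eq_sum {Q : Type} [AddCommGroup Q] (A : (PlaceOver ℂ E →₀ ℤ) →+ Q)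
    (z : PlaceOver ℂ E →₀ ℤ) : A z = z.sum fun w n => n • A (Finsupp.single w 1) := by
  conv_lhs => rw [← Finsupp.sum_single z]
  rw [Finsupp.sum, map_sum, Finsupp.sum]
  refine Finset.sum_congr rfl fun w _ => ?_
  rw [← map_zsmul, Finsupp.smul_single, smul_eq_mul, mul_one]

/-- A homomorphism that kills the principal divisors and almost all places is zero. -/
theorem kills_of_good {Q : Type} [AddCommGroup Q] (A : (PlaceOver ℂ E →₀ ℤ) →+ Q)
    (hdiv : ∀ F : E, A (div ℂ F) = 0) (T : Finset (PlaceOver ℂ E))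
    (hT : ∀ w, w ∉ T → A (Finsupp.single w 1) = 0) (w : PlaceOver ℂ E) :
    A (Finsupp.single w 1) = 0 := by
  classical
  by_cases hw : w ∈ T
  · obtain ⟨u, hu0, hu1, huT⟩ := exists_ord_one (T.erase w) w (Finset.notMem_erase _ _)
    have h1 := hdiv u
    rw [hom_eq_sum, Finsupp.sum, Finset.sum_eq_single w] at h1
    · rw [div_apply, hu1, one_smul] at h1
      exact h1
    · intro x _ hxw
      by_cases hx : x ∈ T
      · rw [div_apply, huT x (Finset.mem_erase.2 ⟨hxw, hx⟩), zero_smul]
      · rw [hT x hx, smul_zero]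
    · intro h2
      rw [Finsupp.notMem_support_iff.1 h2, zero_smul]
  · exact hT w hw

end

section

variable {K E : Type} [Field K] [Field E]
  [Algebra ℂ K] [Algebra ℂ E] [Algebra K E] [IsScalarTower ℂ K E] [IsFF ℂ K] [IsFF ℂ E]
  [FiniteDimensional K E]

variable (τ : E ≃ₐ[K] E)

/-- The conjugate place: `x` is regular iff `τ x` is. -/
noncomputable def cpl (w : PlaceOver ℂ E) : PlaceOver ℂ E :=
  (H212.exists_conj_place (K := K) τ w).choose

theorem cpl_ring (w : PlaceOver ℂ E) (x : E) : x ∈ (cpl τ w).1.ring ↔ τ x ∈ w.1.ring :=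
  (H212.exists_conj_place (K := K) τ w).choose_spec.1 x

theorem cpl_restrict (w : PlaceOver ℂ E) : restrictPlace K (cpl τ w) = restrictPlace K w :=
  (H212.exists_conj_place (K := K) τ w).choose_spec.2

theorem place_ext {w w' : PlaceOver ℂ E} (h : ∀ x, x ∈ w.1.ring ↔ x ∈ w'.1.ring) : w = w' := by
  apply Subtype.ext
  apply Place.ext'
  apply SetLike.ext
  exact h

theorem cpl_cpl_symm (w : PlaceOver ℂ E) : cpl τ (cpl τ.symm w) = w := by
  apply place_ext
  intro x
  rw [cpl_ring, cpl_ring, AlgEquiv.symm_apply_apply]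

theorem cpl_symm_cpl (w : PlaceOver ℂ E) : cpl τ.symm (cpl τ w) = w := by
  apply place_ext
  intro x
  rw [cpl_ring, cpl_ring, AlgEquiv.apply_symm_apply]

theorem cpl_one (w : PlaceOver ℂ E) : cpl (1 : E ≃ₐ[K] E) w = w := by
  apply place_ext
  intro x
  rw [cpl_ring]
  rfl

theorem cpl_ord (w : PlaceOver ℂ E) (x : E) : (cpl τ w).1.ord x = w.1.ord (τ x) := by
  -- a multiple
  have key : ∀ (σ : E ≃ₐ[K] E) (w : PlaceOver ℂ E), ∃ e : ℤ, 0 ≤ e ∧
      ∀ x : E, x ≠ 0 → w.1.ord (σ x) = e * (cpl σ w).1.ord x := by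
    intro σ w
    have hne : ∀ {y : E}, y ≠ 0 → σ y ≠ 0 := fun h => (map_ne_zero_iff σ σ.injective).2 h
    have hzero : ∀ y : E, y ≠ 0 → (cpl σ w).1.ord y = 0 → w.1.ord (σ y) = 0 := by
      intro y hy h
      rw [Place.ord_eq_zero_iff _ hy, cpl_ring, cpl_ring, map_inv₀] at h
      exact (Place.ord_eq_zero_iff _ (hne hy)).2 h
    obtain ⟨π, hπ0, hπ⟩ := (cpl σ w).1.exists_ord_eq_one
    refine ⟨w.1.ord (σ π), ?_, ?_⟩
    · apply Place.ord_nonneg_of_mem
      rw [← cpl_ring]
      exact ((cpl σ w).1.ord_nonneg_iff hπ0).1 (by rw [hπ]; norm_num)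
    · have hnat : ∀ (y : E), y ≠ 0 → 0 ≤ (cpl σ w).1.ord y →
          w.1.ord (σ y) = w.1.ord (σ π) * (cpl σ w).1.ord y := by
        intro y hy hy0
        obtain ⟨n, hn⟩ := Int.eq_ofNat_of_zero_le hy0
        have h1 : (cpl σ w).1.ord (y / π ^ n) = 0 := by
          rw [Place.ord_div _ hy (pow_ne_zero n hπ0), Place.ord_pow, hπ, hn]
          simp
        have h2 := hzero _ (div_ne_zero hy (pow_ne_zero n hπ0)) h1
        rw [map_div₀, Place.ord_div _ (hne hy) (hne (pow_ne_zero n hπ0)), map_pow,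
          Place.ord_pow] at h2
        rw [hn]
        have h3 : w.1.ord (σ y) = (n : ℤ) * w.1.ord (σ π) := by omega
        rw [h3]
        exact mul_comm _ _
      intro y hy
      by_cases hy0 : 0 ≤ (cpl σ w).1.ord y
      · exact hnat y hy hy0
      · have h1 := hnat y⁻¹ (inv_ne_zero hy) (by rw [Place.ord_inv]; omega)
        rw [map_inv₀, Place.ord_inv, Place.ord_inv] at h1
        linarith
  by_cases hx : x = 0
  · rw [hx, map_zero, Place.ord_zero, Place.ord_zero]
  obtain ⟨e, he0, he⟩ := key τ w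
  obtain ⟨y, hy0, hy⟩ := w.1.exists_ord_eq_one
  have h1 := he (τ.symm y) ((map_ne_zero_iff τ.symm τ.symm.injective).2 hy0)
  rw [AlgEquiv.apply_symm_apply, hy] at h1
  have h2 : e = 1 := Int.eq_one_of_dvd_one he0 ⟨_, h1⟩
  rw [he x hx, h2, one_mul]

/-- The action on divisors. -/
theorem mapDomain_cpl (u : E) :
    Finsupp.mapDomain (cpl τ) (div ℂ u) = div ℂ (τ.symm u) := by
  ext w
  have h1 : w = cpl τ (cpl τ.symm w) := (cpl_cpl_symm τ w).symm
  have hinj : Function.Injective (cpl τ) := by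
    intro a b hab
    rw [← cpl_symm_cpl τ a, hab, cpl_symm_cpl]
  conv_lhs => rw [h1]
  rw [Finsupp.mapDomain_apply hinj, div_apply, div_apply, cpl_ord]

/-- The Galois group acts transitively on the places over a place. -/
theorem exists_cpl_eq [IsGalois K E] {w w' : PlaceOver ℂ E}
    (h : restrictPlace K w' = restrictPlace K w) : ∃ τ : E ≃ₐ[K] E, cpl τ w = w' := by
  classical
  by_contra hcon
  push Not at hcon
  have hfin : {x : PlaceOver ℂ E | restrictPlace K x = restrictPlace K w}.Finite := finite_fibre _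
  obtain ⟨u, hu0, hu1, huT⟩ := exists_ord_one (hfin.toFinset.erase w') w' (Finset.notMem_erase _ _)
  have hτ0 : ∀ τ : E ≃ₐ[K] E, τ u ≠ 0 := fun τ => (map_ne_zero_iff τ τ.injective).2 hu0
  have hprod : ∀ (x : PlaceOver ℂ E) (s : Finset (E ≃ₐ[K] E)),
      x.1.ord (∏ τ ∈ s, τ u) = ∑ τ ∈ s, x.1.ord (τ u) := by
    intro x s
    induction s using Finset.induction_on with
    | empty => simp
    | insert a s ha ih =>
      rw [Finset.prod_insert ha, Finset.sum_insert ha,
        Place.ord_mul _ (hτ0 a) (Finset.prod_ne_zero_iff.2 fun τ _ => hτ0 τ), ih]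
  have hN : algebraMap K E (Algebra.norm K u) = ∏ τ : E ≃ₐ[K] E, τ u :=
    Algebra.norm_eq_prod_automorphisms K u
  have h0 : w.1.ord (algebraMap K E (Algebra.norm K u)) = 0 := by
    rw [hN, hprod]
    refine Finset.sum_eq_zero fun τ _ => ?_
    rw [← cpl_ord]
    apply huT
    rw [Finset.mem_erase, Set.Finite.mem_toFinset]
    exact ⟨hcon τ, cpl_restrict τ w⟩
  have h1 : 0 < w'.1.ord (algebraMap K E (Algebra.norm K u)) := by
    rw [hN, hprod]
    have h2 : ∀ τ : E ≃ₐ[K] E, 0 ≤ w'.1.ord (τ u) := by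
      intro τ
      rw [← cpl_ord]
      by_cases hτ : cpl τ w' = w'
      · rw [hτ, hu1]; norm_num
      · rw [huT]
        rw [Finset.mem_erase, Set.Finite.mem_toFinset]
        exact ⟨hτ, (cpl_restrict τ w').trans h⟩
    have h3 : w'.1.ord ((1 : E ≃ₐ[K] E) u) = 1 := hu1
    calc (0 : ℤ) < w'.1.ord ((1 : E ≃ₐ[K] E) u) := by rw [h3]; norm_num
      _ ≤ _ := Finset.single_le_sum (f := fun τ : E ≃ₐ[K] E => w'.1.ord (τ u))
        (fun τ _ => h2 τ) (Finset.mem_univ 1)
  rw [ord_algebraMap (K := K)] at h0 h1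
  have hr := ram_pos (K := K) w
  have hr' := ram_pos (K := K) w'
  rw [h] at h1
  rcases mul_eq_zero.1 h0 with h2 | h2
  · exact hr.ne' h2
  · rw [h2, mul_zero] at h1
    exact lt_irrefl _ h1

/-- Classes that agree on almost all fibres agree on all fibres. -/
theorem fibre_const [IsGalois K E] {Q : Type} [AddCommGroup Q]
    (A : (PlaceOver ℂ E →₀ ℤ) →+ Q) (hdiv : ∀ F : E, A (div ℂ F) = 0)
    (T : Finset (PlaceOver ℂ K))
    (hT : ∀ x x' : PlaceOver ℂ E, restrictPlace K x ∉ T →
      restrictPlace K x' = restrictPlace K x → A (Finsupp.single x' 1) = A (Finsupp.single x 1))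
    (x x' : PlaceOver ℂ E) (h : restrictPlace K x' = restrictPlace K x) :
    A (Finsupp.single x' 1) = A (Finsupp.single x 1) := by
  classical
  obtain ⟨τ, rfl⟩ := exists_cpl_eq h
  have hfin : {x : PlaceOver ℂ E | restrictPlace K x ∈ T}.Finite := by
    have h1 : {x : PlaceOver ℂ E | restrictPlace K x ∈ T} =
        ⋃ v ∈ T, {x | restrictPlace K x = v} := by
      ext x
      simp
    rw [h1]
    exact T.finite_toSet.biUnion fun v _ => finite_fibre v
  let B : (PlaceOver ℂ E →₀ ℤ) →+ Q :=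
    A.comp (Finsupp.mapDomain.addMonoidHom (cpl τ)) - A
  have hB : ∀ z, B z = A (Finsupp.mapDomain (cpl τ) z) - A z := fun z => rfl
  have h1 := kills_of_good B (fun F => by rw [hB, mapDomain_cpl, hdiv, hdiv, sub_zero])
    hfin.toFinset (fun w hw => by
      rw [Set.Finite.mem_toFinset] at hw
      rw [hB, Finsupp.mapDomain_single, sub_eq_zero]
      exact hT w _ hw (cpl_restrict τ w)) x
  rw [hB, Finsupp.mapDomain_single, sub_eq_zero] at h1
  exact h1

/-- **Classes that agree on the fibres come from the base.** -/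
theorem fibre_descent {Q : Type} [AddCommGroup Q]
    (A : (PlaceOver ℂ E →₀ ℤ) →+ Q) (hdiv : ∀ F : E, A (div ℂ F) = 0)
    (hfib : ∀ x x' : PlaceOver ℂ E, restrictPlace K x' = restrictPlace K x →
      A (Finsupp.single x' 1) = A (Finsupp.single x 1)) :
    ∃ B : (PlaceOver ℂ K →₀ ℤ) →+ Q, (∀ h : K, B (div ℂ h) = 0) ∧
      ∀ w : PlaceOver ℂ E, A (Finsupp.single w 1) = B (Finsupp.single (restrictPlace K w) 1) := by
  classical
  choose g hg using fun v : PlaceOver ℂ K => exists_over (E := E) v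
  let B : (PlaceOver ℂ K →₀ ℤ) →+ Q := A.comp (Finsupp.mapDomain.addMonoidHom g)
  have hBs : ∀ v n, B (Finsupp.single v n) = A (Finsupp.single (g v) n) := by
    intro v n
    change A (Finsupp.mapDomain g (Finsupp.single v n)) = _
    rw [Finsupp.mapDomain_single]
  have hAB : ∀ z : PlaceOver ℂ E →₀ ℤ, A z = B (Finsupp.mapDomain (restrictPlace K) z) := by
    intro z
    induction z using Finsupp.induction_linear with
    | zero => rw [Finsupp.mapDomain_zero, map_zero, map_zero]
    | add x y hx hy => rw [Finsupp.mapDomain_add, map_add, map_add, hx, hy]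
    | single x n =>
      rw [Finsupp.mapDomain_single, hBs]
      have h2 := hfib x (g (restrictPlace K x)) (hg _)
      have h3 : ∀ y : PlaceOver ℂ E, A (Finsupp.single y n) = n • A (Finsupp.single y 1) := by
        intro y
        rw [← map_zsmul, Finsupp.smul_single, smul_eq_mul, mul_one]
      rw [h3, h3, h2]
  refine ⟨B, fun h => ?_, fun w => ?_⟩
  · by_cases h0 : h = 0
    · have h2 : div ℂ h = 0 := by
        ext s
        rw [div_apply, h0, Place.ord_zero, Finsupp.coe_zero, Pi.zero_apply]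
      rw [h2, map_zero]
    obtain ⟨F, hF0, hF⟩ := norm_surj (E := E) h0
    rw [← hF, ← mapDomain_restrict hF0, ← hAB, hdiv]
  · rw [hAB, Finsupp.mapDomain_single]

/-- On the line, the classes of all places agree. -/
theorem line_const {t : K} (ht : Transcendental ℂ t) (htop : ℂ⟮t⟯ = ⊤) {Q : Type} [AddCommGroup Q]
    (B : (PlaceOver ℂ K →₀ ℤ) →+ Q) (hdiv : ∀ F : K, B (div ℂ F) = 0) (a b : ℂ)
    {v v' : PlaceOver ℂ K} (hv : 0 < v.1.ord (t - algebraMap ℂ K a))
    (hv' : 0 < v'.1.ord (t - algebraMap ℂ K b)) :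
    B (Finsupp.single v 1) = B (Finsupp.single v' 1) := by
  have h1 : Module.finrank ℂ⟮t⟯ K = 1 := by
    rw [htop]
    exact IntermediateField.finrank_top
  have h2 := div_frac_eq ht a b {v} {v'} (by simpa using hv) (by simpa using hv')
    (by rw [h1]; simp) (by rw [h1]; simp)
  rw [Finset.sum_singleton, Finset.sum_singleton] at h2
  have h3 := hdiv ((t - algebraMap ℂ K a) / (t - algebraMap ℂ K b))
  rw [h2, map_sub, sub_eq_zero] at h3
  exact h3

end

end Vale.Agent.P297.H160
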