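import Vale.Agent.P297.H160.FourIrr

/-!
The quartic for `p` as a product of two quadratic polynomials.
-/

set_option linter.unusedSectionVars false

namespace Vale.Agent.P297.H160

open Vale.Agent.P297

section

variable {F : Type} [Field F]

/-- `G = b₃ + b₄ w + X (a₁ / w + a₃ w + a₄)` -/
noncomputable def gG (m : Fin 11 → F) (w X : F) : F :=
  m 7 + m 8 * w + X * (m 0 / w + m 2 * w + m 3)

/-- `H = (B₀ + B₁ X + B₂ X²) / (l (4 - l))` -/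
noncomputable def gH (m : Fin 11 → F) (l X : F) : F :=
  (G4.fB0 m l + G4.fB1 m l * X + G4.fB2 m l * X ^ 2) / (l * (4 - l))

/-- `c₁` -/
noncomputable def c1 (m : Fin 11 → F) (θ₁ θ₂ : F) : F := θ₁ * (m 10 + m 9 * θ₂) / (θ₂ - θ₁)

/-- the discriminant of the quadratic equation for `u` -/
theorem disc_u (m : Fin 11 → F) {l w X : F} (hl : l ≠ 0) (hw : w ≠ 0) (hX : X ^ 2 = l * w)
    (h4 : 4 - l ≠ 0) :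
    G4.qv (G4.fc m l) X = (l * (4 - l)) ^ 2 * (gH m l X ^ 2 - 4 * gG m w X * (m 1 * X)) := by
  have h1 : (l * (4 - l)) ^ 2 * gH m l X ^ 2 =
      (G4.fB0 m l + G4.fB1 m l * X + G4.fB2 m l * X ^ 2) ^ 2 := by
    unfold gH
    field_simp
  have h2 : w * gG m w X = m 7 * w + m 8 * w ^ 2 + X * (m 0 + m 2 * w ^ 2 + m 3 * w) := by
    unfold gG
    field_simp
  have h3 : X ^ 2 * ((l * (4 - l)) ^ 2 * (gH m l X ^ 2 - 4 * gG m w X * (m 1 * X))) =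
      X ^ 2 * (G4.fB0 m l + G4.fB1 m l * X + G4.fB2 m l * X ^ 2) ^ 2 -
        4 * m 1 * X * l * (l * (4 - l)) ^ 2 *
        (m 7 * w + m 8 * w ^ 2 + X * (m 0 + m 2 * w ^ 2 + m 3 * w)) := by
    rw [← h1, ← h2]
    linear_combination (-4 * m 1 * X * (l * (4 - l)) ^ 2 * gG m w X) * hX
  have hX0 : X ^ 2 ≠ 0 := by rw [hX]; exact mul_ne_zero hl hw
  apply mul_left_cancel₀ hX0
  rw [h3]
  have hc0 : G4.fc m l 0 = G4.fB0 m l ^ 2 + G4.fE m l * (m 0 * l ^ 2) := rfl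
  have hc1 : G4.fc m l 1 = 2 * G4.fB0 m l * G4.fB1 m l + G4.fE m l * (m 7 * l) := rfl
  have hc2 : G4.fc m l 2 = G4.fB1 m l ^ 2 + 2 * G4.fB0 m l * G4.fB2 m l +
    G4.fE m l * (m 3 * l) := rfl
  have hc3 : G4.fc m l 3 = 2 * G4.fB1 m l * G4.fB2 m l + G4.fE m l * m 8 := rfl
  have hc4 : G4.fc m l 4 = G4.fB2 m l ^ 2 + G4.fE m l * m 2 := rfl
  unfold G4.qv
  rw [hc0, hc1, hc2, hc3, hc4]
  unfold G4.fE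
  generalize G4.fB0 m l = B0
  generalize G4.fB1 m l = B1
  generalize G4.fB2 m l = B2
  linear_combination (-4 * m 1 * (4 - l) ^ 2 * l * (m 7 * l * X + m 3 * l * X ^ 2 +
    m 8 * X * (X ^ 2 + l * w) + m 2 * X ^ 2 * (X ^ 2 + l * w))) * hX

/-- the equation for `u` -/
theorem eq_u (m : Fin 11 → F) {u θ₁ θ₂ : F} (hu : u ≠ 0) (h1 : θ₁ ≠ 0) (h2 : θ₂ ≠ 0)
    (h12 : θ₁ ≠ θ₂) (hX : θ₁ + θ₂ ≠ 0) :
    u * (G4.fe2 m u (θ₁ * θ₂) - (θ₁ + θ₂) * G4.fe1 m u (θ₁ * θ₂) - c1 m θ₁ θ₂ * c1 m θ₂ θ₁) =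
      gG m (θ₁ * θ₂) (-(θ₁ + θ₂)) * u ^ 2 +
        gH m ((θ₁ + θ₂) ^ 2 / (θ₁ * θ₂)) (-(θ₁ + θ₂)) * u + m 1 * (-(θ₁ + θ₂)) := by
  have h12' : θ₁ - θ₂ ≠ 0 := sub_ne_zero.2 h12
  have h21' : θ₂ - θ₁ ≠ 0 := sub_ne_zero.2 h12.symm
  have h4 : 4 - (θ₁ + θ₂) ^ 2 / (θ₁ * θ₂) = -(θ₁ - θ₂) ^ 2 / (θ₁ * θ₂) := by
    field_simp
    ring
  have hc : c1 m θ₁ θ₂ * c1 m θ₂ θ₁ =
      -(θ₁ * θ₂ * (m 10 + m 9 * θ₂) * (m 10 + m 9 * θ₁)) / (θ₁ - θ₂) ^ 2 := by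
    unfold c1
    rw [div_mul_div_comm, div_eq_div_iff (mul_ne_zero h21' h12') (pow_ne_zero 2 h12')]
    ring
  have hH : gH m ((θ₁ + θ₂) ^ 2 / (θ₁ * θ₂)) (-(θ₁ + θ₂)) = m 5 + m 6 * (θ₁ * θ₂) -
      m 4 * (θ₁ + θ₂) - c1 m θ₁ θ₂ * c1 m θ₂ θ₁ := by
    rw [hc]
    unfold gH G4.fB0 G4.fB1 G4.fB2
    rw [h4]
    field_simp
    ring
  rw [hH]
  generalize c1 m θ₁ θ₂ * c1 m θ₂ θ₁ = c
  unfold gG G4.fe1 G4.fe2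
  field_simp
  ring

theorem c1_rel (m : Fin 11 → F) {θ₁ θ₂ : F} (h12 : θ₁ ≠ θ₂) :
    c1 m θ₁ θ₂ + c1 m θ₂ θ₁ = -m 10 ∧ θ₁ * c1 m θ₂ θ₁ + θ₂ * c1 m θ₁ θ₂ = m 9 * (θ₁ * θ₂) := by
  have h12' : θ₁ - θ₂ ≠ 0 := sub_ne_zero.2 h12
  have h21' : θ₂ - θ₁ ≠ 0 := sub_ne_zero.2 h12.symm
  unfold c1
  constructor
  · rw [div_add_div _ _ h21' h12', div_eq_iff (mul_ne_zero h21' h12')]
    ring
  · rw [mul_div_assoc', mul_div_assoc', div_add_div _ _ h12' h21',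
      div_eq_iff (mul_ne_zero h12' h21')]
    ring

/-- **(A1)** -/
theorem pq_fac (m : Fin 11 → F) {u θ₁ θ₂ : F} (hu : u ≠ 0) (h1 : θ₁ ≠ 0) (h2 : θ₂ ≠ 0)
    (h12 : θ₁ ≠ θ₂) (hX : θ₁ + θ₂ ≠ 0)
    (hq : gG m (θ₁ * θ₂) (-(θ₁ + θ₂)) * u ^ 2 +
        gH m ((θ₁ + θ₂) ^ 2 / (θ₁ * θ₂)) (-(θ₁ + θ₂)) * u + m 1 * (-(θ₁ + θ₂)) = 0) (x : F) :
    pq m u (θ₁ * θ₂) x = (θ₁ * x ^ 2 + c1 m θ₁ θ₂ * x + G4.fe1 m u (θ₁ * θ₂)) *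
      (θ₂ * x ^ 2 + c1 m θ₂ θ₁ * x + G4.fe1 m u (θ₁ * θ₂)) := by
  obtain ⟨r1, r2⟩ := c1_rel m h12
  have r3 : G4.fe2 m u (θ₁ * θ₂) - (θ₁ + θ₂) * G4.fe1 m u (θ₁ * θ₂) -
      c1 m θ₁ θ₂ * c1 m θ₂ θ₁ = 0 := by
    have h3 := eq_u m hu h1 h2 h12 hX
    rw [hq] at h3
    exact (mul_eq_zero.1 h3).resolve_left hu
  unfold pq
  linear_combination (x ^ 2) * r3 - x ^ 3 * r2 - x * G4.fe1 m u (θ₁ * θ₂) * r1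

/-- **(A2)**: the relations from the roots -/
theorem rel_of_roots (m : Fin 11 → F) {u w p₀ p₁ p₂ p₃ : F} (hw : w ≠ 0)
    (he : G4.fe1 m u w ≠ 0) (h0 : p₀ ≠ 0) (h1 : p₁ ≠ 0) (h2 : p₂ ≠ 0) (h3 : p₃ ≠ 0)
    (hv1 : p₀ + p₁ + p₂ + p₃ = -m 9)
    (hv2 : w * (p₀ * p₁ + p₀ * p₂ + p₀ * p₃ + p₁ * p₂ + p₁ * p₃ + p₂ * p₃) = G4.fe2 m u w)
    (hv3 : w * (p₀ * p₁ * p₂ + p₀ * p₁ * p₃ + p₀ * p₂ * p₃ + p₁ * p₂ * p₃) =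
      m 10 * G4.fe1 m u w)
    (hv4 : w * (p₀ * p₁ * p₂ * p₃) = G4.fe1 m u w ^ 2) :
    ∃ θ₁ θ₂ k₁ k₂ : F, θ₁ ≠ 0 ∧ θ₂ ≠ 0 ∧ θ₁ * θ₂ = w ∧ k₁ + k₂ = -m 10 ∧
      θ₁ * k₂ + θ₂ * k₁ = m 9 * w ∧
      G4.fe2 m u w - (θ₁ + θ₂) * G4.fe1 m u w - k₁ * k₂ = 0 ∧
      (∀ x, θ₁ * x ^ 2 + k₁ * x + G4.fe1 m u w = θ₁ * ((x - p₀) * (x - p₁))) ∧
      (∀ x, θ₂ * x ^ 2 + k₂ * x + G4.fe1 m u w = θ₂ * ((x - p₂) * (x - p₃))) := by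
  generalize G4.fe1 m u w = e at *
  have hθ : e / (p₀ * p₁) * (e / (p₂ * p₃)) = w := by
    field_simp
    linear_combination -hv4
  refine ⟨e / (p₀ * p₁), e / (p₂ * p₃), -(e / (p₀ * p₁)) * (p₀ + p₁),
    -(e / (p₂ * p₃)) * (p₂ + p₃), div_ne_zero he (mul_ne_zero h0 h1),
    div_ne_zero he (mul_ne_zero h2 h3), hθ, ?_, ?_, ?_, ?_, ?_⟩
  · have h5 : e * (-(e / (p₀ * p₁)) * (p₀ + p₁) + -(e / (p₂ * p₃)) * (p₂ + p₃)) = e * -m 10 := by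
      have h6 : e = e / (p₀ * p₁) * (p₀ * p₁) := by field_simp
      have h7 : e = e / (p₂ * p₃) * (p₂ * p₃) := by field_simp
      generalize e / (p₀ * p₁) = θ₁ at *
      generalize e / (p₂ * p₃) = θ₂ at *
      linear_combination (-θ₁ * (p₀ + p₁)) * h7 - θ₂ * (p₂ + p₃) * h6 -
        (p₀ * p₁ * p₂ + p₀ * p₁ * p₃ + p₀ * p₂ * p₃ + p₁ * p₂ * p₃) * hθ - hv3
    exact mul_left_cancel₀ he h5
  · linear_combination (-(p₀ + p₁ + p₂ + p₃)) * hθ - w * hv1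
  · have h6 : e = e / (p₀ * p₁) * (p₀ * p₁) := by field_simp
    have h7 : e = e / (p₂ * p₃) * (p₂ * p₃) := by field_simp
    generalize e / (p₀ * p₁) = θ₁ at *
    generalize e / (p₂ * p₃) = θ₂ at *
    linear_combination -hv2 - θ₁ * h7 - θ₂ * h6 -
      (p₀ * p₁ + p₀ * p₂ + p₀ * p₃ + p₁ * p₂ + p₁ * p₃ + p₂ * p₃) * hθ
  · intro x
    field_simp
    ring
  · intro x
    field_simp
    ring

end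

end Vale.Agent.P297.H160
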