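import Vale.Agent.P297.H160.FourK

/-!
Generic points `(s, X, Y)` in a field of transcendence degree two: `Y` is not in `ℂ(s, X)`, and
any two generic points are conjugate.
-/

set_option linter.unusedSectionVars false
set_option linter.style.haveILetI false

open IntermediateField Polynomial

namespace Vale.Agent.P297.H160

open Vale.Agent.P297 Vale.Agent.P297.H72 Vale.Agent.P297.H839 Vale.Agent.P297.G4
open Vale.Agent.P297.H600 Vale.Agent.P297.H729

/-- `(1 + s)²` -/
noncomputable def gL : ℂ[X][X] := (1 + X) ^ 2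

/-- `4 s - (1 + s)²` -/
noncomputable def gM : ℂ[X][X] := 4 * X - (1 + X) ^ 2

/-- `s² (B₀ + B₁ X + B₂ X²)` -/
noncomputable def gB (m : Fin 11 → ℂ) : ℂ[X][X] :=
  gL * gM * kk (m 5) - X * gL * kk (m 10) ^ 2 +
    (gL * gM * kk (m 4) + X * gL * (kk (m 9) * kk (m 10))) * C X +
    X * (gM * kk (m 6) - X * kk (m 9) ^ 2) * C X ^ 2

/-- `s² (a₁ l² + b₃ l X + a₄ l X² + b₄ X³ + a₃ X⁴)` -/
noncomputable def gN (m : Fin 11 → ℂ) : ℂ[X][X] :=
  kk (m 0) * gL ^ 2 + X * (kk (m 7) * gL * C X + kk (m 3) * gL * C X ^ 2 +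
    kk (m 8) * X * C X ^ 3 + kk (m 2) * X * C X ^ 4)

/-- `s⁵` times the value of the quartic -/
noncomputable def gA (m : Fin 11 → ℂ) : ℂ[X][X] :=
  X * gB m ^ 2 - 4 * kk (m 1) * gM ^ 2 * gL * gN m

theorem gA_coeff (m : Fin 11 → ℂ) : (gA m).coeff 0 = C (-4 * m 1 * m 0) := by
  unfold gA gN gM gL
  simp only [zero_mul, zero_sub, kk, coeff_zero_eq_eval_zero, eval_pow, eval_sub, eval_add, eval_mul, eval_X, eval_C, eval_one,
    mul_zero, add_zero, one_pow, mul_one, eval_ofNat]
  simp only [C_mul, C_neg]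
  have k4 : (C (4 : ℂ) : ℂ[X]) = 4 := rfl
  rw [k4]
  ring

section

variable {N : Type} [Field N] [Algebra ℂ N]

theorem ev_gA (m : Fin 11 → ℂ) {s x : N} (hs : s ≠ 0) :
    ev x s (X * gA m) = s ^ 6 * qv (fc (am N m) (lv s)) x := by
  have hc0 : fc (am N m) (lv s) 0 = fB0 (am N m) (lv s) ^ 2 +
    fE (am N m) (lv s) * (am N m 0 * lv s ^ 2) := rfl
  have hc1 : fc (am N m) (lv s) 1 = 2 * fB0 (am N m) (lv s) * fB1 (am N m) (lv s) +
    fE (am N m) (lv s) * (am N m 7 * lv s) := rfl
  have hc2 : fc (am N m) (lv s) 2 = fB1 (am N m) (lv s) ^ 2 +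
    2 * fB0 (am N m) (lv s) * fB2 (am N m) (lv s) + fE (am N m) (lv s) * (am N m 3 * lv s) := rfl
  have hc3 : fc (am N m) (lv s) 3 = 2 * fB1 (am N m) (lv s) * fB2 (am N m) (lv s) +
    fE (am N m) (lv s) * am N m 8 := rfl
  have hc4 : fc (am N m) (lv s) 4 = fB2 (am N m) (lv s) ^ 2 +
    fE (am N m) (lv s) * am N m 2 := rfl
  unfold qv
  rw [hc0, hc1, hc2, hc3, hc4]
  unfold gA gB gN gM gL fE fB0 fB1 fB2 lv
  simp only [map_add, map_sub, map_mul, map_pow, map_one, map_ofNat, ev_kk, ev_X, ev_CX, am_apply]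
  field_simp
  ring

theorem gen_swap {s x : N} (h : AlgebraicIndependent ℂ ![s, x]) :
    AlgebraicIndependent ℂ ![x, s] := by
  have h1 := h.comp ![1, 0] (by
    intro i j hij
    fin_cases i <;> fin_cases j <;> simp_all)
  have h2 : ![s, x] ∘ ![1, 0] = ![x, s] := by
    funext i
    fin_cases i <;> rfl
  rwa [h2] at h1

/-- `Y` is not in `ℂ(s, X)`. -/
theorem Y_notMem (m : Fin 11 → ℂ) (m0 : m 0 ≠ 0) (m1 : m 1 ≠ 0) {s x y : N}
    (h : Gen m s x y) : y ∉ IntermediateField.adjoin ℂ ({s, x} : Set N) := by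
  intro hy
  have hxs := gen_swap h.ind
  have hs0 : s ≠ 0 := by
    rintro rfl
    exact h.ind.transcendental 0 (by simp [isAlgebraic_zero])
  have hsm : s ∈ IntermediateField.adjoin ℂ ({s, x} : Set N) :=
    IntermediateField.subset_adjoin _ _ (by simp)
  have h1 : s ^ 3 * y ∈ IntermediateField.adjoin ℂ ({x, s} : Set N) := by
    rw [Set.pair_comm]
    exact mul_mem (pow_mem hsm 3) hy
  obtain ⟨t, ht⟩ := sq_of_mem₂ hxs (q := X * gA m) h1 (by
    rw [ev_gA m hs0, mul_pow, h.eq]
    ring)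
  have hX : Prime (X : ℂ[X][X]) := Polynomial.prime_X
  have h2 : (X : ℂ[X][X]) ∣ t := hX.dvd_of_dvd_pow (n := 2) ⟨gA m, ht⟩
  obtain ⟨t', rfl⟩ := h2
  have h3 : gA m = X * t' ^ 2 := by
    apply mul_left_cancel₀ hX.ne_zero
    rw [← ht]
    ring
  have h4 := gA_coeff m
  rw [h3, mul_coeff_zero, coeff_X_zero, zero_mul] at h4
  have h5 := C_eq_zero.1 h4.symm
  exact (mul_ne_zero (mul_ne_zero (by norm_num) m1) m0) h5

/-- Two transcendence bases with two elements are conjugate. -/
theorem exists_aut_pair [IsAlgClosed N] {a b a' b' : N} (h : AlgebraicIndependent ℂ ![a, b])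
    (h' : AlgebraicIndependent ℂ ![a', b'])
    (halg : ∀ z : N, IsAlgebraic (IntermediateField.adjoin ℂ {a, b}) z)
    (halg' : ∀ z : N, IsAlgebraic (IntermediateField.adjoin ℂ {a', b'}) z) :
    ∃ g : N ≃ₐ[ℂ] N, g a = a' ∧ g b = b' := by
  have hr : Set.range ![a, b] = {a, b} := H600.range_pair a b
  have hr' : Set.range ![a', b'] = {a', b'} := H600.range_pair a' b'
  rw [← hr] at halg
  rw [← hr'] at halg'
  haveI : Algebra.IsAlgebraic (IntermediateField.adjoin ℂ (Set.range ![a, b])) N := ⟨halg⟩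
  haveI : Algebra.IsAlgebraic (IntermediateField.adjoin ℂ (Set.range ![a', b'])) N := ⟨halg'⟩
  haveI : IsAlgClosure (IntermediateField.adjoin ℂ (Set.range ![a, b])) N :=
    ⟨inferInstance, inferInstance⟩
  haveI : IsAlgClosure (IntermediateField.adjoin ℂ (Set.range ![a', b'])) N :=
    ⟨inferInstance, inferInstance⟩
  let e : IntermediateField.adjoin ℂ (Set.range ![a, b]) ≃ₐ[ℂ]
      IntermediateField.adjoin ℂ (Set.range ![a', b']) :=
    h.aevalEquivField.symm.trans h'.aevalEquivField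
  let g := IsAlgClosure.equivOfEquiv N N e.toRingEquiv
  have hg : ∀ s : IntermediateField.adjoin ℂ (Set.range ![a, b]), g (s : N) = (e s : N) :=
    fun s => IsAlgClosure.equivOfEquiv_algebraMap N N e.toRingEquiv s
  have key : ∀ i, g (![a, b] i) = ![a', b'] i := by
    intro i
    have h0 : h.aevalEquivField (algebraMap (MvPolynomial (Fin 2) ℂ)
        (FractionRing (MvPolynomial (Fin 2) ℂ)) (MvPolynomial.X i)) =
        ⟨![a, b] i, IntermediateField.subset_adjoin _ _ ⟨i, rfl⟩⟩ := by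
      apply Subtype.ext
      change ((h.aevalEquivField _ : IntermediateField.adjoin ℂ (Set.range ![a, b])) : N) = _
      rw [AlgebraicIndependent.aevalEquivField_algebraMap_apply_coe, MvPolynomial.aeval_X]
    have h1 := hg ⟨![a, b] i, IntermediateField.subset_adjoin _ _ ⟨i, rfl⟩⟩
    rw [← h0] at h1
    have h2 : e (h.aevalEquivField (algebraMap (MvPolynomial (Fin 2) ℂ)
        (FractionRing (MvPolynomial (Fin 2) ℂ)) (MvPolynomial.X i))) =
        h'.aevalEquivField (algebraMap (MvPolynomial (Fin 2) ℂ)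
        (FractionRing (MvPolynomial (Fin 2) ℂ)) (MvPolynomial.X i)) := by
      change h'.aevalEquivField (h.aevalEquivField.symm _) = _
      rw [AlgEquiv.symm_apply_apply]
    rw [h2] at h1
    rw [h0] at h1
    rw [AlgebraicIndependent.aevalEquivField_algebraMap_apply_coe, MvPolynomial.aeval_X] at h1
    exact h1
  refine ⟨{ g with commutes' := fun r => ?_ }, key 0, key 1⟩
  change g (algebraMap ℂ N r) = algebraMap ℂ N r
  have h1 := hg (algebraMap ℂ _ r)
  rw [e.commutes] at h1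
  exact h1

/-- **Any two generic points are conjugate.** -/
theorem gen_conj [IsAlgClosed N] (m : Fin 11 → ℂ) (m0 : m 0 ≠ 0) (m1 : m 1 ≠ 0)
    {s x y s' x' y' : N} (h : Gen m s x y) (h' : Gen m s' x' y')
    (halg : ∀ z : N, IsAlgebraic (IntermediateField.adjoin ℂ {s, x}) z)
    (halg' : ∀ z : N, IsAlgebraic (IntermediateField.adjoin ℂ {s', x'}) z) :
    ∃ g : N ≃ₐ[ℂ] N, g s = s' ∧ g x = x' ∧ g y = y' := by
  obtain ⟨g, h1, h2⟩ := exists_aut_pair h.ind h'.ind halg halg'
  have h3 : (g y) ^ 2 = y' ^ 2 := by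
    have h4 := congrArg g.toAlgHom h.eq
    have h5 : g.toAlgHom (qv (fc (am N m) (lv s)) x) = qv (fc (am N m) (lv s')) x' := by
      unfold qv
      simp only [map_add, map_mul, map_pow, map_fc, map_lv]
      have e1 : g.toAlgHom s = s' := h1
      have e2 : g.toAlgHom x = x' := h2
      rw [e1, e2]
    rw [h5, map_pow, ← h'.eq] at h4
    exact h4
  rcases sq_eq_sq_iff_eq_or_eq_neg.1 h3 with h4 | h4
  · exact ⟨g, h1, h2, h4⟩
  · obtain ⟨γ, hγ, hγ2⟩ := exists_conj (IntermediateField.adjoin ℂ ({s', x'} : Set N)) ⟨halg'⟩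
      y' (-y') (by rw [add_neg_cancel]; exact zero_mem _)
      (by
        have h5 : y' * -y' = -(qv (fc (am N m) (lv s')) x') := by
          rw [← h'.eq]
          ring
        rw [h5]
        refine neg_mem ?_
        have hs0 : s' ≠ 0 := by
          rintro rfl
          exact h'.ind.transcendental 0 (by simp [isAlgebraic_zero])
        have hsm : s' ∈ IntermediateField.adjoin ℂ ({s', x'} : Set N) :=
          IntermediateField.subset_adjoin _ _ (by simp)
        have hxm : x' ∈ IntermediateField.adjoin ℂ ({s', x'} : Set N) :=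
          IntermediateField.subset_adjoin _ _ (by simp)
        have h6 : qv (fc (am N m) (lv s')) x' = ev x' s' (X * gA m) / s' ^ 6 := by
          rw [ev_gA m hs0]
          field_simp
        rw [h6]
        exact div_mem (ev_mem_of _ hxm hsm _) (pow_mem hsm 6)) (Y_notMem m m0 m1 h')
    have hs := hγ s' (IntermediateField.subset_adjoin _ _ (by simp))
    have hx := hγ x' (IntermediateField.subset_adjoin _ _ (by simp))
    refine ⟨g.trans γ, ?_, ?_, ?_⟩
    · change γ (g s) = s'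
      rw [h1, hs]
    · change γ (g x) = x'
      rw [h2, hx]
    · change γ (g y) = y'
      rw [h4, map_neg, hγ2, neg_neg]

end

end Vale.Agent.P297.H160
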