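import Vale.Agent.P297.H160.FourGal
import Vale.Agent.P297.H212.TowerGood

/-!
Divisibility by two for the surfaces with torsion `ℤ/4`.
-/

set_option linter.unusedSectionVars false
set_option linter.style.haveILetI false

open CategoryTheory AlgebraicGeometry IntermediateField Polynomial

namespace Vale.Agent.P297.H160

open Vale.Agent.P297 Vale.Agent.P297.H72 Vale.Agent.P297.H839 Vale.Agent.P297.G4
open Vale.Agent.P297.H600 Vale.Agent.P297.H729

section double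

variable {S : Scheme.{0}} {f : S ⟶ Spec (.of ℂ)} [IsProper f] {C : Type} [CommRing C]
  [Algebra ℂ C] [Algebra.FiniteType ℂ C] {j : Spec (.of C) ⟶ S}
  {hj : j ≫ f = Spec.map (CommRingCat.ofHom (algebraMap ℂ C))}

/-- Points of a double cover of a rational variety, in a larger field. -/
theorem good_of_double {N : Type} [Field N] [Algebra ℂ N] {σ : Type} [Finite σ] (x : σ → N)
    (hx : AlgebraicIndependent ℂ x) (Y : N) (p r : MvPolynomial σ ℂ) (hp : Irreducible p)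
    (hpr : ¬ p ∣ r) (hY : Y ^ 2 = MvPolynomial.aeval x (p * r))
    (hYL : Y ∉ IntermediateField.adjoin ℂ (Set.range x)) (N1 : IntermediateField ℂ N)
    (hN1 : ∀ z, z ∈ N1 ↔ ∃ a ∈ IntermediateField.adjoin ℂ (Set.range x),
      ∃ b ∈ IntermediateField.adjoin ℂ (Set.range x), z = a + b * Y)
    (ι : C →ₐ[ℂ] N) (hι : ∀ c, ι c ∈ N1)
    (R : AddSubgroup (ZeroCycle S)) (hR : Rat f ≤ R) (hR2 : ∀ u v : closedPoints S,
      (2 : ℤ) • (Finsupp.single u (1 : ℤ) - Finsupp.single v 1) ∈ R) :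
    Finsupp.single ι (1 : ℤ) ∈ Good f j hj R N := by
  obtain ⟨L, hL⟩ : ∃ L, L = IntermediateField.adjoin ℂ (Set.range x) := ⟨_, rfl⟩
  have hLN : ∀ z ∈ L, z ∈ N1 := fun z hz => (hN1 z).2
    ⟨z, by rw [← hL]; exact hz, 0, zero_mem _, by ring⟩
  have hxL : ∀ i, x i ∈ L := fun i => by
    rw [hL]; exact IntermediateField.subset_adjoin _ _ ⟨i, rfl⟩
  have hYN : Y ∈ N1 := (hN1 Y).2 ⟨0, zero_mem _, 1, one_mem _, by ring⟩
  let x' : σ → N1 := fun i => ⟨x i, hLN _ (hxL i)⟩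
  let Y' : N1 := ⟨Y, hYN⟩
  let ι' : C →ₐ[ℂ] N1 := ι.codRestrict N1.toSubalgebra hι
  have hιι : N1.val.comp ι' = ι := AlgHom.ext fun c => rfl
  have hinj : Function.Injective N1.val := N1.val.toRingHom.injective
  have hx' : AlgebraicIndependent ℂ x' := by
    rw [← AlgHom.algebraicIndependent_iff N1.val hinj]
    exact hx
  have hmap : (IntermediateField.adjoin ℂ (Set.range x')).map N1.val = L := by
    rw [IntermediateField.adjoin_map, hL, ← Set.range_comp]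
    rfl
  have hmem : ∀ z : N1, (z : N) ∈ L → z ∈ IntermediateField.adjoin ℂ (Set.range x') := by
    intro z hz
    rw [← hmap] at hz
    obtain ⟨w, hw, hwz⟩ := hz
    have h1 : z = w := Subtype.ext hwz.symm
    rw [h1]
    exact hw
  have hmem' : ∀ z : N1, z ∈ IntermediateField.adjoin ℂ (Set.range x') → (z : N) ∈ L := by
    intro z hz
    rw [← hmap]
    exact ⟨z, hz, rfl⟩
  have hY' : Y' ^ 2 = MvPolynomial.aeval x' (p * r) := by
    apply Subtype.ext
    have h1 : ∀ q : MvPolynomial σ ℂ, N1.val (MvPolynomial.aeval x' q) = MvPolynomial.aeval x q := by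
      intro q
      have h2 : N1.val.comp (MvPolynomial.aeval x') = MvPolynomial.aeval x := by
        apply MvPolynomial.algHom_ext
        intro i
        rw [AlgHom.comp_apply, MvPolynomial.aeval_X, MvPolynomial.aeval_X]
        rfl
      exact DFunLike.congr_fun h2 q
    have h3 := h1 (p * r)
    rw [← hY] at h3
    exact h3.symm
  obtain ⟨A, hA, hιA, hgen⟩ := double_generic f j hj R hR hR2 x' hx' Y' p r hp hpr hY'
    (fun h => hYL (by rw [← hL]; exact hmem' _ h)) (by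
      intro y
      obtain ⟨a, ha, b, hb, hab⟩ := (hN1 y).1 y.2
      rw [← hL] at ha hb
      refine ⟨⟨a, hLN a ha⟩, hmem _ ha, ⟨b, hLN b hb⟩, hmem _ hb, Subtype.ext hab⟩) ι'
  have hgood : Finsupp.single ι' (1 : ℤ) ∈ Good f j hj R N1 := by
    refine ⟨A, hA, fun B hB ξ₁ ξ₂ => ?_⟩
    rw [pair_single, pair_single, one_smul, one_smul,
      cyc_of_mem f j hj B ξ₁ ι' (fun c => hB (hιA c)),
      cyc_of_mem f j hj B ξ₂ ι' (fun c => hB (hιA c))]
    exact hgen (ξ₁.comp (Subalgebra.inclusion hB)) (ξ₂.comp (Subalgebra.inclusion hB))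
  have h1 := Good.map N1.val hgood
  rw [Finsupp.mapDomain_single, hιι] at h1
  exact h1

end double

section

variable {N : Type} [Field N] [Algebra ℂ N]

theorem gen_ne {m : Fin 11 → ℂ} {s x y : N} (h : Gen m s x y) : s ≠ 0 ∧ 1 + s ≠ 0 ∧ x ≠ 0 := by
  have hs : Transcendental ℂ s := h.ind.transcendental 0
  have hx : Transcendental ℂ x := h.ind.transcendental 1
  refine ⟨?_, ?_, ?_⟩
  · rintro rfl
    exact hs isAlgebraic_zero
  · intro h0
    apply hs
    have h1 : s = algebraMap ℂ N (-1) := by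
      rw [map_neg, map_one]
      linear_combination h0
    rw [h1]
    exact isAlgebraic_algebraMap _
  · rintro rfl
    exact hx isAlgebraic_zero

section mem

variable (m : Fin 11 → ℂ) {M : IntermediateField ℂ N} {s x y : N} (hs : s ∈ M) (hx : x ∈ M)
  (hy : y ∈ M)

include hs in
theorem mem_lv : lv s ∈ M := div_mem (pow_mem (add_mem (one_mem _) hs) 2) hs

theorem mem_am (i : Fin 11) : am N m i ∈ M := M.algebraMap_mem _

include hs hx in
theorem mem_th2 : th2 s x ∈ M := div_mem (neg_mem hx) (add_mem (one_mem _) hs)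

include hs hx in
theorem mem_th1 : th1 s x ∈ M := mul_mem hs (mem_th2 hs hx)

include hs hx in
theorem mem_vw : vw s x ∈ M := div_mem (pow_mem hx 2) (mem_lv hs)

include hs hx in
theorem mem_vc : vc m s x ∈ M := by
  unfold vc
  exact div_mem (mul_mem (mem_th1 hs hx) (add_mem (mem_am m _) (mul_mem (mem_am m _)
    (mem_th2 hs hx)))) (sub_mem (mem_th2 hs hx) (mem_th1 hs hx))

include hs hx in
theorem mem_vH : vH m s x ∈ M := by
  have h4 : (4 : N) ∈ M := ofNat_mem M 4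
  have hl := mem_lv hs
  unfold vH fB0 fB1 fB2
  refine div_mem (add_mem (add_mem ?_ (mul_mem ?_ hx)) (mul_mem ?_ (pow_mem hx 2)))
    (mul_mem hl (sub_mem h4 hl))
  · exact sub_mem (mul_mem (mul_mem hl (sub_mem h4 hl)) (mem_am m _))
      (mul_mem hl (pow_mem (mem_am m _) 2))
  · exact add_mem (mul_mem (mul_mem hl (sub_mem h4 hl)) (mem_am m _))
      (mul_mem hl (mul_mem (mem_am m _) (mem_am m _)))
  · exact sub_mem (mul_mem (sub_mem h4 hl) (mem_am m _)) (pow_mem (mem_am m _) 2)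

include hs hx in
theorem mem_vG : vG m s x ∈ M := by
  have hw := mem_vw hs hx
  unfold vG
  exact add_mem (add_mem (mem_am m _) (mul_mem (mem_am m _) hw)) (mul_mem hx (add_mem (add_mem
    (div_mem (mem_am m _) hw) (mul_mem (mem_am m _) hw)) (mem_am m _)))

include hs hx hy in
theorem mem_vu : vu m s x y ∈ M := by
  have hl := mem_lv hs
  unfold vu
  exact div_mem (add_mem (neg_mem (mem_vH m hs hx)) (div_mem hy (mul_mem hl
    (sub_mem (ofNat_mem M 4) hl)))) (mul_mem (ofNat_mem M 2) (mem_vG m hs hx))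

theorem mem_fe1 {u w : N} (hu : u ∈ M) (hw : w ∈ M) : fe1 (am N m) u w ∈ M := by
  unfold fe1
  exact add_mem (add_mem (add_mem (add_mem (div_mem (mul_mem (mem_am m _) hu) hw)
    (div_mem (mem_am m _) hu)) (mul_mem (mul_mem (mem_am m _) hu) hw))
    (mul_mem (mem_am m _) hu)) (mem_am m _)

end mem

theorem gen_sq_mem (m : Fin 11 → ℂ) {s x y : N} (h : Gen m s x y) :
    y ^ 2 ∈ IntermediateField.adjoin ℂ ({s, x} : Set N) := by
  obtain ⟨hs0, -, -⟩ := gen_ne h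
  have hsm : s ∈ IntermediateField.adjoin ℂ ({s, x} : Set N) :=
    IntermediateField.subset_adjoin _ _ (by simp)
  have hxm : x ∈ IntermediateField.adjoin ℂ ({s, x} : Set N) :=
    IntermediateField.subset_adjoin _ _ (by simp)
  have h6 : y ^ 2 = ev x s (X * gA m) / s ^ 6 := by
    rw [ev_gA m hs0, h.eq]
    field_simp
  rw [h6]
  exact div_mem (ev_mem_of _ hxm hsm _) (pow_mem hsm 6)

variable {K : Type} [Field K] [Algebra ℂ K]

/-- The quadratic element for a pair. -/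
theorem Z_data {m : Fin 11 → ℂ} {u w p q : K}
    (hs : OnSurf (fun i => algebraMap ℂ K (m i)) u w p q)
    (htop : IntermediateField.adjoin ℂ {u, w, p, q} = ⊤) {s x y : N} (h : Gen m s x y)
    {φ : K →ₐ[ℂ] N} (hφ : φ ∈ Bset u w p q m s x y) (N1 : IntermediateField ℂ N)
    (hsN : s ∈ N1) (hxN : x ∈ N1) (hyN : y ∈ N1) :
    (2 * th1 s x * φ p + vc m s x) ^ 2 =
      vc m s x ^ 2 - 4 * th1 s x * fe1 (am N m) (vu m s x y) (vw s x) ∧
    (2 * th1 s x * φ p + vc m s x) ^ 2 ∈ N1 ∧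
    ∀ k, ∃ a ∈ N1, ∃ b ∈ N1, φ k = a + b * (2 * th1 s x * φ p + vc m s x) := by
  obtain ⟨hs0, hs1, hx0⟩ := gen_ne h
  obtain ⟨h1, h2, h3⟩ := hφ
  have hsurf := map_surf hs φ
  have hθ0 : th1 s x ≠ 0 := mul_ne_zero hs0 (div_ne_zero (neg_ne_zero.2 hx0) hs1)
  have hθN := mem_th1 hsN hxN
  have hcN := mem_vc m hsN hxN
  have hZ2 : (2 * th1 s x * φ p + vc m s x) ^ 2 =
      vc m s x ^ 2 - 4 * th1 s x * fe1 (am N m) (vu m s x y) (vw s x) := by
    have h4 := hsurf.1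
    rw [h1, h2, h3] at h4
    linear_combination 4 * th1 s x * h4
  have hZN : (2 * th1 s x * φ p + vc m s x) ^ 2 ∈ N1 := by
    rw [hZ2]
    exact sub_mem (pow_mem hcN 2) (mul_mem (mul_mem (ofNat_mem N1 4) hθN)
      (mem_fe1 m (mem_vu m hsN hxN hyN) (mem_vw hsN hxN)))
  refine ⟨hZ2, hZN, ?_⟩
  obtain ⟨Z, hZ⟩ : ∃ Z, Z = 2 * th1 s x * φ p + vc m s x := ⟨_, rfl⟩
  rw [← hZ] at hZN ⊢
  haveI : CharZero N := charZero_of_injective_algebraMap (algebraMap ℂ N).injective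
  have hp : φ p = -vc m s x / (2 * th1 s x) + 1 / (2 * th1 s x) * Z := by
    rw [hZ]
    field_simp
    ring
  have h2θ : 2 * th1 s x ∈ N1 := mul_mem (ofNat_mem N1 2) hθN
  have hle : (⊤ : IntermediateField ℂ K).map φ ≤ quadField N1 Z hZN := by
    rw [← htop, IntermediateField.adjoin_map, IntermediateField.adjoin_le_iff]
    rintro _ ⟨k, (hk | hk | hk | hk), rfl⟩
    · rw [hk]
      refine ⟨φ u, ?_, 0, zero_mem _, by ring⟩
      rw [h1]
      exact mem_vu m hsN hxN hyN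
    · rw [hk]
      refine ⟨φ w, ?_, 0, zero_mem _, by ring⟩
      rw [h2]
      exact mem_vw hsN hxN
    · rw [hk]
      exact ⟨_, div_mem (neg_mem hcN) h2θ, _, div_mem (one_mem _) h2θ, hp⟩
    · rw [Set.mem_singleton_iff.1 hk]
      refine ⟨th1 s x * (-vc m s x / (2 * th1 s x)) + vc m s x, ?_, th1 s x * (1 / (2 * th1 s x)),
        mul_mem hθN (div_mem (one_mem _) h2θ), ?_⟩
      · exact add_mem (mul_mem hθN (div_mem (neg_mem hcN) h2θ)) hcN
      · rw [h3, hp]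
        ring
  intro k
  exact hle ⟨k, trivial, rfl⟩

end

section

variable {S : Scheme.{0}} {f : S ⟶ Spec (.of ℂ)} [IsProper f] {C : Type} [CommRing C]
  [Algebra ℂ C] [Algebra.FiniteType ℂ C] {j : Spec (.of C) ⟶ S}
  {hj : j ≫ f = Spec.map (CommRingCat.ofHom (algebraMap ℂ C))}
variable {N : Type} [Field N] [Algebra ℂ N] {K : Type} [Field K] [Algebra ℂ K]

theorem Y_notMem' (m : Fin 11 → ℂ) (m0 : m 0 ≠ 0) (m1 : m 1 ≠ 0) {s x y : N} (h : Gen m s x y) :
    y ∉ IntermediateField.adjoin ℂ (Set.range ![s, x]) := by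
  rw [H600.range_pair]
  exact Y_notMem m m0 m1 h

/-- The conjugate embedding. -/
theorem exists_g [IsAlgClosed N] {m : Fin 11 → ℂ} {u w p q : K} {s x y : N}
    {ψ₀ ψ₁ : K →ₐ[ℂ] N} (hB : Bset u w p q m s x y = {ψ₀, ψ₁}) (N1 : IntermediateField ℂ N)
    (hN1 : Algebra.IsAlgebraic N1 N)
    (hsN : s ∈ N1) (hxN : x ∈ N1) (hyN : y ∈ N1)
    (hZ : (2 * th1 s x * ψ₀ p + vc m s x) ^ 2 ∈ N1)
    (hZN : 2 * th1 s x * ψ₀ p + vc m s x ∉ N1) :
    ∃ g : N ≃ₐ[ℂ] N, (∀ z ∈ N1, g z = z) ∧ g (2 * th1 s x * ψ₀ p + vc m s x) =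
      -(2 * th1 s x * ψ₀ p + vc m s x) ∧ g.toAlgHom.comp ψ₀ = ψ₁ := by
  haveI : CharZero N := charZero_of_injective_algebraMap (algebraMap ℂ N).injective
  obtain ⟨g, hg, hgZ⟩ := exists_conj N1 hN1 (2 * th1 s x * ψ₀ p + vc m s x)
    (-(2 * th1 s x * ψ₀ p + vc m s x)) (by rw [add_neg_cancel]; exact zero_mem _) (by
      have h1 : (2 * th1 s x * ψ₀ p + vc m s x) * -(2 * th1 s x * ψ₀ p + vc m s x) =
        -(2 * th1 s x * ψ₀ p + vc m s x) ^ 2 := by ring
      rw [h1]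
      exact neg_mem hZ) hZN
  refine ⟨g, hg, hgZ, ?_⟩
  have h1 : ψ₀ ∈ Bset u w p q m s x y := by rw [hB]; exact Or.inl rfl
  have h2 := mem_Bset g h1
  rw [hg s hsN, hg x hxN, hg y hyN, hB] at h2
  rcases h2 with h2 | h2
  · exfalso
    have h3 : g (ψ₀ p) = ψ₀ p := DFunLike.congr_fun h2 p
    apply hZN
    have h4 : g (2 * th1 s x * ψ₀ p + vc m s x) = 2 * th1 s x * ψ₀ p + vc m s x := by
      rw [map_add, map_mul, map_mul, map_ofNat, h3, hg _ (mem_th1 hsN hxN),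
        hg _ (mem_vc m hsN hxN)]
    rw [hgZ] at h4
    have h5 : 2 * th1 s x * ψ₀ p + vc m s x = 0 := by
      have h6 : (2 : N) * (2 * th1 s x * ψ₀ p + vc m s x) = 0 := by linear_combination -h4
      exact (mul_eq_zero.1 h6).resolve_left two_ne_zero
    rw [h5]
    exact zero_mem _
  · exact h2

/-- The normal form of the double cover. -/
theorem normal_gen (m : Fin 11 → ℂ) (m0 : m 0 ≠ 0) (m1 : m 1 ≠ 0) {s x y : N}
    (h : Gen m s x y) : ∃ (P Q : MvPolynomial (Fin 2) ℂ) (y' : N), Irreducible P ∧ ¬ P ∣ Q ∧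
      y' ^ 2 = MvPolynomial.aeval ![s, x] (P * Q) ∧
      y' ∉ IntermediateField.adjoin ℂ (Set.range ![s, x]) ∧
      ∃ N1 : IntermediateField ℂ N, s ∈ N1 ∧ x ∈ N1 ∧ y ∈ N1 ∧
        ∀ z, z ∈ N1 ↔ ∃ a ∈ IntermediateField.adjoin ℂ (Set.range ![s, x]),
          ∃ b ∈ IntermediateField.adjoin ℂ (Set.range ![s, x]), z = a + b * y' := by
  have hyL := Y_notMem' m m0 m1 h
  have hy2 : y ^ 2 ∈ IntermediateField.adjoin ℂ (Set.range ![s, x]) := by
    rw [H600.range_pair]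
    exact gen_sq_mem m h
  obtain ⟨P, Q, e, hP, hPQ, he0, he, heq⟩ := exists_normal_form ![s, x] h.ind y hy2 hyL
  refine ⟨P, Q, e * y, hP, hPQ, heq, ?_,
    quadField (IntermediateField.adjoin ℂ (Set.range ![s, x])) y hy2, ?_, ?_, ?_, ?_⟩
  · intro hmem
    apply hyL
    have h2 : y = e⁻¹ * (e * y) := by rw [inv_mul_cancel_left₀ he0]
    rw [h2]
    exact mul_mem (inv_mem he) hmem
  · exact ⟨s, IntermediateField.subset_adjoin _ _ ⟨0, rfl⟩, 0, zero_mem _, by ring⟩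
  · exact ⟨x, IntermediateField.subset_adjoin _ _ ⟨1, rfl⟩, 0, zero_mem _, by ring⟩
  · exact ⟨0, zero_mem _, 1, one_mem _, by ring⟩
  · intro z
    constructor
    · rintro ⟨a, ha, b, hb, hab⟩
      exact ⟨a, ha, b * e⁻¹, mul_mem hb (inv_mem he), by
        rw [hab]
        field_simp⟩
    · rintro ⟨a, ha, b, hb, hab⟩
      exact ⟨a, ha, b * e, mul_mem hb he, by rw [hab]; ring⟩

/-- **The sums over the pairs are constant modulo `R`.** -/
theorem pair_good [IsAlgClosed N] (m : Fin 11 → ℂ) (m0 : m 0 ≠ 0) (m1 : m 1 ≠ 0) {u w p q : K}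
    (hs : OnSurf (fun i => algebraMap ℂ K (m i)) u w p q)
    (htop : IntermediateField.adjoin ℂ {u, w, p, q} = ⊤) {s x y : N} (h : Gen m s x y)
    (halg : ∀ z : N, IsAlgebraic (IntermediateField.adjoin ℂ {s, x}) z)
    {ψ₀ ψ₁ : K →ₐ[ℂ] N} (hB : Bset u w p q m s x y = {ψ₀, ψ₁})
    (R : AddSubgroup (ZeroCycle S)) (hR : Rat f ≤ R) (hR2 : ∀ u v : closedPoints S,
      (2 : ℤ) • (Finsupp.single u (1 : ℤ) - Finsupp.single v 1) ∈ R) (i : C →ₐ[ℂ] K) :
    Finsupp.single (ψ₀.comp i) (1 : ℤ) + Finsupp.single (ψ₁.comp i) 1 ∈ Good f j hj R N := by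
  obtain ⟨P, Q, y', hP, hPQ, hy2, hyL, N1, hsN, hxN, hyN, hN1⟩ := normal_gen m m0 m1 h
  have hLN : IntermediateField.adjoin ℂ {s, x} ≤ N1 := by
    rw [IntermediateField.adjoin_le_iff]
    rintro z (hz | hz)
    · rw [hz]; exact hsN
    · rw [Set.mem_singleton_iff.1 hz]; exact hxN
  have hN1a : Algebra.IsAlgebraic N1 N := isAlgebraic_mono hLN ⟨halg⟩
  have hψ₀ : ψ₀ ∈ Bset u w p q m s x y := by rw [hB]; exact Or.inl rfl
  have hψ₁ : ψ₁ ∈ Bset u w p q m s x y := by rw [hB]; exact Or.inr rfl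
  obtain ⟨e0, z0, r0⟩ := Z_data hs htop h hψ₀ N1 hsN hxN hyN
  obtain ⟨e1, z1, r1⟩ := Z_data hs htop h hψ₁ N1 hsN hxN hyN
  by_cases hZ : 2 * th1 s x * ψ₀ p + vc m s x ∈ N1
  · have hZ1 : 2 * th1 s x * ψ₁ p + vc m s x ∈ N1 := by
      have h1 : (2 * th1 s x * ψ₁ p + vc m s x) ^ 2 = (2 * th1 s x * ψ₀ p + vc m s x) ^ 2 := by
        rw [e0, e1]
      rcases sq_eq_sq_iff_eq_or_eq_neg.1 h1 with h2 | h2
      · rw [h2]; exact hZ
      · rw [h2]; exact neg_mem hZ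
    refine AddSubgroup.add_mem _ ?_ ?_
    · refine good_of_double ![s, x] h.ind y' P Q hP hPQ hy2 hyL N1 hN1 _ (fun c => ?_) R hR hR2
      obtain ⟨a, ha, b, hb, hab⟩ := r0 (i c)
      change ψ₀ (i c) ∈ N1
      rw [hab]
      exact add_mem ha (mul_mem hb hZ)
    · refine good_of_double ![s, x] h.ind y' P Q hP hPQ hy2 hyL N1 hN1 _ (fun c => ?_) R hR hR2
      obtain ⟨a, ha, b, hb, hab⟩ := r1 (i c)
      change ψ₁ (i c) ∈ N1
      rw [hab]
      exact add_mem ha (mul_mem hb hZ1)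
  · obtain ⟨g, hg, hgZ, hg1⟩ := exists_g hB N1 hN1a hsN hxN hyN z0 hZ
    have h1 := H212.tower_sum (f := f) (j := j) (hj := hj) R hR hR2 ![s, x] h.ind y' P Q hP hPQ hy2 hyL N1 hN1 _ z0 hZ
      g.toAlgHom hg hgZ (ψ₀.comp i) (fun c => r0 (i c))
    have h2 : g.toAlgHom.comp (ψ₀.comp i) = ψ₁.comp i := by rw [← hg1]; rfl
    rw [h2] at h1
    exact h1

/-- From the difference of two points of a pair to a single point. -/
theorem single_good [IsAlgClosed N] (m : Fin 11 → ℂ) (m0 : m 0 ≠ 0) (m1 : m 1 ≠ 0) {u w p q : K}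
    (hs : OnSurf (fun i => algebraMap ℂ K (m i)) u w p q)
    (htop : IntermediateField.adjoin ℂ {u, w, p, q} = ⊤) {s x y : N} (h : Gen m s x y)
    (halg : ∀ z : N, IsAlgebraic (IntermediateField.adjoin ℂ {s, x}) z)
    {ψ₀ ψ₁ : K →ₐ[ℂ] N} (hB : Bset u w p q m s x y = {ψ₀, ψ₁})
    (R : AddSubgroup (ZeroCycle S)) (hR : Rat f ≤ R) (hR2 : ∀ u v : closedPoints S,
      (2 : ℤ) • (Finsupp.single u (1 : ℤ) - Finsupp.single v 1) ∈ R) (i : C →ₐ[ℂ] K)
    (hinj : Function.Injective (ψ₀.comp i))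
    (hC : ∀ y : N, ∃ q : C[X], q ≠ 0 ∧ q.eval₂ (ψ₀.comp i).toRingHom y = 0)
    (h0 : HasVal f j hj R N
      (Finsupp.single (ψ₀.comp i) (1 : ℤ) - Finsupp.single (ψ₁.comp i) 1) 0) :
    Finsupp.single (ψ₀.comp i) (1 : ℤ) ∈ Good f j hj R N := by
  obtain ⟨P, Q, y', hP, hPQ, hy2, hyL, N1, hsN, hxN, hyN, hN1⟩ := normal_gen m m0 m1 h
  have hLN : IntermediateField.adjoin ℂ {s, x} ≤ N1 := by
    rw [IntermediateField.adjoin_le_iff]
    rintro z (hz | hz)
    · rw [hz]; exact hsN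
    · rw [Set.mem_singleton_iff.1 hz]; exact hxN
  have hN1a : Algebra.IsAlgebraic N1 N := isAlgebraic_mono hLN ⟨halg⟩
  have hψ₀ : ψ₀ ∈ Bset u w p q m s x y := by rw [hB]; exact Or.inl rfl
  obtain ⟨e0, z0, r0⟩ := Z_data hs htop h hψ₀ N1 hsN hxN hyN
  by_cases hZ : 2 * th1 s x * ψ₀ p + vc m s x ∈ N1
  · refine good_of_double ![s, x] h.ind y' P Q hP hPQ hy2 hyL N1 hN1 _ (fun c => ?_) R hR hR2
    obtain ⟨a, ha, b, hb, hab⟩ := r0 (i c)
    change ψ₀ (i c) ∈ N1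
    rw [hab]
    exact add_mem ha (mul_mem hb hZ)
  · obtain ⟨g, hg, hgZ, hg1⟩ := exists_g hB N1 hN1a hsN hxN hyN z0 hZ
    have h2 : g.toAlgHom.comp (ψ₀.comp i) = ψ₁.comp i := by rw [← hg1]; rfl
    refine H212.tower_good R hR hR2 ![s, x] h.ind y' P Q hP hPQ hy2 hyL N1 hN1 _ z0 hZ
      g.toAlgHom hg hgZ (ψ₀.comp i) (fun c => r0 (i c)) hinj hC ?_
    rw [h2]
    exact h0

end

section

variable {N : Type} [Field N] [Algebra ℂ N] {K : Type} [Field K] [Algebra ℂ K]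

/-- An algebraic extension of a function field is algebraic over the image of a transcendence
basis. -/
theorem alg_image [IsAlgClosed N] (φ : K →ₐ[ℂ] N) {u w : K}
    (hK : ∀ z : K, IsAlgebraic (IntermediateField.adjoin ℂ {u, w}) z)
    (hN : ∀ z : N, ∃ q : K[X], q ≠ 0 ∧ q.eval₂ φ.toRingHom z = 0) (z : N) :
    IsAlgebraic (IntermediateField.adjoin ℂ {φ u, φ w}) z := by
  have hmap : (IntermediateField.adjoin ℂ {u, w}).map φ = IntermediateField.adjoin ℂ {φ u, φ w} := by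
    rw [IntermediateField.adjoin_map]
    congr 1
    simp only [Set.image_insert_eq, Set.image_singleton]
  have hM : ∀ k : K, φ k ∈ Gen.cl0 ({φ u, φ w} : Set N) := by
    intro k
    obtain ⟨q, hq0, hq⟩ := hK k
    rw [Gen.mem_cl0]
    refine Gen.isAlgebraic_of_coeff (p := (q.map (algebraMap _ K)).map φ.toRingHom) ?_ ?_ ?_
    · intro n
      rw [coeff_map, coeff_map, ← hmap]
      exact ⟨_, (q.coeff n).2, rfl⟩
    · rw [Ne, Polynomial.map_eq_zero, Polynomial.map_eq_zero]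
      exact hq0
    · rw [Polynomial.eval_map]
      refine (Polynomial.eval₂_at_apply φ.toRingHom k).trans ?_
      rw [Polynomial.eval_map, ← Polynomial.aeval_def, hq]
      exact map_zero φ
  rw [← Gen.mem_cl0]
  refine Gen.cl0_closed _ _ ?_
  obtain ⟨q, hq0, hq⟩ := hN z
  refine Gen.isAlgebraic_of_coeff (p := q.map φ.toRingHom) ?_ ?_ ?_
  · intro n
    rw [coeff_map]
    exact hM _
  · rw [Ne, Polynomial.map_eq_zero]
    exact hq0
  · rw [Polynomial.eval_map]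
    exact hq

end

section

variable {S : Scheme.{0}} {f : S ⟶ Spec (.of ℂ)} [IsProper f] {C : Type} [CommRing C]
  [Algebra ℂ C] [Algebra.FiniteType ℂ C] {j : Spec (.of C) ⟶ S}
  {hj : j ≫ f = Spec.map (CommRingCat.ofHom (algebraMap ℂ C))}
variable {N : Type} [Field N] [Algebra ℂ N] {K : Type} [Field K] [Algebra ℂ K]

/-- The values over two pairs agree. -/
theorem val_eq [IsAlgClosed N] {m : Fin 11 → ℂ} (m0 : m 0 ≠ 0) (m1 : m 1 ≠ 0) {u w p q : K}
    {s x y s' x' y' : N} (h : Gen m s x y) (h' : Gen m s' x' y')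
    (halg : ∀ z : N, IsAlgebraic (IntermediateField.adjoin ℂ {s, x}) z)
    (halg' : ∀ z : N, IsAlgebraic (IntermediateField.adjoin ℂ {s', x'}) z)
    {φ₀ φ₁ ψ₀ ψ₁ : K →ₐ[ℂ] N} (hφ : φ₀ ≠ φ₁) (hψ : ψ₀ ≠ ψ₁)
    (hB : Bset u w p q m s x y = {φ₀, φ₁}) (hB' : Bset u w p q m s' x' y' = {ψ₀, ψ₁})
    {R : AddSubgroup (ZeroCycle S)} (i : C →ₐ[ℂ] K) {κ : ZeroCycle S ⧸ R}
    (hv : HasVal f j hj R N (Finsupp.single (φ₀.comp i) 1 + Finsupp.single (φ₁.comp i) 1) κ) :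
    HasVal f j hj R N (Finsupp.single (ψ₀.comp i) 1 + Finsupp.single (ψ₁.comp i) 1) κ := by
  obtain ⟨g, hg1, hg2, hg3⟩ := gen_conj m m0 m1 h h' halg halg'
  have h1 := act_Bs g u w p q m s x y
  rw [hg1, hg2, hg3, Bs_of_set hB hφ, Bs_of_set hB' hψ, map_add, act_single, act_single] at h1
  have h2 := hv.map g.toAlgHom
  rw [Finsupp.mapDomain_add, Finsupp.mapDomain_single, Finsupp.mapDomain_single] at h2
  have h3 := congrArg (Finsupp.mapDomain (fun χ : K →ₐ[ℂ] N => χ.comp i)) h1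
  rw [Finsupp.mapDomain_add, Finsupp.mapDomain_add, Finsupp.mapDomain_single,
    Finsupp.mapDomain_single, Finsupp.mapDomain_single, Finsupp.mapDomain_single] at h3
  rw [← h3]
  exact h2

end

/-- **Divisibility by two.** -/
theorem four_half (m : Fin 11 → ℂ) (m0 : m 0 ≠ 0) (m1 : m 1 ≠ 0) (hm : NonDeg m)
    {K : Type} [Field K] [Algebra ℂ K] {u w p q : K}
    (hs : OnSurf (fun i => algebraMap ℂ K (m i)) u w p q) (hind : AlgebraicIndependent ℂ ![u, w])
    (htop : IntermediateField.adjoin ℂ {u, w, p, q} = ⊤)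
    {S : Scheme.{0}} [IsIntegral S] (f : S ⟶ Spec (.of ℂ)) [IsProper f]
    (hS : IsFunctionFieldOf f K) (R : AddSubgroup (ZeroCycle S)) (hR : Rat f ≤ R)
    (hR2 : ∀ a b : closedPoints S,
      (2 : ℤ) • (Finsupp.single a (1 : ℤ) - Finsupp.single b 1) ∈ R) (a b : closedPoints S) :
    Finsupp.single a (1 : ℤ) - Finsupp.single b 1 ∈ R := by
  obtain ⟨U, hU, hne, hi⟩ := exists_chart f hS
  letI := chartAlg f hU
  haveI := chart_finiteType f hU
  obtain ⟨i, hi, hfrac⟩ := hi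
  let N := AlgebraicClosure K
  let φ : K →ₐ[ℂ] N := IsScalarTower.toAlgHom ℂ K N
  have hφinj : Function.Injective φ := φ.toRingHom.injective
  have hUW : AlgebraicIndependent ℂ ![φ u, φ w] := by
    have h := hind.map' (f := φ) hφinj
    have h2 : (φ ∘ ![u, w]) = ![φ u, φ w] := by
      funext k
      fin_cases k <;> rfl
    rwa [h2] at h
  have h4 := finrank_four m m0 hind htop hs
  have hKa : ∀ z : K, IsAlgebraic (IntermediateField.adjoin ℂ {u, w}) z := by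
    haveI : FiniteDimensional (IntermediateField.adjoin ℂ ({u, w} : Set K)) K :=
      FiniteDimensional.of_finrank_pos (by rw [h4]; norm_num)
    exact fun z => Algebra.IsAlgebraic.isAlgebraic z
  have hNK : ∀ z : N, ∃ q : K[X], q ≠ 0 ∧ q.eval₂ φ.toRingHom z = 0 := by
    intro z
    obtain ⟨q, hq0, hq⟩ := Algebra.IsAlgebraic.isAlgebraic (R := K) z
    exact ⟨q, hq0, hq⟩
  have hNa := alg_image φ hKa hNK
  obtain ⟨ψ, hψ0, hψinj, hu, hw, hcov, hinj, hp, hsurf⟩ := exists_four m m0 hs hind htop φ hUW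
  have key : ∀ e : Fin 4 ≃ Fin 4, ∃ s x y : N, Gen m s x y ∧
      (∀ z : N, IsAlgebraic (IntermediateField.adjoin ℂ {s, x}) z) ∧
      Bset u w p q m s x y = {ψ (e 0), ψ (e 1)} := by
    intro e
    obtain ⟨s, x, y, hgen, hvw, hvu, hB, -⟩ := pair_set (q := q) m0 m1 hm hUW (ψ := ψ ∘ e)
      (fun i => hu _) (fun i => hw _) (by
        intro χ h4 h5
        obtain ⟨i, hi⟩ := hcov χ h4 h5
        exact ⟨e.symm i, by rw [Function.comp_apply, Equiv.apply_symm_apply]; exact hi⟩)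
      (hinj.comp e.injective) (fun i => hp _) (fun i => hsurf _)
    refine ⟨s, x, y, hgen, ?_, hB⟩
    intro z
    have hsc : s ∈ Gen.cl0 ({s, x} : Set N) := Gen.subset_cl0 _ (by simp)
    have hxc : x ∈ Gen.cl0 ({s, x} : Set N) := Gen.subset_cl0 _ (by simp)
    have hyc : y ∈ Gen.cl0 ({s, x} : Set N) := by
      rw [Gen.mem_cl0]
      exact IsAlgebraic.of_pow two_pos (isAlgebraic_algebraMap
        (⟨_, gen_sq_mem m hgen⟩ : IntermediateField.adjoin ℂ ({s, x} : Set N)))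
    refine H600.alg_trans ?_ ?_ (hNa z)
    · rw [← Gen.mem_cl0, ← hvu]
      exact mem_vu m hsc hxc hyc
    · rw [← Gen.mem_cl0, ← hvw]
      exact mem_vw hsc hxc
  obtain ⟨s₁, x₁, y₁, g₁, a₁, b₁⟩ := key (Equiv.refl _)
  obtain ⟨s₂, x₂, y₂, g₂, a₂, b₂⟩ := key (Equiv.swap 1 2)
  obtain ⟨s₃, x₃, y₃, g₃, a₃, b₃⟩ := key ((Equiv.swap 0 1).trans (Equiv.swap 0 2))
  have k0 : Equiv.swap (1 : Fin 4) 2 0 = 0 := by decide
  have k1 : Equiv.swap (1 : Fin 4) 2 1 = 2 := by decide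
  have l0 : ((Equiv.swap (0 : Fin 4) 1).trans (Equiv.swap 0 2)) 0 = 1 := by decide
  have l1 : ((Equiv.swap (0 : Fin 4) 1).trans (Equiv.swap 0 2)) 1 = 2 := by decide
  simp only [Equiv.refl_apply] at b₁
  rw [k0, k1] at b₂
  rw [l0, l1] at b₃
  have h2 := pair_good (f := f) (j := hU.fromSpec) (hj := chart_hj f hU) m m0 m1 hs htop g₂ a₂ b₂
    R hR hR2 i
  obtain ⟨κ, hκ⟩ := exists_val h2
  have hκ' := val_eq (q := q) m0 m1 g₂ g₃ a₂ a₃ (hψinj.ne (by decide)) (hψinj.ne (by decide))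
    b₂ b₃ i hκ
  have h0 := hκ.sub_zero_of hκ'
  rw [add_sub_add_right_eq_sub] at h0
  have hinj' : Function.Injective ((ψ 0).comp i) := (ψ 0).toRingHom.injective.comp hi
  have hC : ∀ y : N, ∃ q : Γ(S, U)[X], q ≠ 0 ∧ q.eval₂ ((ψ 0).comp i).toRingHom y = 0 := by
    intro y
    rw [hψ0]
    exact exists_poly_of_algebraic i.toRingHom hi hfrac φ.toRingHom y (hNK y)
  have h1 := single_good (f := f) (j := hU.fromSpec) (hj := chart_hj f hU) m m0 m1 hs htop g₁ a₁ b₁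
    R hR hR2 i hinj' hC h0
  have h5 := global_of_good f hU 1 R hR _ hinj' hC h1 a b
  rwa [one_smul] at h5

/-- A power of two kills the zero-cycles of degree zero only if they vanish. -/
theorem one_of_half {S : Scheme.{0}} [IsIntegral S] (f : S ⟶ Spec (.of ℂ)) [IsProper f] (k : ℕ)
    (h0 : ∀ a b : closedPoints S, ((2 : ℤ) ^ k) •
      (Finsupp.single a (1 : ℤ) - Finsupp.single b 1) ∈ Rat f)
    (h : ∀ R : AddSubgroup (ZeroCycle S), Rat f ≤ R → (∀ a b : closedPoints S, (2 : ℤ) •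
        (Finsupp.single a (1 : ℤ) - Finsupp.single b 1) ∈ R) →
      ∀ a b : closedPoints S, Finsupp.single a (1 : ℤ) - Finsupp.single b 1 ∈ R) :
    ∀ a b : closedPoints S, Finsupp.single a (1 : ℤ) - Finsupp.single b 1 ∈ Rat f := by
  induction k with
  | zero =>
    intro x y
    have h1 := h0 x y
    rwa [pow_zero, one_smul] at h1
  | succ k ih =>
    apply ih
    intro x y
    let R : AddSubgroup (ZeroCycle S) :=
      (Rat f).comap (DistribSMul.toAddMonoidHom (ZeroCycle S) ((2 : ℤ) ^ k))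
    have hR : ∀ z, z ∈ R ↔ ((2 : ℤ) ^ k) • z ∈ Rat f := fun z => Iff.rfl
    have h1 : Rat f ≤ R := fun z hz => (hR z).2 (AddSubgroup.zsmul_mem _ hz _)
    exact (hR _).1 (h R h1 (fun x y => (hR _).2 (by
      rw [smul_smul, ← pow_succ]
      exact h0 x y)) x y)

/-- **From `32` to `1`.** -/
theorem four_one (m : Fin 11 → ℂ) (m0 : m 0 ≠ 0) (m1 : m 1 ≠ 0) (hm : NonDeg m)
    {K : Type} [Field K] [Algebra ℂ K] {u w p q : K}
    (hs : OnSurf (fun i => algebraMap ℂ K (m i)) u w p q) (hind : AlgebraicIndependent ℂ ![u, w])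
    (htop : IntermediateField.adjoin ℂ {u, w, p, q} = ⊤)
    {S : Scheme.{0}} [IsIntegral S] (f : S ⟶ Spec (.of ℂ)) [IsProper f]
    (hS : IsFunctionFieldOf f K)
    (h32 : ∀ x y : ClosedPt S, (32 : ℤ) • (Finsupp.single x (1 : ℤ) - Finsupp.single y 1) ∈ Rat f)
    (x y : ClosedPt S) : RatEquiv f x y :=
  one_of_half f 5 (fun a b => by
    have h1 := h32 a b
    norm_num
    exact h1) (fun R hR hR2 a b => four_half m m0 m1 hm hs hind htop f hS R hR hR2 a b) x y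

end Vale.Agent.P297.H160
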