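import Vale.Agent.P297.H160.ThreeFib
import Vale.Agent.P297.H424.G4.Defs
import Vale.Agent.P297.Gen.Clo

/-!
The function field of the surfaces with torsion `ℤ/4` has degree four over `ℂ(u, w)`.
-/

set_option linter.unusedSectionVars false
set_option linter.style.haveILetI false

open IntermediateField Polynomial

namespace Vale.Agent.P297.H160

open Vale.Agent.P297 Vale.Agent.P297.H72 Vale.Agent.P297.H839

/-- `E = u w e₁` -/
noncomputable def kE (m : Fin 11 → ℂ) : ℂ[X][X] :=
  kk (m 0) * C X ^ 2 + (kk (m 1) + kk (m 2) * C X ^ 2 * X + kk (m 3) * C X ^ 2 +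
    kk (m 4) * C X) * X

/-- `e₂` -/
noncomputable def kF (m : Fin 11 → ℂ) : ℂ[X][X] :=
  kk (m 5) + kk (m 6) * X + (kk (m 7) + kk (m 8) * X) * C X

/-- The polynomial of `u w p`. -/
noncomputable def kM (m : Fin 11 → ℂ) : ℂ[X][X][X] :=
  X ^ 4 + C (kk (m 9) * C X * X) * X ^ 3 + C (C X ^ 2 * kF m * X) * X ^ 2 +
    C (-(kk (m 10) * C X ^ 2 * kE m) * X) * X + C (C X ^ 2 * kE m ^ 2 * X)

theorem mon4_coeff {R : Type} [CommRing R] (b c d e : R) :
    (X ^ 4 + C b * X ^ 3 + C c * X ^ 2 + C d * X + C e : R[X]).coeff 3 = b ∧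
    (X ^ 4 + C b * X ^ 3 + C c * X ^ 2 + C d * X + C e : R[X]).coeff 2 = c ∧
    (X ^ 4 + C b * X ^ 3 + C c * X ^ 2 + C d * X + C e : R[X]).coeff 1 = d ∧
    (X ^ 4 + C b * X ^ 3 + C c * X ^ 2 + C d * X + C e : R[X]).coeff 0 = e := by
  refine ⟨?_, ?_, ?_, ?_⟩ <;> simp [coeff_X, coeff_C]

theorem mon4_monic {R : Type} [CommRing R] [Nontrivial R] (b c d e : R) :
    (X ^ 4 + C b * X ^ 3 + C c * X ^ 2 + C d * X + C e : R[X]).Monic ∧
    (X ^ 4 + C b * X ^ 3 + C c * X ^ 2 + C d * X + C e : R[X]).natDegree = 4 := by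
  constructor
  · monicity!
  · compute_degree!

theorem kM_monic (m : Fin 11 → ℂ) : (kM m).Monic := (mon4_monic _ _ _ _).1

theorem kM_natDegree (m : Fin 11 → ℂ) : (kM m).natDegree = 4 := (mon4_monic _ _ _ _).2

/-- The polynomial is irreducible. -/
theorem kM_irreducible (m : Fin 11 → ℂ) (hm : m 0 ≠ 0) : Irreducible (kM m) := by
  have hX : Prime (X : ℂ[X][X]) := Polynomial.prime_X
  refine Polynomial.IsEisensteinAt.irreducible (𝓟 := Ideal.span {(X : ℂ[X][X])}) ⟨?_, ?_, ?_⟩
    ((Ideal.span_singleton_prime hX.ne_zero).2 hX) (kM_monic m).isPrimitive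
    (by rw [kM_natDegree]; norm_num)
  · rw [(kM_monic m).leadingCoeff, Ideal.mem_span_singleton]
    intro h
    exact hX.not_isUnit (isUnit_of_dvd_one h)
  · intro n hn
    rw [kM_natDegree] at hn
    obtain ⟨h3, h2, h1, h0⟩ := mon4_coeff (kk (m 9) * C X * X) (C X ^ 2 * kF m * X)
      (-(kk (m 10) * C X ^ 2 * kE m) * X) (C X ^ 2 * kE m ^ 2 * X)
    rw [Ideal.mem_span_singleton]
    unfold kM
    interval_cases n
    · rw [h0]; exact Dvd.intro_left _ rfl
    · rw [h1]; exact Dvd.intro_left _ rfl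
    · rw [h2]; exact Dvd.intro_left _ rfl
    · rw [h3]; exact Dvd.intro_left _ rfl
  · obtain ⟨-, -, -, h0⟩ := mon4_coeff (kk (m 9) * C X * X) (C X ^ 2 * kF m * X)
      (-(kk (m 10) * C X ^ 2 * kE m) * X) (C X ^ 2 * kE m ^ 2 * X)
    unfold kM
    rw [h0, Ideal.span_singleton_pow, Ideal.mem_span_singleton]
    intro h
    rw [sq, mul_dvd_mul_iff_right hX.ne_zero] at h
    rcases hX.dvd_mul.1 h with h1 | h1
    · have h2 := hX.dvd_of_dvd_pow h1
      rw [X_dvd_iff, coeff_C_zero] at h2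
      exact X_ne_zero h2
    · have h2 := hX.dvd_of_dvd_pow h1
      rw [X_dvd_iff] at h2
      unfold kE at h2
      rw [coeff_add, coeff_mul_X_zero, add_zero, ← C_pow, ← C_mul, coeff_C_zero] at h2
      exact (mul_ne_zero (C_ne_zero.2 hm) (pow_ne_zero 2 X_ne_zero)) h2

section

variable {N : Type} [Field N] [Algebra ℂ N]

theorem ev_kE (m : Fin 11 → ℂ) {u w : N} (hu : u ≠ 0) (hw : w ≠ 0) :
    ev u w (kE m) = u * w * G4.fe1 (fun i => algebraMap ℂ N (m i)) u w := by
  unfold kE G4.fe1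
  simp only [map_add, map_mul, map_pow, ev_kk, ev_CX, ev_X]
  field_simp
  ring

theorem ev_kF (m : Fin 11 → ℂ) (u w : N) :
    ev u w (kF m) = G4.fe2 (fun i => algebraMap ℂ N (m i)) u w := by
  unfold kF G4.fe2
  simp only [map_add, map_mul, ev_kk, ev_CX, ev_X]

/-- the quartic for `p` -/
noncomputable def pq (m : Fin 11 → N) (u w x : N) : N :=
  w * x ^ 4 + m 9 * w * x ^ 3 + G4.fe2 m u w * x ^ 2 - m 10 * G4.fe1 m u w * x +
    G4.fe1 m u w ^ 2

theorem eval_kM (m : Fin 11 → ℂ) {u w : N} (hu : u ≠ 0) (hw : w ≠ 0) (x : N) :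
    ((kM m).map (ev u w : ℂ[X][X] →+* N)).eval (u * w * x) =
      u ^ 4 * w ^ 3 * pq (fun i => algebraMap ℂ N (m i)) u w x := by
  unfold kM pq
  simp only [Polynomial.map_add, Polynomial.map_mul, Polynomial.map_pow, Polynomial.map_neg,
    map_X, map_C, eval_add, eval_mul, eval_pow, eval_X, eval_C, eval_neg, RingHom.coe_coe, map_mul,
    map_pow, map_neg, ev_kk, ev_CX, ev_X, ev_kF, ev_kE m hu hw]
  ring

theorem pq_of_surf (m : Fin 11 → N) {u w p q : N} (hp : p ≠ 0) (h : G4.OnSurf m u w p q) :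
    pq m u w p = 0 := by
  obtain ⟨h1, h2⟩ := h
  have h3 : q = -G4.fe1 m u w / p := by
    field_simp
    linear_combination h1
  rw [h3] at h2
  field_simp at h2
  unfold pq
  linear_combination h2

/-- The elements `e₁`, `u`, `w` are different from zero. -/
theorem e1_ne (m : Fin 11 → ℂ) (hm : m 0 ≠ 0) {u w : N} (hind : AlgebraicIndependent ℂ ![u, w]) :
    u ≠ 0 ∧ w ≠ 0 ∧ G4.fe1 (fun i => algebraMap ℂ N (m i)) u w ≠ 0 := by
  have hu : u ≠ 0 := by
    intro h0
    apply hind.transcendental 0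
    simp [h0, isAlgebraic_zero]
  have hw : w ≠ 0 := by
    intro h0
    apply hind.transcendental 1
    simp [h0, isAlgebraic_zero]
  refine ⟨hu, hw, ?_⟩
  intro h0
  have h1 := ev_kE m hu hw
  rw [h0, mul_zero] at h1
  have h2 := ev_injective hind h1
  have h3 := congrArg (fun f : ℂ[X][X] => f.coeff 0) h2
  unfold kE at h3
  rw [coeff_add, coeff_mul_X_zero, add_zero, ← C_pow, ← C_mul, coeff_C_zero, coeff_zero] at h3
  exact (mul_ne_zero (C_ne_zero.2 hm) (pow_ne_zero 2 X_ne_zero)) h3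

end

section

variable {K : Type} [Field K] [Algebra ℂ K]

theorem finrank_four (m : Fin 11 → ℂ) (hm : m 0 ≠ 0) {u w p q : K}
    (hind : AlgebraicIndependent ℂ ![u, w])
    (htop : IntermediateField.adjoin ℂ {u, w, p, q} = ⊤)
    (hsurf : G4.OnSurf (fun i => algebraMap ℂ K (m i)) u w p q) :
    Module.finrank (IntermediateField.adjoin ℂ ({u, w} : Set K)) K = 4 := by
  obtain ⟨hu, hw, he1⟩ := e1_ne m hm hind
  have hp : p ≠ 0 := by
    rintro rfl
    apply he1
    have h1 := hsurf.1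
    rw [zero_mul, zero_add] at h1
    exact h1
  have hpq := pq_of_surf _ hp hsurf
  obtain ⟨F, hF⟩ : ∃ F, F = IntermediateField.adjoin ℂ ({u, w} : Set K) := ⟨_, rfl⟩
  rw [← hF]
  have huF : u ∈ F := by rw [hF]; exact IntermediateField.subset_adjoin _ _ (by simp)
  have hwF : w ∈ F := by rw [hF]; exact IntermediateField.subset_adjoin _ _ (by simp)
  let φ : ℂ[X][X] →ₐ[ℂ] F := ev (⟨u, huF⟩ : F) ⟨w, hwF⟩
  have hφ : ∀ r, ((φ r : F) : K) = ev u w r := fun r => map_ev F.val ⟨u, huF⟩ ⟨w, hwF⟩ r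
  letI : Algebra ℂ[X][X] F := φ.toRingHom.toAlgebra
  have hinj : Function.Injective φ := by
    rw [injective_iff_map_eq_zero]
    intro r hr
    apply ev_injective hind
    rw [← hφ, hr]
    rfl
  haveI : IsFractionRing ℂ[X][X] F := by
    refine (isLocalization_iff _ _).2 ⟨?_, ?_, ?_⟩
    · intro y
      rw [isUnit_iff_ne_zero]
      intro h0
      exact nonZeroDivisors.coe_ne_zero y (hinj (by rw [map_zero]; exact h0))
    · intro z
      obtain ⟨r, s, hs, hrs⟩ := frac_mem hind (x := (z : K)) (by rw [← hF]; exact z.2)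
      refine ⟨(r, ⟨s, mem_nonZeroDivisors_of_ne_zero hs⟩), ?_⟩
      apply Subtype.ext
      change (z : K) * ((φ s : F) : K) = ((φ r : F) : K)
      rw [hφ, hφ, ← hrs, mul_comm]
    · intro x y hxy
      exact ⟨1, by rw [hinj hxy]⟩
  have hirr : Irreducible ((kM m).map (algebraMap ℂ[X][X] F)) :=
    ((kM_monic m).irreducible_iff_irreducible_map_fraction_map).1 (kM_irreducible m hm)
  have hmon : ((kM m).map (algebraMap ℂ[X][X] F)).Monic := (kM_monic m).map _
  have hroot : aeval (u * w * p) ((kM m).map (algebraMap ℂ[X][X] F)) = 0 := by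
    rw [Polynomial.aeval_def, ← Polynomial.eval_map, Polynomial.map_map]
    have h1 : (algebraMap F K).comp (algebraMap ℂ[X][X] F) = (ev u w : ℂ[X][X] →+* K) :=
      RingHom.ext fun r => hφ r
    rw [h1, eval_kM m hu hw, hpq, mul_zero]
  have hmin : minpoly F (u * w * p) = (kM m).map (algebraMap ℂ[X][X] F) :=
    (minpoly.eq_of_irreducible_of_monic hirr hroot hmon).symm
  have hint : IsIntegral F (u * w * p) := ⟨_, hmon, by
    rw [← Polynomial.aeval_def]
    exact hroot⟩
  have h1 := IntermediateField.adjoin.finrank hint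
  rw [hmin, (kM_monic m).natDegree_map, kM_natDegree] at h1
  have h2 : F⟮u * w * p⟯ = ⊤ := by
    have h3 : (⊤ : IntermediateField ℂ K) ≤ (F⟮u * w * p⟯).restrictScalars ℂ := by
      rw [← htop, IntermediateField.adjoin_le_iff]
      have huw : ∀ z ∈ F, z ∈ (F⟮u * w * p⟯).restrictScalars ℂ := fun z hz =>
        (F⟮u * w * p⟯).algebraMap_mem ⟨z, hz⟩
      have hpm : p ∈ (F⟮u * w * p⟯).restrictScalars ℂ := by
        have h4 : p = (u * w * p) / (u * w) := by field_simp
        have h5 : u * w * p ∈ (F⟮u * w * p⟯).restrictScalars ℂ :=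
          IntermediateField.mem_adjoin_simple_self F _
        have h6 := div_mem h5 (mul_mem (huw u huF) (huw w hwF))
        rwa [← h4] at h6
      rintro z (hz | hz | hz | hz)
      · rw [hz]; exact huw u huF
      · rw [hz]; exact huw w hwF
      · rw [hz]; exact hpm
      · rw [Set.mem_singleton_iff.1 hz]
        have h4 : q = -G4.fe1 (fun i => algebraMap ℂ K (m i)) u w / p := by
          field_simp
          linear_combination hsurf.1
        rw [h4]
        refine div_mem (neg_mem (huw _ ?_)) hpm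
        have h5 : G4.fe1 (fun i => algebraMap ℂ K (m i)) u w = ev u w (kE m) / (u * w) := by
          rw [ev_kE m hu hw]
          field_simp
        rw [h5]
        exact div_mem (ev_mem_of F huF hwF _) (mul_mem huF hwF)
    rw [eq_top_iff]
    intro z _
    exact h3 trivial
  rw [h2] at h1
  rw [← h1]
  exact IntermediateField.finrank_top'.symm

end

end Vale.Agent.P297.H160
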