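import Vale.Agent.P297.H160.FourPair

/-!
From the generic points of the double cover to the embeddings of the function field.
-/

set_option linter.unusedSectionVars false

open IntermediateField Polynomial

namespace Vale.Agent.P297.H160

open Vale.Agent.P297 Vale.Agent.P297.H72 Vale.Agent.P297.H839 Vale.Agent.P297.G4
open Vale.Agent.P297.H600 Vale.Agent.P297.H729

section

variable {N : Type} [Field N] [Algebra ℂ N]

theorem th_theta {θ₁ θ₂ : N} (h2 : θ₂ ≠ 0) (hX : θ₁ + θ₂ ≠ 0) :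
    th1 (θ₁ / θ₂) (-(θ₁ + θ₂)) = θ₁ ∧ th2 (θ₁ / θ₂) (-(θ₁ + θ₂)) = θ₂ := by
  have h3 : th2 (θ₁ / θ₂) (-(θ₁ + θ₂)) = θ₂ := by
    unfold th2
    have h4 : 1 + θ₁ / θ₂ = (θ₁ + θ₂) / θ₂ := by
      field_simp
      ring
    rw [h4]
    field_simp
  refine ⟨?_, h3⟩
  unfold th1
  rw [h3]
  field_simp

theorem vc_theta (m : Fin 11 → ℂ) {θ₁ θ₂ : N} (h2 : θ₂ ≠ 0) (hX : θ₁ + θ₂ ≠ 0) :
    vc m (θ₁ / θ₂) (-(θ₁ + θ₂)) = c1 (am N m) θ₁ θ₂ := by
  obtain ⟨h3, h4⟩ := th_theta h2 hX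
  unfold vc c1
  rw [h3, h4]

theorem vw_theta {θ₁ θ₂ : N} (h1 : θ₁ ≠ 0) (h2 : θ₂ ≠ 0) (hX : θ₁ + θ₂ ≠ 0) :
    vw (θ₁ / θ₂) (-(θ₁ + θ₂)) = θ₁ * θ₂ := by
  unfold vw lv
  rw [lv_theta h1 h2]
  field_simp

theorem vu_swap (m : Fin 11 → ℂ) {s X Y : N} (hs : s ≠ 0) : vu m s⁻¹ X Y = vu m s X Y := by
  unfold vu vG vH vw
  rw [lv_inv hs]

variable {K : Type} [Field K] [Algebra ℂ K]

/-- The embeddings on the line through two of four points. -/
theorem Bset_eq {u w p q : K} {m : Fin 11 → ℂ} {U W θ₁ θ₂ Y : N} (h1 : θ₁ ≠ 0) (h2 : θ₂ ≠ 0)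
    (hW : θ₁ * θ₂ = W) (hX : θ₁ + θ₂ ≠ 0) (hU : vu m (θ₁ / θ₂) (-(θ₁ + θ₂)) Y = U)
    {ψ : Fin 4 → (K →ₐ[ℂ] N)} (hu : ∀ i, ψ i u = U) (hw : ∀ i, ψ i w = W)
    (hcov : ∀ φ : K →ₐ[ℂ] N, φ u = U → φ w = W → ∃ i, φ = ψ i)
    (hinj : Function.Injective fun i => ψ i p) (hp : ∀ i, ψ i p ≠ 0)
    (hpq : ∀ i, ψ i p * ψ i q + fe1 (am N m) U W = 0)
    (hfac : ∀ x, θ₁ * x ^ 2 + c1 (am N m) θ₁ θ₂ * x + fe1 (am N m) U W =
      θ₁ * ((x - ψ 0 p) * (x - ψ 1 p))) :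
    Bset u w p q m (θ₁ / θ₂) (-(θ₁ + θ₂)) Y = {ψ 0, ψ 1} := by
  obtain ⟨ht1, -⟩ := th_theta h2 hX
  have hiff : ∀ i, ψ i q = θ₁ * ψ i p + c1 (am N m) θ₁ θ₂ ↔ i = 0 ∨ i = 1 := by
    intro i
    have h3 : ψ i q = θ₁ * ψ i p + c1 (am N m) θ₁ θ₂ ↔
        θ₁ * ((ψ i p - ψ 0 p) * (ψ i p - ψ 1 p)) = 0 := by
      rw [← hfac]
      constructor
      · intro h4
        have h5 := hpq i
        rw [h4] at h5
        linear_combination h5
      · intro h4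
        apply mul_left_cancel₀ (hp i)
        linear_combination hpq i - h4
    rw [h3, mul_eq_zero, mul_eq_zero, sub_eq_zero, sub_eq_zero]
    constructor
    · rintro (h4 | h4 | h4)
      · exact absurd h4 h1
      · exact Or.inl (hinj h4)
      · exact Or.inr (hinj h4)
    · rintro (rfl | rfl)
      · exact Or.inr (Or.inl rfl)
      · exact Or.inr (Or.inr rfl)
  ext φ
  unfold Bset
  rw [hU, vw_theta h1 h2 hX, hW, ht1, vc_theta m h2 hX, Set.mem_ofPred_eq, Set.mem_insert_iff,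
    Set.mem_singleton_iff]
  constructor
  · rintro ⟨h3, h4, h5⟩
    obtain ⟨i, rfl⟩ := hcov φ h3 h4
    rcases (hiff i).1 h5 with rfl | rfl
    · exact Or.inl rfl
    · exact Or.inr rfl
  · rintro (rfl | rfl)
    · exact ⟨hu 0, hw 0, (hiff 0).2 (Or.inl rfl)⟩
    · exact ⟨hu 1, hw 1, (hiff 1).2 (Or.inr rfl)⟩

/-- The embeddings on the two lines of a singular conic of the pencil. -/
theorem pair_set [IsAlgClosed N] {u w p q : K} {m : Fin 11 → ℂ} (m0 : m 0 ≠ 0) (m1 : m 1 ≠ 0)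
    (hm : NonDeg m) {U W : N} (hUW : AlgebraicIndependent ℂ ![U, W])
    {ψ : Fin 4 → (K →ₐ[ℂ] N)} (hu : ∀ i, ψ i u = U) (hw : ∀ i, ψ i w = W)
    (hcov : ∀ φ : K →ₐ[ℂ] N, φ u = U → φ w = W → ∃ i, φ = ψ i)
    (hinj : Function.Injective fun i => ψ i p) (hp : ∀ i, ψ i p ≠ 0)
    (hsurf : ∀ i, OnSurf (am N m) U W (ψ i p) (ψ i q)) :
    ∃ s X Y : N, Gen m s X Y ∧ vw s X = W ∧ vu m s X Y = U ∧
      Bset u w p q m s X Y = {ψ 0, ψ 1} ∧ Bset u w p q m s⁻¹ X Y = {ψ 2, ψ 3} := by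
  obtain ⟨hU0, hW0, he0⟩ := e1_ne m m0 hUW
  have hroot := fun i => pq_of_surf (am N m) (hp i) (hsurf i)
  have hd : ∀ i j, i ≠ j → ψ i p ≠ ψ j p := fun i j hij h => hij (hinj h)
  have hr' : ∀ i, W * ψ i p ^ 4 + (am N m 9 * W) * ψ i p ^ 3 + fe2 (am N m) U W * ψ i p ^ 2 +
      (-(am N m 10 * fe1 (am N m) U W)) * ψ i p + fe1 (am N m) U W ^ 2 = 0 := by
    intro i
    have h3 := hroot i
    unfold pq at h3
    linear_combination h3
  obtain ⟨v1, v2, v3, v4⟩ := vieta4 (hd 0 1 (by decide)) (hd 0 2 (by decide)) (hd 0 3 (by decide))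
    (hd 1 2 (by decide)) (hd 1 3 (by decide)) (hd 2 3 (by decide)) (hr' 0) (hr' 1) (hr' 2) (hr' 3)
  obtain ⟨θ₁, θ₂, k₁, k₂, h1, h2, hW, hk1, hk2, hk3, hf1, hf2⟩ := rel_of_roots (am N m) hW0 he0
    (hp 0) (hp 1) (hp 2) (hp 3) (mul_left_cancel₀ hW0 (by linear_combination v1))
    v2.symm (by linear_combination v3) v4.symm
  have hne := theta_ne m hm hUW h1 hW hk1 hk2
  have hX := sum_ne m hm hUW h1 hW hk1 hk2 hk3
  obtain ⟨rfl, rfl⟩ := k_eq (am N m) hne hk1 (by rw [hW]; exact hk2)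
  obtain ⟨Y, hgen, hvu⟩ := gen_of_theta m m0 m1 hUW h1 h2 hW hne hX hk3
  have hX' : θ₂ + θ₁ ≠ 0 := by rwa [add_comm]
  have hs0 : θ₁ / θ₂ ≠ 0 := div_ne_zero h1 h2
  have hinv : (θ₁ / θ₂)⁻¹ = θ₂ / θ₁ := inv_div _ _
  refine ⟨θ₁ / θ₂, -(θ₁ + θ₂), Y, hgen, by rw [vw_theta h1 h2 hX, hW], hvu, ?_, ?_⟩
  · exact Bset_eq h1 h2 hW hX hvu hu hw hcov hinj hp (fun i => (hsurf i).1) hf1
  · have hvu' : vu m (θ₂ / θ₁) (-(θ₂ + θ₁)) Y = U := by
      rw [← hinv, add_comm θ₂ θ₁, vu_swap m hs0]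
      exact hvu
    let e : Fin 4 ≃ Fin 4 := Equiv.addRight 2
    have h3 := Bset_eq (K := K) (u := u) (w := w) (p := p) (q := q) (m := m) (U := U) (W := W)
      (ψ := ψ ∘ e) h2 h1 (by rw [mul_comm]; exact hW) hX' hvu' (fun i => hu _) (fun i => hw _)
      (by
        intro φ h4 h5
        obtain ⟨i, hi⟩ := hcov φ h4 h5
        exact ⟨e.symm i, by rw [Function.comp_apply, Equiv.apply_symm_apply]; exact hi⟩)
      (hinj.comp e.injective) (fun i => hp _) (fun i => (hsurf _).1) hf2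
    have he0 : (ψ ∘ e) 0 = ψ 2 := rfl
    have he1 : (ψ ∘ e) 1 = ψ 3 := rfl
    rw [hinv, add_comm θ₁ θ₂, h3, he0, he1]

theorem Bs_of_set {u w p q : K} {m : Fin 11 → ℂ} {s X Y : N} {φ φ' : K →ₐ[ℂ] N}
    (h : Bset u w p q m s X Y = {φ, φ'}) (hne : φ ≠ φ') :
    G4.Bs u w p q m s X Y = Finsupp.single φ 1 + Finsupp.single φ' 1 := by
  unfold G4.Bs
  rw [h]
  exact finsum_mem_pair hne

/-- The sums over the two lines of a singular conic of the pencil. -/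
theorem pair_sum [IsAlgClosed N] {u w p q : K} {m : Fin 11 → ℂ} (m0 : m 0 ≠ 0) (m1 : m 1 ≠ 0)
    (hm : NonDeg m) {U W : N} (hUW : AlgebraicIndependent ℂ ![U, W])
    {ψ : Fin 4 → (K →ₐ[ℂ] N)} (hu : ∀ i, ψ i u = U) (hw : ∀ i, ψ i w = W)
    (hcov : ∀ φ : K →ₐ[ℂ] N, φ u = U → φ w = W → ∃ i, φ = ψ i)
    (hinj : Function.Injective fun i => ψ i p) (hp : ∀ i, ψ i p ≠ 0)
    (hsurf : ∀ i, OnSurf (am N m) U W (ψ i p) (ψ i q)) :
    ∃ s X Y : N, Gen m s X Y ∧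
      G4.Bs u w p q m s X Y = Finsupp.single (ψ 0) 1 + Finsupp.single (ψ 1) 1 ∧
      G4.Bs u w p q m s⁻¹ X Y = Finsupp.single (ψ 2) 1 + Finsupp.single (ψ 3) 1 := by
  obtain ⟨s, x, y, h1, -, -, h2, h3⟩ := pair_set m0 m1 hm hUW hu hw hcov hinj hp hsurf
  have hd : ∀ i j, i ≠ j → ψ i ≠ ψ j := fun i j hij h => hij (hinj (by simp only [h]))
  exact ⟨s, x, y, h1, Bs_of_set h2 (hd 0 1 (by decide)), Bs_of_set h3 (hd 2 3 (by decide))⟩

theorem agree_adjoin {χ φ : K →ₐ[ℂ] N} {S : Set K} (h : ∀ k ∈ S, χ k = φ k) :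
    ∀ k ∈ IntermediateField.adjoin ℂ S, χ k = φ k := by
  intro k hk
  induction hk using IntermediateField.adjoin_induction with
  | mem x hx => exact h x hx
  | algebraMap r => rw [χ.commutes, φ.commutes]
  | add x y _ _ h1 h2 => rw [map_add, map_add, h1, h2]
  | mul x y _ _ h1 h2 => rw [map_mul, map_mul, h1, h2]
  | inv x _ h1 => rw [map_inv₀, map_inv₀, h1]

theorem map_surf {m : Fin 11 → ℂ} {u w p q : K}
    (hs : OnSurf (fun i => algebraMap ℂ K (m i)) u w p q) (χ : K →ₐ[ℂ] N) :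
    OnSurf (am N m) (χ u) (χ w) (χ p) (χ q) := by
  have hc : ∀ i, χ (algebraMap ℂ K (m i)) = am N m i := fun i => χ.commutes _
  have h1 := congrArg χ hs.1
  have h2 := congrArg χ hs.2
  unfold fe1 at h1
  unfold fe2 at h2
  simp only [map_add, map_mul, map_pow, map_div₀, map_zero, hc] at h1 h2
  exact ⟨h1, h2⟩

/-- The four embeddings that agree with a given one on `ℂ(u, w)`. -/
theorem exists_four [IsAlgClosed N] (m : Fin 11 → ℂ) (m0 : m 0 ≠ 0) {u w p q : K}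
    (hs : OnSurf (fun i => algebraMap ℂ K (m i)) u w p q) (hind : AlgebraicIndependent ℂ ![u, w])
    (htop : IntermediateField.adjoin ℂ {u, w, p, q} = ⊤) (φ : K →ₐ[ℂ] N)
    (hUW : AlgebraicIndependent ℂ ![φ u, φ w]) :
    ∃ ψ : Fin 4 → (K →ₐ[ℂ] N), ψ 0 = φ ∧ Function.Injective ψ ∧ (∀ i, ψ i u = φ u) ∧
      (∀ i, ψ i w = φ w) ∧ (∀ χ : K →ₐ[ℂ] N, χ u = φ u → χ w = φ w → ∃ i, χ = ψ i) ∧
      (Function.Injective fun i => ψ i p) ∧ (∀ i, ψ i p ≠ 0) ∧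
      ∀ i, OnSurf (am N m) (φ u) (φ w) (ψ i p) (ψ i q) := by
  obtain ⟨F, hF⟩ : ∃ F, F = IntermediateField.adjoin ℂ ({u, w} : Set K) := ⟨_, rfl⟩
  have huF : u ∈ F := by rw [hF]; exact IntermediateField.subset_adjoin _ _ (by simp)
  have hwF : w ∈ F := by rw [hF]; exact IntermediateField.subset_adjoin _ _ (by simp)
  have hF4 : Module.finrank F K = 4 := by
    rw [hF]
    exact finrank_four m m0 hind htop hs
  obtain ⟨σ₀, hσinj, hσF, hσcov⟩ := Gen.exists_extensions F hF4 (by norm_num) φ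
  obtain ⟨i₀, hi₀⟩ := hσcov φ (fun _ _ => rfl)
  obtain ⟨ψ, hψ⟩ : ∃ ψ : Fin 4 → (K →ₐ[ℂ] N), ψ = σ₀ ∘ Equiv.swap 0 i₀ := ⟨_, rfl⟩
  have hψ0 : ψ 0 = φ := by
    rw [hψ, Function.comp_apply, Equiv.swap_apply_left]
    exact hi₀.symm
  have hψinj : Function.Injective ψ := by
    rw [hψ]
    exact hσinj.comp (Equiv.swap 0 i₀).injective
  have hψF : ∀ i, ∀ k ∈ F, ψ i k = φ k := by
    intro i k hk
    rw [hψ]
    exact hσF _ k hk
  have hu : ∀ i, ψ i u = φ u := fun i => hψF i u huF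
  have hw : ∀ i, ψ i w = φ w := fun i => hψF i w hwF
  have hcov : ∀ χ : K →ₐ[ℂ] N, χ u = φ u → χ w = φ w → ∃ i, χ = ψ i := by
    intro χ h1 h2
    have h3 : ∀ k ∈ F, χ k = φ k := by
      rw [hF]
      refine agree_adjoin ?_
      rintro k (hk | hk)
      · rw [hk]; exact h1
      · rw [Set.mem_singleton_iff.1 hk]; exact h2
    obtain ⟨i, hi⟩ := hσcov χ h3
    refine ⟨Equiv.swap 0 i₀ i, ?_⟩
    have h4 : Equiv.swap 0 i₀ (Equiv.swap 0 i₀ i) = i := Equiv.swap_apply_self _ _ _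
    rw [hψ, Function.comp_apply, h4]
    exact hi
  obtain ⟨-, -, he0⟩ := e1_ne m m0 hUW
  have hsurf : ∀ i, OnSurf (am N m) (φ u) (φ w) (ψ i p) (ψ i q) := by
    intro i
    have h1 := map_surf hs (ψ i)
    rwa [hu i, hw i] at h1
  have hp : ∀ i, ψ i p ≠ 0 := by
    intro i h1
    apply he0
    have h2 := (hsurf i).1
    rw [h1, zero_mul, zero_add] at h2
    exact h2
  refine ⟨ψ, hψ0, hψinj, hu, hw, hcov, ?_, hp, hsurf⟩
  intro i j hij
  have hij' : ψ i p = ψ j p := hij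
  apply hψinj
  apply AlgHom.ext
  intro k
  refine agree_adjoin (S := {u, w, p, q}) ?_ k (by rw [htop]; trivial)
  rintro z (hz | hz | hz | hz)
  · rw [hz, hu, hu]
  · rw [hz, hw, hw]
  · rw [hz]; exact hij'
  · rw [Set.mem_singleton_iff.1 hz]
    apply mul_left_cancel₀ (hp i)
    have h1 := (hsurf i).1
    have h2 := (hsurf j).1
    rw [← hij'] at h2
    linear_combination h1 - h2

/-- **[KS]** -/
theorem kside' [IsAlgClosed N] (m : Fin 11 → ℂ) (m0 : m 0 ≠ 0) (m1 : m 1 ≠ 0)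
    (hm : NonDeg m) {u w p q : K}
    (hs : OnSurf (fun i => algebraMap ℂ K (m i)) u w p q) (hind : AlgebraicIndependent ℂ ![u, w])
    (htop : IntermediateField.adjoin ℂ {u, w, p, q} = ⊤) (φ : K →ₐ[ℂ] N) (t₁ t₂ : N)
    (ht : AlgebraicIndependent ℂ ![φ u, φ w, t₁, t₂])
    (halg : Algebra.IsAlgebraic
      (IntermediateField.adjoin ℂ (Set.range ![φ u, φ w, t₁, t₂])) N)
    (hT : ∀ s X Y : N, Gen m s X Y →
      (8 : ℤ) • (G4.Bs u w p q m s X Y - G4.Bs u w p q m s⁻¹ X Y) ∈ stableRelations K N) :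
    Finsupp.single φ (32 : ℤ) ∈ stableRelations K N := by
  have hUW : AlgebraicIndependent ℂ ![φ u, φ w] := by
    have h := ht.comp ![0, 1] (by
      intro i j hij
      fin_cases i <;> fin_cases j <;> simp_all)
    have h2 : ![φ u, φ w, t₁, t₂] ∘ ![0, 1] = ![φ u, φ w] := by
      funext i
      fin_cases i <;> rfl
    rwa [h2] at h
  obtain ⟨ψ, hψ0, hψinj, hu, hw, hcov, hinj, hp, hsurf⟩ := exists_four m m0 hs hind htop φ hUW
  -- the sum of the four embeddings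
  have hall : ∑ i, Finsupp.single (ψ i) (1 : ℤ) ∈ stableRelations K N := by
    refine stable_of_fixed _ ⟨4, _, ht, rfl⟩ halg _ ?_
    intro g hg
    have hgu : g (φ u) = φ u := hg _ (IntermediateField.subset_adjoin _ _ ⟨0, rfl⟩)
    have hgw : g (φ w) = φ w := hg _ (IntermediateField.subset_adjoin _ _ ⟨1, rfl⟩)
    have h1 : ∀ i, ∃ j, g.toAlgHom.comp (ψ i) = ψ j := by
      intro i
      refine hcov _ ?_ ?_
      · change g (ψ i u) = _
        rw [hu, hgu]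
      · change g (ψ i w) = _
        rw [hw, hgw]
    choose π hπ using h1
    have hπinj : Function.Injective π := by
      intro i j hij
      apply hψinj
      apply AlgHom.ext
      intro k
      have h2 := hπ i
      rw [hij, ← hπ j] at h2
      exact g.injective (DFunLike.congr_fun h2 k)
    rw [map_sum]
    simp only [act_single, hπ]
    exact Function.Bijective.sum_comp (Finite.injective_iff_bijective.1 hπinj)
      (fun i => Finsupp.single (ψ i) (1 : ℤ))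
  have key : ∀ e : Fin 4 ≃ Fin 4, (8 : ℤ) • (Finsupp.single (ψ (e 0)) (1 : ℤ) +
      Finsupp.single (ψ (e 1)) 1 - (Finsupp.single (ψ (e 2)) 1 + Finsupp.single (ψ (e 3)) 1)) ∈
      stableRelations K N := by
    intro e
    obtain ⟨s, x, y, hgen, hB1, hB2⟩ := pair_sum (q := q) m0 m1 hm hUW (ψ := ψ ∘ e)
      (fun i => hu _) (fun i => hw _) (by
        intro χ h4 h5
        obtain ⟨i, hi⟩ := hcov χ h4 h5
        exact ⟨e.symm i, by rw [Function.comp_apply, Equiv.apply_symm_apply]; exact hi⟩)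
      (hinj.comp e.injective) (fun i => hp _) (fun i => hsurf _)
    have h1 := hT s x y hgen
    rw [hB1, hB2] at h1
    exact h1
  have h1 := key (Equiv.refl _)
  have h2 := key (Equiv.swap 1 2)
  have h3 := key (Equiv.swap 1 3)
  have k0 : Equiv.swap (1 : Fin 4) 2 0 = 0 := by decide
  have k1 : Equiv.swap (1 : Fin 4) 2 1 = 2 := by decide
  have k2 : Equiv.swap (1 : Fin 4) 2 2 = 1 := by decide
  have k3 : Equiv.swap (1 : Fin 4) 2 3 = 3 := by decide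
  have l0 : Equiv.swap (1 : Fin 4) 3 0 = 0 := by decide
  have l1 : Equiv.swap (1 : Fin 4) 3 1 = 3 := by decide
  have l2 : Equiv.swap (1 : Fin 4) 3 2 = 2 := by decide
  have l3 : Equiv.swap (1 : Fin 4) 3 3 = 1 := by decide
  simp only [Equiv.refl_apply] at h1
  rw [k0, k1, k2, k3] at h2
  rw [l0, l1, l2, l3] at h3
  rw [Fin.sum_univ_four] at hall
  have h4 := AddSubgroup.zsmul_mem _ hall 8
  have h5 := AddSubgroup.add_mem _ (AddSubgroup.add_mem _ (AddSubgroup.add_mem _ h1 h2) h3) h4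
  have h6 : Finsupp.single φ (32 : ℤ) = (32 : ℤ) • Finsupp.single (ψ 0) (1 : ℤ) := by
    rw [hψ0, Finsupp.smul_single, smul_eq_mul, mul_one]
  rw [h6]
  convert h5 using 1
  module

theorem nonDeg_of {m : Fin 11 → ℂ} (m7 : m 7 ≠ 0) (m9 : m 9 ≠ 0) : NonDeg m :=
  ⟨Or.inl m9, Or.inl m7⟩

/-- **[KS]**, the form used in `G4.stable32` -/
theorem kside [IsAlgClosed N] (m : Fin 11 → ℂ) (m0 : m 0 ≠ 0) (m1 : m 1 ≠ 0)
    (m7 : m 7 ≠ 0) (m9 : m 9 ≠ 0) {u w p q : K}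
    (hs : OnSurf (fun i => algebraMap ℂ K (m i)) u w p q) (hind : AlgebraicIndependent ℂ ![u, w])
    (htop : IntermediateField.adjoin ℂ {u, w, p, q} = ⊤) (φ : K →ₐ[ℂ] N) (t₁ t₂ : N)
    (ht : AlgebraicIndependent ℂ ![φ u, φ w, t₁, t₂])
    (halg : Algebra.IsAlgebraic
      (IntermediateField.adjoin ℂ (Set.range ![φ u, φ w, t₁, t₂])) N)
    (hT : ∀ s X Y : N, Gen m s X Y →
      (8 : ℤ) • (G4.Bs u w p q m s X Y - G4.Bs u w p q m s⁻¹ X Y) ∈ stableRelations K N) :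
    Finsupp.single φ (32 : ℤ) ∈ stableRelations K N :=
  kside' m m0 m1 (nonDeg_of m7 m9) hs hind htop φ t₁ t₂ ht halg hT

end

end Vale.Agent.P297.H160
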