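import Vale.Agent.P297.H160.FourHalf
import Vale.Agent.P297.H424.G4.Main

/-!
Bloch's conjecture for the surfaces with torsion `ℤ/4`.
-/

set_option linter.unusedSectionVars false
set_option linter.style.haveILetI false

open CategoryTheory AlgebraicGeometry IntermediateField Polynomial

namespace Vale.Agent.P297.H160

open Vale.Agent.P297 Vale.Agent.P297.H839 Vale.Agent.P297.G4
open Vale.Agent.P297.H600 Vale.Agent.P297.H729

variable {K : Type} [Field K] [Algebra ℂ K]

/-- **Any two points are rationally equivalent.** -/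
theorem four_integral {m : Fin 11 → ℂ} {D : Fin 5 → Fin 3 → ℂ}
    (hD : ∀ l : ℂ, qI (H160.dq D l) = ID m l 1 ∧ qJ (H160.dq D l) = JD m l 1)
    (hj : ∀ α β : ℂ, (α ≠ 0 ∨ β ≠ 0) →
      C α * qI (H160.dq (fun i j => (C (D i j) : ℂ[X])) X) ^ 3 ≠
        C β * qJ (H160.dq (fun i j => (C (D i j) : ℂ[X])) X) ^ 2)
    (m0 : m 0 ≠ 0) (m1 : m 1 ≠ 0) (hm : NonDeg m) {u w p q : K}
    (hs : OnSurf (fun i => algebraMap ℂ K (m i)) u w p q)
    (hind : AlgebraicIndependent ℂ ![u, w])
    (htop : IntermediateField.adjoin ℂ {u, w, p, q} = ⊤)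
    {S : Scheme.{0}} [IsIntegral S] (f : S ⟶ Spec (.of ℂ)) [IsProper f]
    (hS : IsFunctionFieldOf f K) (x y : ClosedPt S) : RatEquiv f x y := by
  have h32 : Finsupp.single (IsScalarTower.toAlgHom ℂ K (BigField K 2)) (32 : ℤ) ∈
      stableRelations K (BigField K 2) := by
    obtain ⟨h1, h2, h3⟩ := exists_field (Ω := BigField K 2) u w hind
      (alg_top hs hind htop m0) (bigVar K 2) (bigVar_basis K 2)
    refine H160.kside' m m0 m1 hm hs hind htop _ (bigVar K 2 0) (bigVar K 2 1) h1 h2 ?_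
    intro s X Y hg
    exact tside hD hj h3 (G4.Bs u w p q m) (fun g e X Y => act_Bs g u w p q m e X Y) hg
  exact four_one m m0 m1 hm hs hind htop f hS (criterion_big _ 32 h32 f hS) x y

end Vale.Agent.P297.H160
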