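import Vale.Agent.P297.H160.FourAlg
import Vale.Agent.P297.H600.BigOf
import Vale.Agent.P297.H424.G4.Iface

/-!
The pairs of embeddings attached to the generic points of the double cover.
-/

set_option linter.unusedSectionVars false

open IntermediateField Polynomial

namespace Vale.Agent.P297.H160

open Vale.Agent.P297 Vale.Agent.P297.H72 Vale.Agent.P297.H839 Vale.Agent.P297.G4

section

variable {F : Type} [Field F]

/-- The relations between the roots and the coefficients. -/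
theorem vieta4 {a b c d e : F} {p₀ p₁ p₂ p₃ : F} (h01 : p₀ ≠ p₁) (h02 : p₀ ≠ p₂) (h03 : p₀ ≠ p₃)
    (h12 : p₁ ≠ p₂) (h13 : p₁ ≠ p₃) (h23 : p₂ ≠ p₃)
    (h0 : a * p₀ ^ 4 + b * p₀ ^ 3 + c * p₀ ^ 2 + d * p₀ + e = 0)
    (h1 : a * p₁ ^ 4 + b * p₁ ^ 3 + c * p₁ ^ 2 + d * p₁ + e = 0)
    (h2 : a * p₂ ^ 4 + b * p₂ ^ 3 + c * p₂ ^ 2 + d * p₂ + e = 0)
    (h3 : a * p₃ ^ 4 + b * p₃ ^ 3 + c * p₃ ^ 2 + d * p₃ + e = 0) :
    b = -a * (p₀ + p₁ + p₂ + p₃) ∧
    c = a * (p₀ * p₁ + p₀ * p₂ + p₀ * p₃ + p₁ * p₂ + p₁ * p₃ + p₂ * p₃) ∧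
    d = -a * (p₀ * p₁ * p₂ + p₀ * p₁ * p₃ + p₀ * p₂ * p₃ + p₁ * p₂ * p₃) ∧
    e = a * (p₀ * p₁ * p₂ * p₃) := by
  have k01 : a * (p₀ ^ 3 + p₀ ^ 2 * p₁ + p₀ * p₁ ^ 2 + p₁ ^ 3) +
      b * (p₀ ^ 2 + p₀ * p₁ + p₁ ^ 2) + c * (p₀ + p₁) + d = 0 :=
    mul_left_cancel₀ (sub_ne_zero.2 h01) (by linear_combination h0 - h1)
  have k12 : a * (p₁ ^ 3 + p₁ ^ 2 * p₂ + p₁ * p₂ ^ 2 + p₂ ^ 3) +
      b * (p₁ ^ 2 + p₁ * p₂ + p₂ ^ 2) + c * (p₁ + p₂) + d = 0 :=
    mul_left_cancel₀ (sub_ne_zero.2 h12) (by linear_combination h1 - h2)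
  have k13 : a * (p₁ ^ 3 + p₁ ^ 2 * p₃ + p₁ * p₃ ^ 2 + p₃ ^ 3) +
      b * (p₁ ^ 2 + p₁ * p₃ + p₃ ^ 2) + c * (p₁ + p₃) + d = 0 :=
    mul_left_cancel₀ (sub_ne_zero.2 h13) (by linear_combination h1 - h3)
  have l012 : a * (p₀ ^ 2 + p₀ * p₁ + p₀ * p₂ + p₁ ^ 2 + p₁ * p₂ + p₂ ^ 2) +
      b * (p₀ + p₁ + p₂) + c = 0 :=
    mul_left_cancel₀ (sub_ne_zero.2 h02) (by linear_combination k01 - k12)
  have l123 : a * (p₁ ^ 2 + p₁ * p₂ + p₁ * p₃ + p₂ ^ 2 + p₂ * p₃ + p₃ ^ 2) +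
      b * (p₁ + p₂ + p₃) + c = 0 :=
    mul_left_cancel₀ (sub_ne_zero.2 h23) (by linear_combination k12 - k13)
  have m0 : a * (p₀ + p₁ + p₂ + p₃) + b = 0 :=
    mul_left_cancel₀ (sub_ne_zero.2 h03) (by linear_combination l012 - l123)
  have hb : b = -a * (p₀ + p₁ + p₂ + p₃) := by linear_combination m0
  have hc : c = a * (p₀ * p₁ + p₀ * p₂ + p₀ * p₃ + p₁ * p₂ + p₁ * p₃ + p₂ * p₃) := by
    rw [hb] at l012
    linear_combination l012
  have hd : d = -a * (p₀ * p₁ * p₂ + p₀ * p₁ * p₃ + p₀ * p₂ * p₃ + p₁ * p₂ * p₃) := by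
    rw [hb, hc] at k01
    linear_combination k01
  refine ⟨hb, hc, hd, ?_⟩
  rw [hb, hc, hd] at h0
  linear_combination h0

theorem k_eq (m : Fin 11 → F) {θ₁ θ₂ k₁ k₂ : F} (h12 : θ₁ ≠ θ₂) (h1 : k₁ + k₂ = -m 10)
    (h2 : θ₁ * k₂ + θ₂ * k₁ = m 9 * (θ₁ * θ₂)) : k₁ = c1 m θ₁ θ₂ ∧ k₂ = c1 m θ₂ θ₁ := by
  unfold c1
  rw [eq_div_iff (sub_ne_zero.2 h12.symm), eq_div_iff (sub_ne_zero.2 h12)]
  constructor
  · linear_combination h2 - θ₁ * h1
  · linear_combination h2 - θ₂ * h1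

theorem lv_theta {θ₁ θ₂ : F} (h1 : θ₁ ≠ 0) (h2 : θ₂ ≠ 0) :
    (1 + θ₁ / θ₂) ^ 2 / (θ₁ / θ₂) = (θ₁ + θ₂) ^ 2 / (θ₁ * θ₂) := by
  field_simp
  ring

end

section

variable {N : Type} [Field N] [Algebra ℂ N]

theorem am_apply (m : Fin 11 → ℂ) (i : Fin 11) : am N m i = algebraMap ℂ N (m i) := rfl

theorem transc_snd {U W : N} (h : AlgebraicIndependent ℂ ![U, W]) : Transcendental ℂ W :=
  h.transcendental 1

/-- The condition on the parameters that excludes degenerate conics. -/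
def NonDeg (m : Fin 11 → ℂ) : Prop :=
  (m 9 ≠ 0 ∨ m 10 ≠ 0) ∧ (m 7 ≠ 0 ∨ m 8 ≠ 0 ∨ 4 * m 5 ≠ m 10 ^ 2 ∨ 4 * m 6 ≠ m 9 ^ 2)

theorem theta_ne (m : Fin 11 → ℂ) (hm : NonDeg m) {U W θ₁ θ₂ k₁ k₂ : N}
    (h : AlgebraicIndependent ℂ ![U, W]) (h1 : θ₁ ≠ 0) (hW : θ₁ * θ₂ = W)
    (hk1 : k₁ + k₂ = -am N m 10) (hk2 : θ₁ * k₂ + θ₂ * k₁ = am N m 9 * W) : θ₁ ≠ θ₂ := by
  rintro rfl
  have h3 : am N m 9 * θ₁ = -am N m 10 := by
    apply mul_left_cancel₀ h1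
    rw [← hW] at hk2
    linear_combination θ₁ * hk1 - hk2
  by_cases h9 : m 9 = 0
  · have h10 : m 10 ≠ 0 := hm.1.resolve_left (fun h => h h9)
    rw [am_apply, am_apply, h9, map_zero, zero_mul] at h3
    exact (neg_ne_zero.2 ((_root_.map_ne_zero (algebraMap ℂ N)).2 h10)) h3.symm
  · have h4 : θ₁ = algebraMap ℂ N (-m 10 / m 9) := by
      rw [map_div₀, map_neg]
      rw [eq_div_iff ((_root_.map_ne_zero _).2 h9)]
      rw [am_apply, am_apply] at h3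
      linear_combination h3
    apply transc_snd h
    rw [← hW, h4, ← map_mul]
    exact isAlgebraic_algebraMap _

theorem sum_ne (m : Fin 11 → ℂ) (hm : NonDeg m) {U W θ₁ θ₂ k₁ k₂ : N}
    (h : AlgebraicIndependent ℂ ![U, W]) (h1 : θ₁ ≠ 0) (hW : θ₁ * θ₂ = W)
    (hk1 : k₁ + k₂ = -am N m 10) (hk2 : θ₁ * k₂ + θ₂ * k₁ = am N m 9 * W)
    (hk3 : fe2 (am N m) U W - (θ₁ + θ₂) * fe1 (am N m) U W - k₁ * k₂ = 0) : θ₁ + θ₂ ≠ 0 := by
  intro h0
  have hθ : θ₂ = -θ₁ := by linear_combination h0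
  rw [hθ] at hW hk2
  have h3 : k₂ - k₁ = -am N m 9 * θ₁ := by
    apply mul_left_cancel₀ h1
    linear_combination hk2 + am N m 9 * (-hW)
  have h4 : 4 * fe2 (am N m) U W = am N m 10 ^ 2 + am N m 9 ^ 2 * W := by
    linear_combination 4 * hk3 + 4 * fe1 (am N m) U W * h0 + (k₁ + k₂ - am N m 10) * hk1 -
      (k₂ - k₁ - am N m 9 * θ₁) * h3 + am N m 9 ^ 2 * hW
  have h5 : ev U W (4 * kF m - kk (m 10) ^ 2 - kk (m 9) ^ 2 * X) = 0 := by
    simp only [map_sub, map_mul, map_pow, ev_kk, ev_X, ev_kF, map_ofNat]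
    change 4 * fe2 (am N m) U W - am N m 10 ^ 2 - am N m 9 ^ 2 * W = 0
    linear_combination h4
  have h6 := ev_injective h h5
  have hev : ∀ a b : ℂ, 4 * (m 5 + m 6 * b + (m 7 + m 8 * b) * a) - m 10 ^ 2 - m 9 ^ 2 * b = 0 := by
    intro a b
    have h7 := congrArg (ev a b) h6
    simp only [map_sub, map_mul, map_pow, ev_kk, ev_X, ev_kF, map_ofNat, map_zero,
      Algebra.algebraMap_self, RingHom.id_apply] at h7
    exact h7
  have e00 := hev 0 0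
  have e01 := hev 0 1
  have e10 := hev 1 0
  have e11 := hev 1 1
  rcases hm.2 with h7 | h7 | h7 | h7
  · apply h7
    linear_combination e10 / 4 - e00 / 4
  · apply h7
    linear_combination e11 / 4 - e10 / 4 - e01 / 4 + e00 / 4
  · apply h7
    linear_combination e00
  · apply h7
    linear_combination e01 - e00

theorem adj_mem_l (a b : N) : a ∈ IntermediateField.adjoin ℂ {a, b} :=
  IntermediateField.subset_adjoin _ _ (by simp)

theorem adj_mem_r (a b : N) : b ∈ IntermediateField.adjoin ℂ {a, b} :=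
  IntermediateField.subset_adjoin _ _ (by simp)

/-- a root of a quadratic polynomial with coefficients in a field -/
theorem alg_of_quad {M : IntermediateField ℂ N} {a b c x : N} (ha : a ∈ M) (hb : b ∈ M)
    (hc : c ∈ M) (hne : ¬(a = 0 ∧ c = 0)) (h : a * x ^ 2 + b * x + c = 0) : IsAlgebraic M x := by
  have h1 : C a * X ^ 2 + C b * X + C c ≠ (0 : N[X]) := by
    intro h0
    apply hne
    have h2 := congrArg (fun f : N[X] => f.coeff 2) h0
    have h3 := congrArg (fun f : N[X] => f.coeff 0) h0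
    simp [coeff_X, coeff_C] at h2 h3
    exact ⟨h2, h3⟩
  refine Gen.isAlgebraic_of_coeff (p := C a * X ^ 2 + C b * X + C c) ?_ h1 ?_
  · intro n
    rw [coeff_add, coeff_add, coeff_C_mul, coeff_C_mul, coeff_X_pow, coeff_X, coeff_C]
    refine add_mem (add_mem (mul_mem ha ?_) (mul_mem hb ?_)) ?_
    · split_ifs
      · exact one_mem _
      · exact zero_mem _
    · split_ifs
      · exact one_mem _
      · exact zero_mem _
    · split_ifs
      · exact hc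
      · exact zero_mem _
  · simp only [eval_add, eval_mul, eval_C, eval_pow, eval_X]
    exact h

/-- The point `(s, X, Y)` of two slopes. -/
theorem gen_of_theta [IsAlgClosed N] (m : Fin 11 → ℂ) (h0 : m 0 ≠ 0) (h1 : m 1 ≠ 0)
    {U W θ₁ θ₂ : N} (h : AlgebraicIndependent ℂ ![U, W]) (hθ₁ : θ₁ ≠ 0) (hθ₂ : θ₂ ≠ 0)
    (hW : θ₁ * θ₂ = W) (hne : θ₁ ≠ θ₂) (hX : θ₁ + θ₂ ≠ 0)
    (hk3 : fe2 (am N m) U W - (θ₁ + θ₂) * fe1 (am N m) U W -
      c1 (am N m) θ₁ θ₂ * c1 (am N m) θ₂ θ₁ = 0) :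
    ∃ Y, Gen m (θ₁ / θ₂) (-(θ₁ + θ₂)) Y ∧ vu m (θ₁ / θ₂) (-(θ₁ + θ₂)) Y = U := by
  obtain ⟨hU0, hW0, he0⟩ := e1_ne m h0 h
  obtain ⟨s, hs⟩ : ∃ s, s = θ₁ / θ₂ := ⟨_, rfl⟩
  obtain ⟨x, hx⟩ : ∃ x, x = -(θ₁ + θ₂) := ⟨_, rfl⟩
  obtain ⟨l, hl⟩ : ∃ l, l = (θ₁ + θ₂) ^ 2 / (θ₁ * θ₂) := ⟨_, rfl⟩
  have hlv : lv s = l := by rw [hs, hl]; exact lv_theta hθ₁ hθ₂
  have hs0 : s ≠ 0 := by rw [hs]; exact div_ne_zero hθ₁ hθ₂
  have hs1 : 1 + s ≠ 0 := by
    rw [hs]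
    intro h2
    apply hX
    field_simp at h2
    linear_combination h2
  have hx0 : x ≠ 0 := by rw [hx]; exact neg_ne_zero.2 hX
  have hl0 : l ≠ 0 := by rw [hl]; exact div_ne_zero (pow_ne_zero 2 hX) (mul_ne_zero hθ₁ hθ₂)
  have hxl : x ^ 2 = l * W := by
    rw [hx, hl, ← hW]
    field_simp
  have h4l : 4 - l ≠ 0 := by
    intro h2
    apply hne
    have h3 : (θ₁ - θ₂) ^ 2 = 0 := by
      have h5 : (4 - l) * (θ₁ * θ₂) = 4 * (θ₁ * θ₂) - (θ₁ + θ₂) ^ 2 := by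
        rw [hl, sub_mul, div_mul_cancel₀ _ (mul_ne_zero hθ₁ hθ₂)]
      rw [h2, zero_mul] at h5
      linear_combination h5
    exact sub_eq_zero.1 (pow_eq_zero_iff two_ne_zero |>.1 h3)
  have hvw : vw s x = W := by
    unfold vw
    rw [hlv, hxl]
    field_simp
  have hvG : vG m s x = gG (am N m) W x := by
    unfold vG gG
    rw [hvw]
  have hvH : vH m s x = gH (am N m) l x := by
    unfold vH gH
    rw [hlv]
  have hq := eq_u (am N m) hU0 hθ₁ hθ₂ hne hX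
  rw [hW, hk3, mul_zero, ← hx] at hq
  rw [← hW, ← hl, hW] at hq
  -- independence
  have hsM := adj_mem_l s x
  have hxM := adj_mem_r s x
  have hcM : ∀ i, am N m i ∈ IntermediateField.adjoin ℂ {s, x} := fun i =>
    (IntermediateField.adjoin ℂ {s, x}).algebraMap_mem (m i)
  have h4M : (4 : N) ∈ IntermediateField.adjoin ℂ {s, x} := by
    have := (IntermediateField.adjoin ℂ {s, x}).algebraMap_mem 4
    rwa [map_ofNat] at this
  have hlM : l ∈ IntermediateField.adjoin ℂ {s, x} := by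
    rw [← hlv]
    exact div_mem (pow_mem (add_mem (one_mem _) hsM) 2) hsM
  have hWM : W ∈ IntermediateField.adjoin ℂ {s, x} := by
    have h2 : W = x ^ 2 / l := by
      rw [hxl]
      field_simp
    rw [h2]
    exact div_mem (pow_mem hxM 2) hlM
  have hGM : gG (am N m) W x ∈ IntermediateField.adjoin ℂ {s, x} := by
    unfold gG
    exact add_mem (add_mem (hcM _) (mul_mem (hcM _) hWM)) (mul_mem hxM (add_mem (add_mem
      (div_mem (hcM _) hWM) (mul_mem (hcM _) hWM)) (hcM _)))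
  have hHM : gH (am N m) l x ∈ IntermediateField.adjoin ℂ {s, x} := by
    unfold gH fB0 fB1 fB2
    have k : 4 - l ∈ IntermediateField.adjoin ℂ {s, x} := sub_mem h4M hlM
    refine div_mem (add_mem (add_mem ?_ (mul_mem ?_ hxM)) (mul_mem ?_ (pow_mem hxM 2)))
      (mul_mem hlM k)
    · exact sub_mem (mul_mem (mul_mem hlM k) (hcM _)) (mul_mem hlM (pow_mem (hcM _) 2))
    · exact add_mem (mul_mem (mul_mem hlM k) (hcM _)) (mul_mem hlM (mul_mem (hcM _) (hcM _)))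
    · exact sub_mem (mul_mem k (hcM _)) (pow_mem (hcM _) 2)
  have ham1 : am N m 1 ≠ 0 := (_root_.map_ne_zero (algebraMap ℂ N)).2 h1
  have hind : AlgebraicIndependent ℂ ![s, x] := by
    refine H600.indep_of_algebraic h ?_ ?_
    · exact alg_of_quad hGM hHM (mul_mem (hcM 1) hxM)
        (fun h2 => mul_ne_zero ham1 hx0 h2.2) hq.symm
    · exact isAlgebraic_algebraMap (⟨W, hWM⟩ : IntermediateField.adjoin ℂ {s, x})
  -- `G ≠ 0`
  have hxW : AlgebraicIndependent ℂ ![x, W] := by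
    refine H600.indep_of_algebraic hind ?_ ?_
    · have hWM' := adj_mem_r x W
      have hxM' := adj_mem_l x W
      refine alg_of_quad (a := 1) (b := 2 - x ^ 2 / W) (c := 1) (one_mem _) ?_ (one_mem _)
        (fun h2 => one_ne_zero h2.2) ?_
      · have h2 : (2 : N) ∈ IntermediateField.adjoin ℂ {x, W} := by
          have := (IntermediateField.adjoin ℂ {x, W}).algebraMap_mem 2
          rwa [map_ofNat] at this
        exact sub_mem h2 (div_mem (pow_mem hxM' 2) hWM')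
      · rw [hxl, mul_div_cancel_right₀ _ hW0, ← hlv]
        unfold lv
        field_simp
        ring
    · exact isAlgebraic_algebraMap (⟨x, adj_mem_l x W⟩ : IntermediateField.adjoin ℂ {x, W})
  have hG0 : gG (am N m) W x ≠ 0 := by
    intro h2
    have h3 : ev x W (kk (m 7) * X + kk (m 8) * X ^ 2 + C X * (kk (m 0) + kk (m 2) * X ^ 2 +
        kk (m 3) * X)) = 0 := by
      simp only [map_add, map_mul, map_pow, ev_kk, ev_X, ev_CX]
      change am N m 7 * W + am N m 8 * W ^ 2 + x * (am N m 0 + am N m 2 * W ^ 2 +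
        am N m 3 * W) = 0
      have h5 : W * gG (am N m) W x = am N m 7 * W + am N m 8 * W ^ 2 +
          x * (am N m 0 + am N m 2 * W ^ 2 + am N m 3 * W) := by
        unfold gG
        field_simp
      rw [← h5, h2, mul_zero]
    have h4 := ev_injective hxW h3
    have h5 := congrArg (fun f : ℂ[X][X] => (f.coeff 0).coeff 1) h4
    unfold kk at h5
    simp only [coeff_add, mul_coeff_zero, coeff_X_zero, coeff_C_zero, mul_zero, zero_add, add_zero,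
      coeff_X_pow, coeff_zero, OfNat.zero_ne_ofNat, if_false, coeff_X_mul] at h5
    exact h0 h5
  refine ⟨l * (4 - l) * (2 * gG (am N m) W x * U + gH (am N m) l x), ?_, ?_⟩
  · rw [← hs, ← hx]
    refine ⟨hind, ?_⟩
    rw [hlv, disc_u (am N m) hl0 hW0 hxl h4l]
    linear_combination (-(l * (4 - l)) ^ 2 * 4 * gG (am N m) W x) * hq
  · rw [← hs, ← hx]
    haveI : CharZero N := charZero_of_injective_algebraMap (algebraMap ℂ N).injective
    unfold vu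
    rw [hvG, hvH, hlv]
    field_simp
    ring

end

end Vale.Agent.P297.H160
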