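import Vale.Agent.P297.H160.FourHalf
import Vale.Agent.P297.H160.Rat4

/-!
Surfaces with torsion `ℤ/4`, the case `β = γ = 0`: two of the three singular conics of the pencil
are double, and the double cover attached to them is rational.
-/

set_option linter.unusedSectionVars false
set_option linter.style.haveILetI false

open CategoryTheory AlgebraicGeometry IntermediateField Polynomial

namespace Vale.Agent.P297.H160

open Vale.Agent.P297 Vale.Agent.P297.H72 Vale.Agent.P297.H839 Vale.Agent.P297.G4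
open Vale.Agent.P297.H600 Vale.Agent.P297.H729 Vale.Agent.P297.H109

/-- `(c₀ + c₁ z + c₂ z²) (d₀ + d₁ z + d₂ z²) = 2 a₁ + b₃ z + 2 a₄ z² + b₄ z³ + 2 a₃ z⁴` -/
structure Split (m : Fin 11 → ℂ) (c d : Fin 3 → ℂ) : Prop where
  e0 : c 0 * d 0 = 2 * m 0
  e1 : c 0 * d 1 + c 1 * d 0 = m 7
  e2 : c 0 * d 2 + c 1 * d 1 + c 2 * d 0 = 2 * m 3
  e3 : c 1 * d 2 + c 2 * d 1 = m 8
  e4 : c 2 * d 2 = 2 * m 2

/-- the three coefficients of `P₂ x² + Q x + 2 a₂ P₁` as a polynomial in `z` -/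
noncomputable def gR (m : Fin 11 → ℂ) (c d : Fin 3 → ℂ) (q : ℂ) (i : Fin 3) : ℂ[X] :=
  C (d i) * X ^ 2 + C q * X + C (2 * m 1 * c i)

/-- its discriminant in `z` -/
noncomputable def gD (m : Fin 11 → ℂ) (c d : Fin 3 → ℂ) : ℂ[X] :=
  gR m c d (2 * m 4) 1 ^ 2 - 4 * gR m c d (m 6) 2 * gR m c d (m 5) 0

section

variable {N : Type} [Field N] [Algebra ℂ N]

/-- the quadratic polynomial with coefficients `c` -/
def q3 (c : Fin 3 → ℂ) (z : N) : N :=
  algebraMap ℂ N (c 0) + algebraMap ℂ N (c 1) * z + algebraMap ℂ N (c 2) * z ^ 2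

theorem split_mul {m : Fin 11 → ℂ} {c d : Fin 3 → ℂ} (h : Split m c d) (z : N) :
    q3 c z * q3 d z = 2 * am N m 0 + am N m 7 * z + 2 * am N m 3 * z ^ 2 + am N m 8 * z ^ 3 +
      2 * am N m 2 * z ^ 4 := by
  have k0 := congrArg (algebraMap ℂ N) h.e0
  have k1 := congrArg (algebraMap ℂ N) h.e1
  have k2 := congrArg (algebraMap ℂ N) h.e2
  have k3 := congrArg (algebraMap ℂ N) h.e3
  have k4 := congrArg (algebraMap ℂ N) h.e4
  simp only [map_add, map_mul, map_ofNat] at k0 k1 k2 k3 k4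
  simp only [am_apply]
  unfold q3
  linear_combination k0 + z * k1 + z ^ 2 * k2 + z ^ 3 * k3 + z ^ 4 * k4

theorem q3_ne {c : Fin 3 → ℂ} (hc : c 0 ≠ 0) {z : N} (hz : Transcendental ℂ z) : q3 c z ≠ 0 := by
  intro h0
  apply hz
  refine ⟨C (c 0) + C (c 1) * X + C (c 2) * X ^ 2, ?_, ?_⟩
  · intro h1
    have h2 := congrArg (fun f : ℂ[X] => f.coeff 0) h1
    simp at h2
    exact hc h2
  · rw [← h0]
    unfold q3
    simp only [map_add, map_mul, map_pow, aeval_C, aeval_X]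

/-- the equation of the double cover in the new coordinates -/
theorem alpha_eq {m : Fin 11 → ℂ} {c d : Fin 3 → ℂ} (h : Split m c d) {U z α x y : N}
    (hU : U ≠ 0) (hz : z ≠ 0) (hα : α ^ 2 = -(fe2 (am N m) U (z ^ 2) + 2 * z * fe1 (am N m) U (z ^ 2)))
    (hx : x = q3 c z * U / z) (hy : y = q3 c z * U * α / z) :
    y ^ 2 = aeval x (-X * gR m c d (m 6) 2) * z ^ 2 + aeval x (-X * gR m c d (2 * m 4) 1) * z +
      aeval x (-X * gR m c d (m 5) 0) := by
  have h1 : z * U * (fe2 (am N m) U (z ^ 2) + 2 * z * fe1 (am N m) U (z ^ 2)) =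
      (2 * am N m 0 + am N m 7 * z + 2 * am N m 3 * z ^ 2 + am N m 8 * z ^ 3 +
        2 * am N m 2 * z ^ 4) * U ^ 2 +
      z * (am N m 5 + 2 * am N m 4 * z + am N m 6 * z ^ 2) * U + 2 * am N m 1 * z ^ 2 := by
    unfold fe1 fe2
    field_simp
    ring
  rw [← split_mul h z] at h1
  have h2 : y ^ 2 = -(q3 c z ^ 2 * U) / z ^ 3 * (z * U * (fe2 (am N m) U (z ^ 2) +
      2 * z * fe1 (am N m) U (z ^ 2))) := by
    rw [hy, div_pow, mul_pow, mul_pow, hα]
    field_simp
  rw [h2, h1, hx]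
  unfold gR
  simp only [map_neg, map_add, map_mul, map_pow, aeval_C, aeval_X, map_ofNat, am_apply]
  generalize hP : q3 c z = P
  unfold q3 at hP ⊢
  field_simp
  rw [← hP]
  ring

/-- The double cover in the new coordinates: generators of the field. -/
theorem alpha_adjoin {m : Fin 11 → ℂ} {c d : Fin 3 → ℂ} (h : Split m c d) (m0 : m 0 ≠ 0)
    {U z α x y : N} (hU : U ≠ 0) (hz : Transcendental ℂ z) (hx : x = q3 c z * U / z)
    (hy : y = q3 c z * U * α / z) (M : IntermediateField ℂ N) (hM : z ∈ M) :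
    (U ∈ M ∧ α ∈ M) ↔ (x ∈ M ∧ y ∈ M) := by
  have hc : c 0 ≠ 0 := fun h0 => by
    have h1 := h.e0
    rw [h0, zero_mul] at h1
    exact (mul_ne_zero two_ne_zero m0) h1.symm
  have hq := q3_ne hc hz
  have hz0 : z ≠ 0 := by
    rintro rfl
    exact hz isAlgebraic_zero
  have hqM : q3 c z ∈ M := by
    unfold q3
    exact add_mem (add_mem (M.algebraMap_mem _) (mul_mem (M.algebraMap_mem _) hM))
      (mul_mem (M.algebraMap_mem _) (pow_mem hM 2))
  constructor
  · rintro ⟨h1, h2⟩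
    rw [hx, hy]
    exact ⟨div_mem (mul_mem hqM h1) hM, div_mem (mul_mem (mul_mem hqM h1) h2) hM⟩
  · rintro ⟨h1, h2⟩
    have h3 : U = x * z / q3 c z := by
      rw [hx]
      field_simp
    have h4 : U ∈ M := by
      rw [h3]
      exact div_mem (mul_mem h1 hM) hqM
    refine ⟨h4, ?_⟩
    have h5 : α = y * z / (q3 c z * U) := by
      rw [hy]
      field_simp
    rw [h5]
    exact div_mem (mul_mem h2 hM) (mul_mem hqM h4)

theorem gD_disc {m : Fin 11 → ℂ} {c d : Fin 3 → ℂ} (h : gD m c d ≠ 0) :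
    (-X * gR m c d (2 * m 4) 1) ^ 2 - 4 * (-X * gR m c d (m 6) 2) * (-X * gR m c d (m 5) 0) ≠ 0 := by
  have h1 : (-X * gR m c d (2 * m 4) 1) ^ 2 -
      4 * (-X * gR m c d (m 6) 2) * (-X * gR m c d (m 5) 0) = X ^ 2 * gD m c d := by
    unfold gD
    ring
  rw [h1]
  exact mul_ne_zero (pow_ne_zero 2 X_ne_zero) h

/-- **The field `ℂ(u, z, α, t₁, t₂)` is purely transcendental.** -/
theorem alpha_rational {m : Fin 11 → ℂ} {c d : Fin 3 → ℂ} (h : Split m c d) (m0 : m 0 ≠ 0)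
    (hD : gD m c d ≠ 0) {U W z α t₁ t₂ : N} (hW : z ^ 2 = W)
    (hind : AlgebraicIndependent ℂ ![U, W, t₁, t₂])
    (hα : α ^ 2 = -(fe2 (am N m) U W + 2 * z * fe1 (am N m) U W)) :
    IsRational (IntermediateField.adjoin ℂ {U, z, α, t₁, t₂}) := by
  subst hW
  have hU : Transcendental ℂ U := hind.transcendental 0
  have hW : Transcendental ℂ (z ^ 2) := hind.transcendental 1
  have hU0 : U ≠ 0 := by
    rintro rfl
    exact hU isAlgebraic_zero
  have hz : Transcendental ℂ z := fun h0 => hW (h0.pow 2)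
  have hz0 : z ≠ 0 := by
    rintro rfl
    exact hz isAlgebraic_zero
  obtain ⟨x, hx⟩ : ∃ x, x = q3 c z * U / z := ⟨_, rfl⟩
  obtain ⟨y, hy⟩ : ∃ y, y = q3 c z * U * α / z := ⟨_, rfl⟩
  have hyx := alpha_eq h hU0 hz0 hα hx hy
  have hc : c 0 ≠ 0 := fun h0 => by
    have h1 := h.e0
    rw [h0, zero_mul] at h1
    exact (mul_ne_zero two_ne_zero m0) h1.symm
  have hq := q3_ne hc hz
  have hind' : AlgebraicIndependent ℂ ![x, z, t₁, t₂] := by
    refine H839.indep_of_algebraic hind ?_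
    obtain ⟨M, hM⟩ : ∃ M, M = IntermediateField.adjoin ℂ (Set.range ![x, z, t₁, t₂]) := ⟨_, rfl⟩
    rw [← hM]
    have hxM : x ∈ M := by rw [hM]; exact IntermediateField.subset_adjoin _ _ ⟨0, rfl⟩
    have hzM : z ∈ M := by rw [hM]; exact IntermediateField.subset_adjoin _ _ ⟨1, rfl⟩
    have h1M : t₁ ∈ M := by rw [hM]; exact IntermediateField.subset_adjoin _ _ ⟨2, rfl⟩
    have h2M : t₂ ∈ M := by rw [hM]; exact IntermediateField.subset_adjoin _ _ ⟨3, rfl⟩
    have hqM : q3 c z ∈ M := by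
      unfold q3
      exact add_mem (add_mem (M.algebraMap_mem _) (mul_mem (M.algebraMap_mem _) hzM))
        (mul_mem (M.algebraMap_mem _) (pow_mem hzM 2))
    intro i
    fin_cases i
    · refine isAlgebraic_mem _ _ ?_
      have h3 : U = x * z / q3 c z := by
        rw [hx]
        field_simp
      change U ∈ M
      rw [h3]
      exact div_mem (mul_mem hxM hzM) hqM
    · exact isAlgebraic_mem _ _ (pow_mem hzM 2)
    · exact isAlgebraic_mem _ _ h1M
    · exact isAlgebraic_mem _ _ h2M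
  have h1 := quad_rational _ _ _ (gD_disc hD) hind' hyx
  have h2 : IntermediateField.adjoin ℂ {z, x, y, t₁, t₂} =
      IntermediateField.adjoin ℂ {U, z, α, t₁, t₂} := by
    apply le_antisymm
    · obtain ⟨M, hM⟩ : ∃ M, M = IntermediateField.adjoin ℂ {U, z, α, t₁, t₂} := ⟨_, rfl⟩
      have hs : ∀ a ∈ ({U, z, α, t₁, t₂} : Set N), a ∈ M := fun a ha => by
        rw [hM]; exact IntermediateField.subset_adjoin _ _ ha
      rw [← hM, IntermediateField.adjoin_le_iff]
      have h3 := (alpha_adjoin h m0 hU0 hz hx hy M (hs z (by simp))).1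
        ⟨hs U (by simp), hs α (by simp)⟩
      rintro a (ha | ha | ha | ha | ha)
      · rw [ha]; exact hs z (by simp)
      · rw [ha]; exact h3.1
      · rw [ha]; exact h3.2
      · rw [ha]; exact hs t₁ (by simp)
      · rw [Set.mem_singleton_iff.1 ha]; exact hs t₂ (by simp)
    · obtain ⟨M, hM⟩ : ∃ M, M = IntermediateField.adjoin ℂ {z, x, y, t₁, t₂} := ⟨_, rfl⟩
      have hs : ∀ a ∈ ({z, x, y, t₁, t₂} : Set N), a ∈ M := fun a ha => by
        rw [hM]; exact IntermediateField.subset_adjoin _ _ ha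
      rw [← hM, IntermediateField.adjoin_le_iff]
      have h3 := (alpha_adjoin h m0 hU0 hz hx hy M (hs z (by simp))).2
        ⟨hs x (by simp), hs y (by simp)⟩
      rintro a (ha | ha | ha | ha | ha)
      · rw [ha]; exact h3.1
      · rw [ha]; exact hs z (by simp)
      · rw [ha]; exact h3.2
      · rw [ha]; exact hs t₁ (by simp)
      · rw [Set.mem_singleton_iff.1 ha]; exact hs t₂ (by simp)
  rwa [h2] at h1

/-- the same without the additional variables -/
theorem alpha_pair {m : Fin 11 → ℂ} {c d : Fin 3 → ℂ} (h : Split m c d) (m0 : m 0 ≠ 0)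
    (hD : gD m c d ≠ 0) {U W z α : N} (hW : z ^ 2 = W) (hind : AlgebraicIndependent ℂ ![U, W])
    (hα : α ^ 2 = -(fe2 (am N m) U W + 2 * z * fe1 (am N m) U W)) :
    ∃ a b : N, AlgebraicIndependent ℂ ![a, b] ∧
      IntermediateField.adjoin ℂ {U, z, α} = IntermediateField.adjoin ℂ (Set.range ![a, b]) := by
  subst hW
  have hU : Transcendental ℂ U := hind.transcendental 0
  have hW : Transcendental ℂ (z ^ 2) := hind.transcendental 1
  have hU0 : U ≠ 0 := by
    rintro rfl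
    exact hU isAlgebraic_zero
  have hz : Transcendental ℂ z := fun h0 => hW (h0.pow 2)
  have hz0 : z ≠ 0 := by
    rintro rfl
    exact hz isAlgebraic_zero
  obtain ⟨x, hx⟩ : ∃ x, x = q3 c z * U / z := ⟨_, rfl⟩
  obtain ⟨y, hy⟩ : ∃ y, y = q3 c z * U * α / z := ⟨_, rfl⟩
  have hyx := alpha_eq h hU0 hz0 hα hx hy
  have hc : c 0 ≠ 0 := fun h0 => by
    have h1 := h.e0
    rw [h0, zero_mul] at h1
    exact (mul_ne_zero two_ne_zero m0) h1.symm
  have hq := q3_ne hc hz
  have hind' : AlgebraicIndependent ℂ ![x, z] := by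
    refine H839.indep_of_algebraic hind ?_
    obtain ⟨M, hM⟩ : ∃ M, M = IntermediateField.adjoin ℂ (Set.range ![x, z]) := ⟨_, rfl⟩
    rw [← hM]
    have hxM : x ∈ M := by rw [hM]; exact IntermediateField.subset_adjoin _ _ ⟨0, rfl⟩
    have hzM : z ∈ M := by rw [hM]; exact IntermediateField.subset_adjoin _ _ ⟨1, rfl⟩
    have hqM : q3 c z ∈ M := by
      unfold q3
      exact add_mem (add_mem (M.algebraMap_mem _) (mul_mem (M.algebraMap_mem _) hzM))
        (mul_mem (M.algebraMap_mem _) (pow_mem hzM 2))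
    intro i
    fin_cases i
    · refine isAlgebraic_mem _ _ ?_
      have h3 : U = x * z / q3 c z := by
        rw [hx]
        field_simp
      change U ∈ M
      rw [h3]
      exact div_mem (mul_mem hxM hzM) hqM
    · exact isAlgebraic_mem _ _ (pow_mem hzM 2)
  have hcon : IsConicType (IntermediateField.adjoin ℂ {x, z}) y := by
    have hF : ∀ q : ℂ[X], aeval x q ∈ ℂ⟮x⟯ := fun q =>
      IntermediateField.algebra_adjoin_le_adjoin ℂ {x}
        (Polynomial.aeval_mem_adjoin_singleton ℂ x)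
    refine ⟨x, z, _, _, _, 1, hind', rfl, hF (-X * gR m c d (m 6) 2),
      hF (-X * gR m c d (2 * m 4) 1), hF (-X * gR m c d (m 5) 0), ?_, one_mem _, one_ne_zero, ?_⟩
    · intro h0
      apply hind'.transcendental 0
      refine ⟨_, gD_disc hD, ?_⟩
      change aeval x _ = 0
      rw [← h0]
      simp only [map_sub, map_mul, map_pow, map_ofNat]
    · rw [one_mul, hyx]
  obtain ⟨a, b, hab⟩ := conic_gens hcon
  have hEq : IntermediateField.adjoin ℂ {U, z, α} = IntermediateField.adjoin ℂ (Set.range ![a, b]) := by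
    rw [H600.range_pair, ← hab]
    apply le_antisymm
    · obtain ⟨M, hM⟩ : ∃ M, M = IntermediateField.adjoin ℂ {x, z} ⊔
        IntermediateField.adjoin ℂ {y} := ⟨_, rfl⟩
      have hxM : x ∈ M := by
        rw [hM]
        exact (le_sup_left : IntermediateField.adjoin ℂ {x, z} ≤ _) (adj_mem_l x z)
      have hzM : z ∈ M := by
        rw [hM]
        exact (le_sup_left : IntermediateField.adjoin ℂ {x, z} ≤ _) (adj_mem_r x z)
      have hyM : y ∈ M := by
        rw [hM]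
        exact (le_sup_right : IntermediateField.adjoin ℂ {y} ≤ _)
          (IntermediateField.mem_adjoin_simple_self ℂ _)
      rw [← hM, IntermediateField.adjoin_le_iff]
      have h3 := (alpha_adjoin h m0 hU0 hz hx hy M hzM).2 ⟨hxM, hyM⟩
      rintro a (ha | ha | ha)
      · rw [ha]; exact h3.1
      · rw [ha]; exact hzM
      · rw [Set.mem_singleton_iff.1 ha]; exact h3.2
    · obtain ⟨M, hM⟩ : ∃ M, M = IntermediateField.adjoin ℂ {U, z, α} := ⟨_, rfl⟩
      have hs : ∀ a ∈ ({U, z, α} : Set N), a ∈ M := fun a ha => by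
        rw [hM]; exact IntermediateField.subset_adjoin _ _ ha
      have h3 := (alpha_adjoin h m0 hU0 hz hx hy M (hs z (by simp))).1
        ⟨hs U (by simp), hs α (by simp)⟩
      rw [← hM]
      refine sup_le ?_ ?_
      · rw [IntermediateField.adjoin_le_iff]
        rintro a (ha | ha)
        · rw [ha]; exact h3.1
        · rw [Set.mem_singleton_iff.1 ha]; exact hs z (by simp)
      · rw [IntermediateField.adjoin_le_iff]
        rintro a ha
        rw [Set.mem_singleton_iff.1 ha]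
        exact h3.2
  refine ⟨a, b, ?_, hEq⟩
  refine H839.indep_of_algebraic hind ?_
  rw [← hEq]
  intro i
  fin_cases i
  · exact isAlgebraic_mem _ _ (IntermediateField.subset_adjoin _ _ (by simp))
  · exact isAlgebraic_mem _ _ (pow_mem (IntermediateField.subset_adjoin _ _ (by simp)) 2)

variable {K : Type} [Field K] [Algebra ℂ K]

/-- The four embeddings in the case `β = γ = 0`. -/
theorem exists_four_zero [IsAlgClosed N] (m : Fin 11 → ℂ) (m0 : m 0 ≠ 0) (m9 : m 9 = 0)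
    (m10 : m 10 = 0) {u w p q : K}
    (hs : OnSurf (fun i => algebraMap ℂ K (m i)) u w p q) (hind : AlgebraicIndependent ℂ ![u, w])
    (htop : IntermediateField.adjoin ℂ {u, w, p, q} = ⊤) (φ : K →ₐ[ℂ] N)
    (hUW : AlgebraicIndependent ℂ ![φ u, φ w]) {z : N} (hz : z ^ 2 = φ w) :
    ∃ ψ : Fin 4 → (K →ₐ[ℂ] N), ψ 0 = φ ∧ (∀ i, ψ i u = φ u) ∧
      (∀ i, ψ i w = φ w) ∧ (∀ χ : K →ₐ[ℂ] N, χ u = φ u → χ w = φ w → ∃ i, χ = ψ i) ∧
      (Function.Injective fun i => ψ i p) ∧ (∀ i, ψ i p ≠ 0) ∧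
      (∀ i, OnSurf (am N m) (φ u) (φ w) (ψ i p) (ψ i q)) ∧
      (ψ 1 p = -φ p ∧ ψ 1 q = -φ q) ∧ (ψ 2 p = φ q / z ∧ ψ 2 q = z * φ p) ∧
      (ψ 3 p = -(φ q / z) ∧ ψ 3 q = -(z * φ p)) := by
  obtain ⟨ψ, hψ0, hψinj, hu, hw, hcov, hinj, hp, hsurf⟩ := exists_four m m0 hs hind htop φ hUW
  obtain ⟨-, hW0, he0⟩ := e1_ne m m0 hUW
  have hz0 : z ≠ 0 := by
    rintro rfl
    apply hW0
    rw [← hz]
    ring
  have hs0 := hsurf 0
  rw [hψ0] at hs0
  have hp0 : φ p ≠ 0 := by
    rw [← hψ0]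
    exact hp 0
  have hq0 : φ q ≠ 0 := by
    intro h
    apply he0
    have h1 := hs0.1
    rw [h, mul_zero, zero_add] at h1
    exact h1
  have a9 : am N m 9 = 0 := by rw [am_apply, m9, map_zero]
  have a10 : am N m 10 = 0 := by rw [am_apply, m10, map_zero]
  have key : ∀ x, (φ w) * x ^ 4 + fe2 (am N m) (φ u) (φ w) * x ^ 2 +
      fe1 (am N m) (φ u) (φ w) ^ 2 =
      (φ w) * ((x - φ p) * (x - -φ p) * (x - φ q / z) * (x - -(φ q / z))) := by
    intro x
    have h1 := hs0.1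
    have h2 := hs0.2
    rw [a9, a10] at h2
    have h3 : fe1 (am N m) (φ u) (φ w) = -(φ p * φ q) := by linear_combination h1
    have h4 : fe2 (am N m) (φ u) (φ w) = -(φ w * φ p ^ 2 + φ q ^ 2) := by linear_combination h2
    rw [h3, h4, ← hz]
    field_simp
    ring
  let v : Fin 4 → N := ![φ p, -φ p, φ q / z, -(φ q / z)]
  have hv : ∀ i, ∃ j, ψ i p = v j := by
    intro i
    have h1 := pq_of_surf _ (hp i) (hsurf i)
    unfold pq at h1
    rw [a9, a10] at h1
    have h2 := key (ψ i p)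
    have h3 : φ w * ((ψ i p - φ p) * (ψ i p - -φ p) * (ψ i p - φ q / z) *
        (ψ i p - -(φ q / z))) = 0 := by
      rw [← h2]
      linear_combination h1
    rcases mul_eq_zero.1 h3 with h4 | h4
    · exact absurd h4 hW0
    · rcases mul_eq_zero.1 h4 with h5 | h5
      · rcases mul_eq_zero.1 h5 with h6 | h6
        · rcases mul_eq_zero.1 h6 with h7 | h7
          · exact ⟨0, sub_eq_zero.1 h7⟩
          · exact ⟨1, sub_eq_zero.1 h7⟩
        · exact ⟨2, sub_eq_zero.1 h6⟩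
      · exact ⟨3, sub_eq_zero.1 h5⟩
  choose f hf using hv
  have hfinj : Function.Injective f := by
    intro i j hij
    apply hinj
    change ψ i p = ψ j p
    rw [hf, hf, hij]
  let e : Fin 4 ≃ Fin 4 := Equiv.ofBijective f (Finite.injective_iff_bijective.1 hfinj)
  have he : ∀ j, ψ (e.symm j) p = v j := by
    intro j
    rw [hf]
    congr 1
    exact e.apply_symm_apply j
  have hq : ∀ i, ψ i q = φ p * φ q / ψ i p := by
    intro i
    rw [eq_div_iff (hp i)]
    linear_combination (hsurf i).1 - hs0.1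
  refine ⟨fun j => ψ (e.symm j), ?_, fun i => hu _, fun i => hw _, ?_,
    hinj.comp e.symm.injective, fun i => hp _, fun i => hsurf _, ⟨he 1, ?_⟩, ⟨he 2, ?_⟩,
    ⟨he 3, ?_⟩⟩
  · have h1 : ψ (e.symm 0) p = ψ 0 p := by rw [he 0, hψ0]; rfl
    change ψ (e.symm 0) = φ
    rw [← hψ0]
    congr 1
    exact hinj h1
  · intro χ h1 h2
    obtain ⟨i, hi⟩ := hcov χ h1 h2
    refine ⟨e i, ?_⟩
    change χ = ψ (e.symm (e i))
    rw [Equiv.symm_apply_apply]
    exact hi
  · change ψ (e.symm 1) q = _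
    rw [hq, he 1]
    change φ p * φ q / -φ p = _
    field_simp
  · change ψ (e.symm 2) q = _
    rw [hq, he 2]
    change φ p * φ q / (φ q / z) = _
    field_simp
  · change ψ (e.symm 3) q = _
    rw [hq, he 3]
    change φ p * φ q / -(φ q / z) = _
    field_simp

/-- A pair of embeddings that is characterised by its restriction to a rational field. -/
theorem pair_stable [IsAlgClosed N] {u w p q : K} {z : N} {ψ₁ ψ₂ : K →ₐ[ℂ] N} (hne : ψ₁ ≠ ψ₂)
    (hset : ∀ χ : K →ₐ[ℂ] N, (χ u = ψ₁ u ∧ χ w = ψ₁ w ∧ z * χ p + χ q = z * ψ₁ p + ψ₁ q) ↔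
      (χ = ψ₁ ∨ χ = ψ₂)) (L : IntermediateField ℂ N) (hL : IsRational L)
    (hLa : Algebra.IsAlgebraic L N) (hu : ψ₁ u ∈ L) (hz : z ∈ L) (hw : ψ₁ w ∈ L)
    (hα : z * ψ₁ p + ψ₁ q ∈ L) :
    Finsupp.single ψ₁ (1 : ℤ) + Finsupp.single ψ₂ 1 ∈ stableRelations K N := by
  refine stable_of_fixed L hL hLa _ ?_
  intro g hg
  have h1 : ∀ χ : K →ₐ[ℂ] N, (χ = ψ₁ ∨ χ = ψ₂) → (g.toAlgHom.comp χ = ψ₁ ∨
      g.toAlgHom.comp χ = ψ₂) := by
    intro χ hχ
    obtain ⟨e1, e2, e3⟩ := (hset χ).2 hχ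
    rw [← hset]
    refine ⟨?_, ?_, ?_⟩
    · change g (χ u) = _
      rw [e1]
      exact hg _ hu
    · change g (χ w) = _
      rw [e2]
      exact hg _ hw
    · have h2 : z * g.toAlgHom.comp χ p + g.toAlgHom.comp χ q = g (z * χ p + χ q) := by
        rw [map_add, map_mul, hg z hz]
        rfl
      rw [h2, e3]
      exact hg _ hα
  have hinj : g.toAlgHom.comp ψ₁ ≠ g.toAlgHom.comp ψ₂ := by
    intro h2
    apply hne
    apply AlgHom.ext
    intro k
    exact g.injective (DFunLike.congr_fun h2 k)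
  rw [map_add, act_single, act_single]
  rcases h1 ψ₁ (Or.inl rfl) with h2 | h2
  · rcases h1 ψ₂ (Or.inr rfl) with h3 | h3
    · exact absurd (h2.trans h3.symm) hinj
    · rw [h2, h3]
  · rcases h1 ψ₂ (Or.inr rfl) with h3 | h3
    · rw [h2, h3, add_comm]
    · exact absurd (h2.trans h3.symm) hinj

/-- The sum of the slopes is different from zero. -/
theorem fe2_ne (m : Fin 11 → ℂ) (m9 : m 9 = 0) (m10 : m 10 = 0)
    (hm : m 7 ≠ 0 ∨ m 8 ≠ 0 ∨ 4 * m 5 ≠ m 10 ^ 2 ∨ 4 * m 6 ≠ m 9 ^ 2) {U W : N}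
    (h : AlgebraicIndependent ℂ ![U, W]) : fe2 (am N m) U W ≠ 0 := by
  intro h4
  have h5 : ev U W (kF m) = 0 := by
    rw [ev_kF]
    exact h4
  have h6 := ev_injective h h5
  have hev : ∀ a b : ℂ, m 5 + m 6 * b + (m 7 + m 8 * b) * a = 0 := by
    intro a b
    have h7 := congrArg (ev a b) h6
    rw [ev_kF, map_zero] at h7
    exact h7
  have e00 := hev 0 0
  have e01 := hev 0 1
  have e10 := hev 1 0
  have e11 := hev 1 1
  rw [m9, m10] at hm
  rcases hm with h7 | h7 | h7 | h7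
  · apply h7
    linear_combination e10 - e00
  · apply h7
    linear_combination e11 - e10 - e01 + e00
  · apply h7
    linear_combination 4 * e00
  · apply h7
    linear_combination 4 * e01 - 4 * e00

/-- The non-degenerate pair of lines. -/
theorem pair_set_zero [IsAlgClosed N] {u w p q : K} {m : Fin 11 → ℂ} (m0 : m 0 ≠ 0) (m1 : m 1 ≠ 0)
    (m9 : m 9 = 0) (m10 : m 10 = 0)
    (hm : m 7 ≠ 0 ∨ m 8 ≠ 0 ∨ 4 * m 5 ≠ m 10 ^ 2 ∨ 4 * m 6 ≠ m 9 ^ 2)
    {U W : N} (hUW : AlgebraicIndependent ℂ ![U, W])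
    {ψ : Fin 4 → (K →ₐ[ℂ] N)} (hu : ∀ i, ψ i u = U) (hw : ∀ i, ψ i w = W)
    (hcov : ∀ φ : K →ₐ[ℂ] N, φ u = U → φ w = W → ∃ i, φ = ψ i)
    (hinj : Function.Injective fun i => ψ i p) (hp : ∀ i, ψ i p ≠ 0)
    (hsurf : ∀ i, OnSurf (am N m) U W (ψ i p) (ψ i q)) (h01 : ψ 1 p = -ψ 0 p)
    (h23 : ψ 3 p = -ψ 2 p) :
    ∃ s X Y : N, Gen m s X Y ∧
      Bset u w p q m s X Y = {ψ 0, ψ 1} ∧ Bset u w p q m s⁻¹ X Y = {ψ 2, ψ 3} := by
  obtain ⟨hU0, hW0, he0⟩ := e1_ne m m0 hUW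
  have hroot := fun i => pq_of_surf (am N m) (hp i) (hsurf i)
  have hd : ∀ i j, i ≠ j → ψ i p ≠ ψ j p := fun i j hij h => hij (hinj h)
  have hr' : ∀ i, W * ψ i p ^ 4 + (am N m 9 * W) * ψ i p ^ 3 + fe2 (am N m) U W * ψ i p ^ 2 +
      (-(am N m 10 * fe1 (am N m) U W)) * ψ i p + fe1 (am N m) U W ^ 2 = 0 := by
    intro i
    have h3 := hroot i
    unfold pq at h3
    linear_combination h3
  obtain ⟨v1, v2, v3, v4⟩ := vieta4 (hd 0 1 (by decide)) (hd 0 2 (by decide)) (hd 0 3 (by decide))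
    (hd 1 2 (by decide)) (hd 1 3 (by decide)) (hd 2 3 (by decide)) (hr' 0) (hr' 1) (hr' 2) (hr' 3)
  obtain ⟨θ₁, θ₂, k₁, k₂, h1, h2, hW, hk1, hk2, hk3, hf1, hf2⟩ := rel_of_roots (am N m) hW0 he0
    (hp 0) (hp 1) (hp 2) (hp 3) (mul_left_cancel₀ hW0 (by linear_combination v1))
    v2.symm (by linear_combination v3) v4.symm
  have hne : θ₁ ≠ θ₂ := by
    rintro rfl
    have e1 := hf1 0
    have e2 := hf2 0
    rw [h01] at e1
    rw [h23] at e2
    have e3 : (ψ 0 p - ψ 2 p) * (ψ 0 p - ψ 3 p) = 0 := by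
      apply mul_left_cancel₀ h1
      rw [h23]
      linear_combination e1 - e2
    rcases mul_eq_zero.1 e3 with e4 | e4
    · exact hd 0 2 (by decide) (sub_eq_zero.1 e4)
    · exact hd 0 3 (by decide) (sub_eq_zero.1 e4)
  obtain ⟨rfl, rfl⟩ := k_eq (am N m) hne hk1 (by rw [hW]; exact hk2)
  have hc : c1 (am N m) θ₁ θ₂ = 0 := by
    unfold c1
    rw [am_apply, am_apply, m9, m10, map_zero]
    ring
  have hX : θ₁ + θ₂ ≠ 0 := by
    intro h0
    apply fe2_ne m m9 m10 hm hUW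
    rw [h0, hc] at hk3
    linear_combination hk3
  obtain ⟨Y, hgen, hvu⟩ := gen_of_theta m m0 m1 hUW h1 h2 hW hne hX hk3
  have hX' : θ₂ + θ₁ ≠ 0 := by rwa [add_comm]
  have hs0 : θ₁ / θ₂ ≠ 0 := div_ne_zero h1 h2
  have hinv : (θ₁ / θ₂)⁻¹ = θ₂ / θ₁ := inv_div _ _
  refine ⟨θ₁ / θ₂, -(θ₁ + θ₂), Y, hgen, ?_, ?_⟩
  · exact Bset_eq h1 h2 hW hX hvu hu hw hcov hinj hp (fun i => (hsurf i).1) hf1
  · have hvu' : vu m (θ₂ / θ₁) (-(θ₂ + θ₁)) Y = U := by
      rw [← hinv, add_comm θ₂ θ₁, vu_swap m hs0]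
      exact hvu
    let e : Fin 4 ≃ Fin 4 := Equiv.addRight 2
    have h3 := Bset_eq (K := K) (u := u) (w := w) (p := p) (q := q) (m := m) (U := U) (W := W)
      (ψ := ψ ∘ e) h2 h1 (by rw [mul_comm]; exact hW) hX' hvu' (fun i => hu _) (fun i => hw _)
      (by
        intro φ h4 h5
        obtain ⟨i, hi⟩ := hcov φ h4 h5
        exact ⟨e.symm i, by rw [Function.comp_apply, Equiv.apply_symm_apply]; exact hi⟩)
      (hinj.comp e.injective) (fun i => hp _) (fun i => (hsurf _).1) hf2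
    have he0 : (ψ ∘ e) 0 = ψ 2 := rfl
    have he1 : (ψ ∘ e) 1 = ψ 3 := rfl
    rw [hinv, add_comm θ₁ θ₂, h3, he0, he1]

/-- **[KS]** in the case `β = γ = 0` -/
theorem kside_zero [IsAlgClosed N] (m : Fin 11 → ℂ) (m0 : m 0 ≠ 0) (m1 : m 1 ≠ 0)
    (m9 : m 9 = 0) (m10 : m 10 = 0)
    (hm : m 7 ≠ 0 ∨ m 8 ≠ 0 ∨ 4 * m 5 ≠ m 10 ^ 2 ∨ 4 * m 6 ≠ m 9 ^ 2)
    {c d : Fin 3 → ℂ} (hsp : Split m c d) (hgD : gD m c d ≠ 0) {u w p q : K}
    (hs : OnSurf (fun i => algebraMap ℂ K (m i)) u w p q) (hind : AlgebraicIndependent ℂ ![u, w])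
    (htop : IntermediateField.adjoin ℂ {u, w, p, q} = ⊤) (φ : K →ₐ[ℂ] N) (t₁ t₂ : N)
    (ht : AlgebraicIndependent ℂ ![φ u, φ w, t₁, t₂])
    (halg : Algebra.IsAlgebraic
      (IntermediateField.adjoin ℂ (Set.range ![φ u, φ w, t₁, t₂])) N)
    (hT : ∀ s X Y : N, Gen m s X Y →
      (8 : ℤ) • (G4.Bs u w p q m s X Y - G4.Bs u w p q m s⁻¹ X Y) ∈ stableRelations K N) :
    Finsupp.single φ (32 : ℤ) ∈ stableRelations K N := by
  haveI : CharZero N := charZero_of_injective_algebraMap (algebraMap ℂ N).injective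
  have hUW : AlgebraicIndependent ℂ ![φ u, φ w] := by
    have h := ht.comp ![0, 1] (by
      intro i j hij
      fin_cases i <;> fin_cases j <;> simp_all)
    have h2 : ![φ u, φ w, t₁, t₂] ∘ ![0, 1] = ![φ u, φ w] := by
      funext i
      fin_cases i <;> rfl
    rwa [h2] at h
  obtain ⟨z, hz⟩ := IsAlgClosed.exists_pow_nat_eq (φ w) (n := 2) two_pos
  obtain ⟨ψ, hψ0, hu, hw, hcov, hinj, hp, hsurf, ⟨p1, q1⟩, ⟨p2, q2⟩, ⟨p3, q3⟩⟩ :=
    exists_four_zero m m0 m9 m10 hs hind htop φ hUW hz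
  obtain ⟨-, hW0, he0⟩ := e1_ne m m0 hUW
  have hz0 : z ≠ 0 := by
    rintro rfl
    apply hW0
    rw [← hz]
    ring
  have hd : ∀ i j, i ≠ j → ψ i p ≠ ψ j p := fun i j hij h => hij (hinj h)
  have hψinj : Function.Injective ψ := fun i j hij => hinj (by simp only [hij])
  have p0 : ψ 0 p = φ p := by rw [hψ0]
  have q0 : ψ 0 q = φ q := by rw [hψ0]
  -- the sum of the four embeddings
  have hall : ∑ i, Finsupp.single (ψ i) (1 : ℤ) ∈ stableRelations K N := by
    refine stable_of_fixed _ ⟨4, _, ht, rfl⟩ halg _ ?_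
    intro g hg
    have hgu : g (φ u) = φ u := hg _ (IntermediateField.subset_adjoin _ _ ⟨0, rfl⟩)
    have hgw : g (φ w) = φ w := hg _ (IntermediateField.subset_adjoin _ _ ⟨1, rfl⟩)
    have h1 : ∀ i, ∃ j, g.toAlgHom.comp (ψ i) = ψ j := by
      intro i
      refine hcov _ ?_ ?_
      · change g (ψ i u) = _
        rw [hu, hgu]
      · change g (ψ i w) = _
        rw [hw, hgw]
    choose π hπ using h1
    have hπinj : Function.Injective π := by
      intro i j hij
      apply hψinj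
      apply AlgHom.ext
      intro k
      have h2 := hπ i
      rw [hij, ← hπ j] at h2
      exact g.injective (DFunLike.congr_fun h2 k)
    rw [map_sum]
    simp only [act_single, hπ]
    exact Function.Bijective.sum_comp (Finite.injective_iff_bijective.1 hπinj)
      (fun i => Finsupp.single (ψ i) (1 : ℤ))
  -- the pairs with the same value of `α`
  have hpair : ∀ (ζ : N) (i j : Fin 4), ζ ^ 2 = φ w → i ≠ j →
      (∀ k, ζ * ψ k p + ψ k q = ζ * ψ i p + ψ i q ↔ k = i ∨ k = j) →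
      Finsupp.single (ψ i) (1 : ℤ) + Finsupp.single (ψ j) 1 ∈ stableRelations K N := by
    intro ζ i j hζ hij hk
    have hα : (ζ * ψ i p + ψ i q) ^ 2 = -(fe2 (am N m) (φ u) (φ w) +
        2 * ζ * fe1 (am N m) (φ u) (φ w)) := by
      have h1 := (hsurf i).1
      have h2 := (hsurf i).2
      have a9 : am N m 9 = 0 := by rw [am_apply, m9, map_zero]
      have a10 : am N m 10 = 0 := by rw [am_apply, m10, map_zero]
      rw [a9, a10] at h2
      linear_combination 2 * ζ * h1 + h2 + ψ i p ^ 2 * hζ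
    have hL := alpha_rational hsp m0 hgD hζ ht hα
    have hsub : ∀ a ∈ ({φ u, ζ, ζ * ψ i p + ψ i q, t₁, t₂} : Set N),
        a ∈ IntermediateField.adjoin ℂ {φ u, ζ, ζ * ψ i p + ψ i q, t₁, t₂} :=
      fun a ha => IntermediateField.subset_adjoin _ _ ha
    have hwL : φ w ∈ IntermediateField.adjoin ℂ {φ u, ζ, ζ * ψ i p + ψ i q, t₁, t₂} := by
      rw [← hζ]
      exact pow_mem (hsub ζ (by simp)) 2
    refine pair_stable (u := u) (w := w) (p := p) (q := q) (z := ζ) (hψinj.ne hij) ?_ _ hL ?_ ?_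
      (hsub ζ (by simp)) ?_ (hsub _ (by simp))
    · intro χ
      rw [hu, hw]
      constructor
      · rintro ⟨h1, h2, h3⟩
        obtain ⟨k, rfl⟩ := hcov χ h1 h2
        rcases (hk k).1 h3 with rfl | rfl
        · exact Or.inl rfl
        · exact Or.inr rfl
      · rintro (rfl | rfl)
        · exact ⟨hu _, hw _, rfl⟩
        · exact ⟨hu _, hw _, (hk j).2 (Or.inr rfl)⟩
    · refine isAlgebraic_mono ?_ halg
      rw [IntermediateField.adjoin_le_iff, range_quad]
      rintro a (ha | ha | ha | ha)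
      · rw [ha]; exact hsub _ (by simp)
      · rw [ha]; exact hwL
      · rw [ha]; exact hsub _ (by simp)
      · rw [Set.mem_singleton_iff.1 ha]; exact hsub _ (by simp)
    · rw [hu]; exact hsub _ (by simp)
    · rw [hw]; exact hwL
  have hαne : z * φ p + φ q ≠ 0 := by
    intro h0
    apply hd 0 3 (by decide)
    rw [p0, p3, eq_comm, neg_eq_iff_eq_neg, div_eq_iff hz0]
    linear_combination h0
  have hδne : -z * φ p + φ q ≠ 0 := by
    intro h0
    apply hd 0 2 (by decide)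
    rw [p0, p2, eq_div_iff hz0]
    linear_combination -h0
  have hαne2 : -(z * φ p + φ q) ≠ z * φ p + φ q := by
    intro h
    apply hαne
    have h2 : 2 * (z * φ p + φ q) = 0 := by linear_combination -h
    exact (mul_eq_zero.1 h2).resolve_left two_ne_zero
  have hδne2 : -z * φ p + φ q ≠ -(-z * φ p + φ q) := by
    intro h
    apply hδne
    have h2 : 2 * (-z * φ p + φ q) = 0 := by linear_combination h
    exact (mul_eq_zero.1 h2).resolve_left two_ne_zero
  have v0 : z * ψ 0 p + ψ 0 q = z * φ p + φ q := by rw [p0, q0]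
  have v1 : z * ψ 1 p + ψ 1 q = -(z * φ p + φ q) := by rw [p1, q1]; ring
  have v2 : z * ψ 2 p + ψ 2 q = z * φ p + φ q := by rw [p2, q2]; field_simp; ring
  have v3 : z * ψ 3 p + ψ 3 q = -(z * φ p + φ q) := by rw [p3, q3]; field_simp; ring
  have w0 : -z * ψ 0 p + ψ 0 q = -z * φ p + φ q := by rw [p0, q0]
  have w1 : -z * ψ 1 p + ψ 1 q = -(-z * φ p + φ q) := by rw [p1, q1]; ring
  have w2 : -z * ψ 2 p + ψ 2 q = -(-z * φ p + φ q) := by rw [p2, q2]; field_simp; ring
  have w3 : -z * ψ 3 p + ψ 3 q = -z * φ p + φ q := by rw [p3, q3]; field_simp; ring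
  have s1 := hpair z 0 2 hz (by decide) (by
    intro k
    rw [v0]
    fin_cases k
    · exact ⟨fun _ => Or.inl rfl, fun _ => v0⟩
    · refine ⟨fun h => absurd (v1.symm.trans h) hαne2, fun h => ?_⟩
      rcases h with h | h <;> exact absurd h (by decide)
    · exact ⟨fun _ => Or.inr rfl, fun _ => v2⟩
    · refine ⟨fun h => absurd (v3.symm.trans h) hαne2, fun h => ?_⟩
      rcases h with h | h <;> exact absurd h (by decide))
  have s2 := hpair (-z) 1 2 (by rw [neg_sq, hz]) (by decide) (by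
    intro k
    rw [w1]
    fin_cases k
    · refine ⟨fun h => absurd (w0.symm.trans h) hδne2, fun h => ?_⟩
      rcases h with h | h <;> exact absurd h (by decide)
    · exact ⟨fun _ => Or.inl rfl, fun _ => w1⟩
    · exact ⟨fun _ => Or.inr rfl, fun _ => w2⟩
    · refine ⟨fun h => absurd (w3.symm.trans h) hδne2, fun h => ?_⟩
      rcases h with h | h <;> exact absurd h (by decide))
  obtain ⟨s, x, y, hgen, hB1, hB2⟩ := pair_set_zero (q := q) m0 m1 m9 m10 hm hUW hu hw hcov hinj hp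
    hsurf (by rw [p0, p1]) (by rw [p2, p3])
  have h1 := hT s x y hgen
  rw [Bs_of_set hB1 (hψinj.ne (by decide)), Bs_of_set hB2 (hψinj.ne (by decide))] at h1
  rw [Fin.sum_univ_four] at hall
  have h4 := AddSubgroup.zsmul_mem _ hall 8
  have h5 := AddSubgroup.add_mem _ h1 h4
  have h6 := AddSubgroup.zsmul_mem _ (AddSubgroup.sub_mem _ s1 s2) 16
  have h7 := AddSubgroup.add_mem _ h5 h6
  have h8 : Finsupp.single φ (32 : ℤ) = (32 : ℤ) • Finsupp.single (ψ 0) (1 : ℤ) := by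
    rw [hψ0, Finsupp.smul_single, smul_eq_mul, mul_one]
  rw [h8]
  convert h7 using 1
  module

end

end Vale.Agent.P297.H160
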