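import Vale.Agent.P297.H160.FourZero

/-!
Surfaces with torsion `ℤ/4`, the case `β = γ = 0`: divisibility by two.
-/

set_option linter.unusedSectionVars false
set_option linter.style.haveILetI false

open CategoryTheory AlgebraicGeometry IntermediateField Polynomial

namespace Vale.Agent.P297.H160

open Vale.Agent.P297 Vale.Agent.P297.H72 Vale.Agent.P297.H839 Vale.Agent.P297.G4
open Vale.Agent.P297.H600 Vale.Agent.P297.H729 Vale.Agent.P297.H109

section

variable {S : Scheme.{0}} {f : S ⟶ Spec (.of ℂ)} [IsProper f] {C : Type} [CommRing C]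
  [Algebra ℂ C] [Algebra.FiniteType ℂ C] {j : Spec (.of C) ⟶ S}
  {hj : j ≫ f = Spec.map (CommRingCat.ofHom (algebraMap ℂ C))}
variable {N : Type} [Field N] [Algebra ℂ N]

/-- a square root of a variable is not rational -/
theorem sqrt_notMem {a b Y : N} (hab : AlgebraicIndependent ℂ ![a, b]) (hY : Y ^ 2 = b) :
    Y ∉ IntermediateField.adjoin ℂ (Set.range ![a, b]) := by
  rw [H600.range_pair]
  intro h
  obtain ⟨t, ht⟩ := sq_of_mem₂ hab (q := X) h (by rw [hY, ev_X])
  have hX : Prime (X : ℂ[X][X]) := Polynomial.prime_X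
  obtain ⟨t', rfl⟩ : (X : ℂ[X][X]) ∣ t := hX.dvd_of_dvd_pow (n := 2) ⟨1, by rw [ht, mul_one]⟩
  apply hX.not_isUnit
  refine IsUnit.of_mul_eq_one (t' ^ 2) ?_
  apply mul_left_cancel₀ hX.ne_zero
  rw [mul_one]
  linear_combination ht

theorem good_of_quad' {a b : N} (hab : AlgebraicIndependent ℂ ![a, b]) (Y : N)
    (hY2 : Y ^ 2 ∈ IntermediateField.adjoin ℂ (Set.range ![a, b]))
    (hY : Y ∉ IntermediateField.adjoin ℂ (Set.range ![a, b])) (ι : C →ₐ[ℂ] N)
    (hι : ∀ c, ι c ∈ quadField (IntermediateField.adjoin ℂ (Set.range ![a, b])) Y hY2)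
    (R : AddSubgroup (ZeroCycle S)) (hR : Rat f ≤ R) (hR2 : ∀ u v : closedPoints S,
      (2 : ℤ) • (Finsupp.single u (1 : ℤ) - Finsupp.single v 1) ∈ R) :
    Finsupp.single ι (1 : ℤ) ∈ Good f j hj R N := by
  obtain ⟨P, Q, e, hP, hPQ, he0, he, heq⟩ := exists_normal_form ![a, b] hab Y hY2 hY
  refine good_of_double ![a, b] hab (e * Y) P Q hP hPQ heq ?_
    (quadField (IntermediateField.adjoin ℂ (Set.range ![a, b])) Y hY2) ?_ ι hι R hR hR2
  · intro hmem
    apply hY
    have h2 : Y = e⁻¹ * (e * Y) := by rw [inv_mul_cancel_left₀ he0]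
    rw [h2]
    exact mul_mem (inv_mem he) hmem
  · intro z
    constructor
    · rintro ⟨a, ha, b, hb, hab⟩
      exact ⟨a, ha, b * e⁻¹, mul_mem hb (inv_mem he), by
        rw [hab]
        field_simp⟩
    · rintro ⟨a, ha, b, hb, hab⟩
      exact ⟨a, ha, b * e, mul_mem hb he, by rw [hab]; ring⟩

/-- Points with values in a quadratic extension of a purely transcendental field. -/
theorem good_of_quad [IsAlgClosed N] {a b : N} (hab : AlgebraicIndependent ℂ ![a, b]) (Y : N)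
    (hY2 : Y ^ 2 ∈ IntermediateField.adjoin ℂ (Set.range ![a, b])) (ι : C →ₐ[ℂ] N)
    (hι : ∀ c, ι c ∈ quadField (IntermediateField.adjoin ℂ (Set.range ![a, b])) Y hY2)
    (R : AddSubgroup (ZeroCycle S)) (hR : Rat f ≤ R) (hR2 : ∀ u v : closedPoints S,
      (2 : ℤ) • (Finsupp.single u (1 : ℤ) - Finsupp.single v 1) ∈ R) :
    Finsupp.single ι (1 : ℤ) ∈ Good f j hj R N := by
  by_cases hY : Y ∈ IntermediateField.adjoin ℂ (Set.range ![a, b])
  · obtain ⟨Y', hY'⟩ := IsAlgClosed.exists_pow_nat_eq b (n := 2) two_pos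
    have hbL : Y' ^ 2 ∈ IntermediateField.adjoin ℂ (Set.range ![a, b]) := by
      rw [hY']
      exact IntermediateField.subset_adjoin _ _ ⟨1, rfl⟩
    refine good_of_quad' hab Y' hbL (sqrt_notMem hab hY') ι (fun c => ?_) R hR hR2
    obtain ⟨x, hx, y, hy, hxy⟩ := hι c
    exact ⟨x + y * Y, add_mem hx (mul_mem hy hY), 0, zero_mem _, by rw [hxy]; ring⟩
  · exact good_of_quad' hab Y hY2 hY ι hι R hR hR2

end

theorem half_id {F : Type} [Field F] [CharZero F] {z : F} (hz : z ≠ 0) (P Q : F) :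
    P = (z * P + Q) / (2 * z) + 1 / (2 * z) * (z * P - Q) ∧
      Q = (z * P + Q) / 2 + -(1 / 2) * (z * P - Q) := by
  constructor
  · field_simp
    ring
  · ring

/-- **Divisibility by two**, the case `β = γ = 0`. -/
theorem four_half_zero (m : Fin 11 → ℂ) (m0 : m 0 ≠ 0) (m9 : m 9 = 0) (m10 : m 10 = 0)
    {c d : Fin 3 → ℂ} (hsp : Split m c d) (hgD : gD m c d ≠ 0)
    {K : Type} [Field K] [Algebra ℂ K] {u w p q : K}
    (hs : OnSurf (fun i => algebraMap ℂ K (m i)) u w p q) (hind : AlgebraicIndependent ℂ ![u, w])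
    (htop : IntermediateField.adjoin ℂ {u, w, p, q} = ⊤)
    {S : Scheme.{0}} [IsIntegral S] (f : S ⟶ Spec (.of ℂ)) [IsProper f]
    (hS : IsFunctionFieldOf f K) (R : AddSubgroup (ZeroCycle S)) (hR : Rat f ≤ R)
    (hR2 : ∀ a b : closedPoints S,
      (2 : ℤ) • (Finsupp.single a (1 : ℤ) - Finsupp.single b 1) ∈ R) (a b : closedPoints S) :
    Finsupp.single a (1 : ℤ) - Finsupp.single b 1 ∈ R := by
  obtain ⟨U, hU, hne, hi⟩ := exists_chart f hS
  letI := chartAlg f hU
  haveI := chart_finiteType f hU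
  obtain ⟨i, hi, hfrac⟩ := hi
  let N := AlgebraicClosure K
  let φ : K →ₐ[ℂ] N := IsScalarTower.toAlgHom ℂ K N
  have hφinj : Function.Injective φ := φ.toRingHom.injective
  haveI : CharZero N := charZero_of_injective_algebraMap (algebraMap ℂ N).injective
  have hUW : AlgebraicIndependent ℂ ![φ u, φ w] := by
    have h := hind.map' (f := φ) hφinj
    have h2 : (φ ∘ ![u, w]) = ![φ u, φ w] := by
      funext k
      fin_cases k <;> rfl
    rwa [h2] at h
  have hNK : ∀ z : N, ∃ q : K[X], q ≠ 0 ∧ q.eval₂ φ.toRingHom z = 0 := by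
    intro z
    obtain ⟨q, hq0, hq⟩ := Algebra.IsAlgebraic.isAlgebraic (R := K) z
    exact ⟨q, hq0, hq⟩
  obtain ⟨z, hz⟩ := IsAlgClosed.exists_pow_nat_eq (φ w) (n := 2) two_pos
  obtain ⟨-, hW0, -⟩ := e1_ne m m0 hUW
  have hz0 : z ≠ 0 := by
    rintro rfl
    apply hW0
    rw [← hz]
    ring
  have hsurf := map_surf hs φ
  have a9 : am N m 9 = 0 := by rw [am_apply, m9, map_zero]
  have a10 : am N m 10 = 0 := by rw [am_apply, m10, map_zero]
  have h1 := hsurf.1
  have h2 := hsurf.2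
  rw [a9, a10] at h2
  have hα : (z * φ p + φ q) ^ 2 = -(fe2 (am N m) (φ u) (φ w) +
      2 * z * fe1 (am N m) (φ u) (φ w)) := by
    linear_combination 2 * z * h1 + h2 + φ p ^ 2 * hz
  have hδ : (z * φ p - φ q) ^ 2 = -(fe2 (am N m) (φ u) (φ w) -
      2 * z * fe1 (am N m) (φ u) (φ w)) := by
    linear_combination -2 * z * h1 + h2 + φ p ^ 2 * hz
  obtain ⟨a', b', hab, hL⟩ := alpha_pair hsp m0 hgD hz hUW hα
  obtain ⟨L, hL'⟩ : ∃ L, L = IntermediateField.adjoin ℂ (Set.range ![a', b']) := ⟨_, rfl⟩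
  have huL : φ u ∈ L := by
    rw [hL', ← hL]; exact IntermediateField.subset_adjoin _ _ (by simp)
  have hzL : z ∈ L := by
    rw [hL', ← hL]; exact IntermediateField.subset_adjoin _ _ (by simp)
  have hαL : z * φ p + φ q ∈ L := by
    rw [hL', ← hL]; exact IntermediateField.subset_adjoin _ _ (by simp)
  have hwL : φ w ∈ L := by
    rw [← hz]
    exact pow_mem hzL 2
  have hδL : (z * φ p - φ q) ^ 2 ∈ L := by
    rw [hδ]
    have e1 : fe1 (am N m) (φ u) (φ w) ∈ L := mem_fe1 m huL hwL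
    have e2 : fe2 (am N m) (φ u) (φ w) ∈ L := by
      unfold fe2
      exact add_mem (add_mem (mem_am m _) (mul_mem (mem_am m _) hwL))
        (mul_mem (add_mem (mem_am m _) (mul_mem (mem_am m _) hwL)) huL)
    exact neg_mem (sub_mem e2 (mul_mem (mul_mem (ofNat_mem L 2) hzL) e1))
  rw [hL'] at hδL
  have hle : (⊤ : IntermediateField ℂ K).map φ ≤
      quadField (IntermediateField.adjoin ℂ (Set.range ![a', b'])) (z * φ p - φ q) hδL := by
    rw [← htop, IntermediateField.adjoin_map, IntermediateField.adjoin_le_iff]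
    rw [hL'] at huL hwL hzL hαL
    have h2z : (2 : N) * z ∈ IntermediateField.adjoin ℂ (Set.range ![a', b']) :=
      mul_mem (ofNat_mem _ 2) hzL
    rintro _ ⟨k, (hk | hk | hk | hk), rfl⟩
    · rw [hk]
      exact ⟨φ u, huL, 0, zero_mem _, by ring⟩
    · rw [hk]
      exact ⟨φ w, hwL, 0, zero_mem _, by ring⟩
    · rw [hk]
      refine ⟨(z * φ p + φ q) / (2 * z), div_mem hαL h2z, 1 / (2 * z), div_mem (one_mem _) h2z, ?_⟩
      exact (half_id hz0 (φ p) (φ q)).1
    · rw [Set.mem_singleton_iff.1 hk]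
      refine ⟨(z * φ p + φ q) / 2, div_mem hαL (ofNat_mem _ 2), -(1 / 2),
        neg_mem (div_mem (one_mem _) (ofNat_mem _ 2)), ?_⟩
      exact (half_id hz0 (φ p) (φ q)).2
  have hgood := good_of_quad (f := f) (j := hU.fromSpec) (hj := chart_hj f hU) hab _ hδL (φ.comp i)
    (fun c => hle ⟨i c, trivial, rfl⟩) R hR hR2
  have hinj' : Function.Injective (φ.comp i) := hφinj.comp hi
  have hC : ∀ y : N, ∃ q : Γ(S, U)[X], q ≠ 0 ∧ q.eval₂ (φ.comp i).toRingHom y = 0 := by
    intro y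
    exact exists_poly_of_algebraic i.toRingHom hi hfrac φ.toRingHom y (hNK y)
  have h5 := global_of_good f hU 1 R hR _ hinj' hC hgood a b
  rwa [one_smul] at h5

/-- **From `32` to `1`**, the case `β = γ = 0`. -/
theorem four_one_zero (m : Fin 11 → ℂ) (m0 : m 0 ≠ 0) (m9 : m 9 = 0) (m10 : m 10 = 0)
    {c d : Fin 3 → ℂ} (hsp : Split m c d) (hgD : gD m c d ≠ 0)
    {K : Type} [Field K] [Algebra ℂ K] {u w p q : K}
    (hs : OnSurf (fun i => algebraMap ℂ K (m i)) u w p q) (hind : AlgebraicIndependent ℂ ![u, w])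
    (htop : IntermediateField.adjoin ℂ {u, w, p, q} = ⊤)
    {S : Scheme.{0}} [IsIntegral S] (f : S ⟶ Spec (.of ℂ)) [IsProper f]
    (hS : IsFunctionFieldOf f K)
    (h32 : ∀ x y : ClosedPt S, (32 : ℤ) • (Finsupp.single x (1 : ℤ) - Finsupp.single y 1) ∈ Rat f)
    (x y : ClosedPt S) : RatEquiv f x y :=
  one_of_half f 5 (fun a b => by
    have h1 := h32 a b
    norm_num
    exact h1) (fun R hR hR2 a b => four_half_zero m m0 m9 m10 hsp hgD hs hind htop f hS R hR hR2 a b)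
    x y

end Vale.Agent.P297.H160
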