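import Vale.Agent.P297.H600.QTwin
import Vale.Agent.P297.H109.Conic
import Vale.Agent.P297.H729.Quot

/-!
The double planes `y² = 4 X³ - g₂(s) X - g₃(s)` and `y² = (1 - s) (4 X³ - g₂(s) X - g₃(s))`,
`deg g₂ ≤ 2`, `deg g₃ ≤ 3`, are of conic type.
-/

set_option linter.unusedSectionVars false
set_option linter.style.haveILetI false

open IntermediateField Polynomial

namespace Vale.Agent.P297.H160

open Vale.Agent.P297 Vale.Agent.P297.H839 Vale.Agent.P297.H109 Vale.Agent.P297.H729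
open Vale.Agent.P297.H600 Vale.Agent.P297.H964

/-- `4 X³ - g₂(s) X - g₃(s)` -/
def jf {R : Type*} [CommRing R] (a₀ a₁ a₂ b₀ b₁ b₂ b₃ X s : R) : R :=
  4 * X ^ 3 - (a₀ + a₁ * s + a₂ * s ^ 2) * X - (b₀ + b₁ * s + b₂ * s ^ 2 + b₃ * s ^ 3)

theorem exists_good_root (A B : ℂ) (h : A ≠ 0 ∨ B ≠ 0) :
    ∃ k : ℂ, 4 * k ^ 3 - A * k - B = 0 ∧ A - 3 * k ^ 2 ≠ 0 := by
  obtain ⟨k, hk⟩ : ∃ k : ℂ, 4 * k ^ 3 - A * k - B = 0 := by
    let P : ℂ[X] := C 4 * X ^ 3 - C A * X - C B
    have hP : P.coeff 3 ≠ 0 := by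
      simp [P]
    have hd : P.degree ≠ 0 := by
      intro h0
      apply hP
      exact coeff_eq_zero_of_degree_lt (by rw [h0]; norm_num)
    obtain ⟨k, hk⟩ := IsAlgClosed.exists_root P hd
    refine ⟨k, ?_⟩
    have h1 : P.eval k = 0 := hk
    simpa [P] using h1
  by_cases hA : A - 3 * k ^ 2 = 0
  · have hA' : A = 3 * k ^ 2 := sub_eq_zero.1 hA
    have hB : B = k ^ 3 := by linear_combination -hk - k * hA'
    have hk0 : k ≠ 0 := by
      rintro rfl
      rcases h with h | h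
      · exact h (by rw [hA']; ring)
      · exact h (by rw [hB]; ring)
    refine ⟨-k / 2, ?_, ?_⟩
    · rw [hA', hB]
      ring
    · rw [hA']
      have h1 : 3 * k ^ 2 - 3 * (-k / 2) ^ 2 = (9 / 4) * k ^ 2 := by ring
      rw [h1]
      exact mul_ne_zero (by norm_num) (pow_ne_zero 2 hk0)
  · exact ⟨k, hk, hA⟩

section

variable {N : Type} [Field N] [Algebra ℂ N]

theorem poly4_ne {u : N} (hu : Transcendental ℂ u) (c₄ c₃ c₂ c₁ c₀ : ℂ) (h : c₄ ≠ 0) :
    algebraMap ℂ N c₄ * u ^ 4 + algebraMap ℂ N c₃ * u ^ 3 + algebraMap ℂ N c₂ * u ^ 2 +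
      algebraMap ℂ N c₁ * u + algebraMap ℂ N c₀ ≠ 0 := by
  intro h0
  let P : ℂ[X] := C c₄ * X ^ 4 + C c₃ * X ^ 3 + C c₂ * X ^ 2 + C c₁ * X + C c₀
  have h1 : aeval u P = 0 := by
    simpa [P] using h0
  have h2 : P = 0 := (transcendental_iff.1 hu) P h1
  have h3 : P.coeff 4 = 0 := by rw [h2, coeff_zero]
  apply h
  simpa [P, coeff_X, coeff_C] using h3

/-- change of generators of a plane -/
theorem plane_change {X s u v : N} (hind : AlgebraicIndependent ℂ ![X, s])
    (hu : u ∈ IntermediateField.adjoin ℂ {X, s}) (hv : v ∈ IntermediateField.adjoin ℂ {X, s})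
    (hX : X ∈ IntermediateField.adjoin ℂ {u, v}) (hs : s ∈ IntermediateField.adjoin ℂ {u, v}) :
    AlgebraicIndependent ℂ ![u, v] ∧
      IntermediateField.adjoin ℂ {X, s} = IntermediateField.adjoin ℂ {u, v} := by
  have hF : IntermediateField.adjoin ℂ {X, s} = IntermediateField.adjoin ℂ {u, v} := by
    apply le_antisymm
    · rw [IntermediateField.adjoin_le_iff]
      rintro a (ha | ha)
      · rw [ha]
        exact hX
      · rw [Set.mem_singleton_iff.1 ha]
        exact hs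
    · rw [IntermediateField.adjoin_le_iff]
      rintro a (ha | ha)
      · rw [ha]
        exact hu
      · rw [Set.mem_singleton_iff.1 ha]
        exact hv
  refine ⟨?_, hF⟩
  apply indep_of_algebraic hind
  intro i
  rw [range_pair]
  refine isAlgebraic_mem _ _ ?_
  rw [← hF]
  fin_cases i
  · exact IntermediateField.subset_adjoin _ _ (by simp)
  · exact IntermediateField.subset_adjoin _ _ (by simp)

/-- the double plane branched along the cubic and the line at infinity -/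
theorem jac_conic₁ (a₀ a₁ a₂ b₀ b₁ b₂ b₃ : ℂ) (h : a₂ ≠ 0 ∨ b₃ ≠ 0) {X s y : N}
    (hind : AlgebraicIndependent ℂ ![X, s])
    (hy : y ^ 2 = jf (algebraMap ℂ N a₀) (algebraMap ℂ N a₁) (algebraMap ℂ N a₂)
      (algebraMap ℂ N b₀) (algebraMap ℂ N b₁) (algebraMap ℂ N b₂) (algebraMap ℂ N b₃) X s) :
    IsConicType (IntermediateField.adjoin ℂ {X, s}) y := by
  obtain ⟨k, hk, hk'⟩ := exists_good_root a₂ b₃ h
  have hkN : 4 * algebraMap ℂ N k ^ 3 - algebraMap ℂ N a₂ * algebraMap ℂ N k -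
      algebraMap ℂ N b₃ = 0 := by
    have h1 := congrArg (algebraMap ℂ N) hk
    simpa only [map_sub, map_mul, map_pow, map_ofNat, map_zero] using h1
  obtain ⟨u, hu⟩ : ∃ u, u = X - algebraMap ℂ N k * s := ⟨_, rfl⟩
  have hX : X = u + algebraMap ℂ N k * s := by rw [hu]; ring
  have hmem : ∀ (S : Set N), X ∈ S → s ∈ S → u ∈ IntermediateField.adjoin ℂ S := by
    intro S h1 h2
    rw [hu]
    exact sub_mem (IntermediateField.subset_adjoin _ _ h1)
      (mul_mem (IntermediateField.algebraMap_mem _ _) (IntermediateField.subset_adjoin _ _ h2))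
  obtain ⟨h1, h2⟩ := plane_change (u := u) (v := s) hind (hmem _ (by simp) (by simp))
    (IntermediateField.subset_adjoin _ _ (by simp))
    (by
      rw [hX]
      exact add_mem (IntermediateField.subset_adjoin _ _ (by simp))
        (mul_mem (IntermediateField.algebraMap_mem _ _)
          (IntermediateField.subset_adjoin _ _ (by simp))))
    (IntermediateField.subset_adjoin _ _ (by simp))
  have hut : Transcendental ℂ u := transcendental_of_indep h1
  have hum : u ∈ ℂ⟮u⟯ := IntermediateField.mem_adjoin_simple_self _ _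
  have hcm : ∀ c : ℂ, algebraMap ℂ N c ∈ ℂ⟮u⟯ := fun c => IntermediateField.algebraMap_mem _ _
  refine ⟨u, s, algebraMap ℂ N (12 * k ^ 2 - a₂) * u - algebraMap ℂ N (a₁ * k + b₂),
    algebraMap ℂ N (12 * k) * u ^ 2 - algebraMap ℂ N a₁ * u - algebraMap ℂ N (a₀ * k + b₁),
    algebraMap ℂ N 4 * u ^ 3 - algebraMap ℂ N a₀ * u - algebraMap ℂ N b₀, 1, h1, h2,
    sub_mem (mul_mem (hcm _) hum) (hcm _),
    sub_mem (sub_mem (mul_mem (hcm _) (pow_mem hum _)) (mul_mem (hcm _) hum)) (hcm _),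
    sub_mem (sub_mem (mul_mem (hcm _) (pow_mem hum _)) (mul_mem (hcm _) hum)) (hcm _),
    ?_, one_mem _, one_ne_zero, ?_⟩
  · have h3 := poly4_ne hut (16 * (a₂ - 3 * k ^ 2))
      (2 * (12 * k) * (-a₁) + 16 * (a₁ * k + b₂))
      (a₁ ^ 2 - 24 * k * (a₀ * k + b₁) + 4 * (12 * k ^ 2 - a₂) * a₀)
      (2 * a₁ * (a₀ * k + b₁) + 4 * (12 * k ^ 2 - a₂) * b₀ - 4 * (a₁ * k + b₂) * a₀)
      ((a₀ * k + b₁) ^ 2 - 4 * (a₁ * k + b₂) * b₀) (mul_ne_zero (by norm_num) hk')
    intro h0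
    apply h3
    rw [← h0]
    simp only [map_add, map_sub, map_mul, map_pow, map_neg, map_ofNat]
    ring
  · rw [one_mul, hy, hX]
    unfold jf
    simp only [map_add, map_sub, map_mul, map_pow, map_ofNat]
    linear_combination s ^ 3 * hkN

/-- the double plane branched along the cubic and the line `s = 1` -/
theorem jac_conic₂ (a₀ a₁ a₂ b₀ b₁ b₂ b₃ : ℂ)
    (h : a₀ + a₁ + a₂ ≠ 0 ∨ b₀ + b₁ + b₂ + b₃ ≠ 0) {X s y : N}
    (hind : AlgebraicIndependent ℂ ![X, s])
    (hy : y ^ 2 = (1 - s) * jf (algebraMap ℂ N a₀) (algebraMap ℂ N a₁) (algebraMap ℂ N a₂)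
      (algebraMap ℂ N b₀) (algebraMap ℂ N b₁) (algebraMap ℂ N b₂) (algebraMap ℂ N b₃) X s) :
    IsConicType (IntermediateField.adjoin ℂ {X, s}) y := by
  obtain ⟨k, hk, hk'⟩ := exists_good_root _ _ h
  have hkN : 4 * algebraMap ℂ N k ^ 3 - (algebraMap ℂ N a₀ + algebraMap ℂ N a₁ +
      algebraMap ℂ N a₂) * algebraMap ℂ N k - (algebraMap ℂ N b₀ + algebraMap ℂ N b₁ +
      algebraMap ℂ N b₂ + algebraMap ℂ N b₃) = 0 := by
    have h1 := congrArg (algebraMap ℂ N) hk
    simpa only [map_sub, map_mul, map_pow, map_ofNat, map_zero, map_add] using h1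
  have hs1 : (1 : N) - s ≠ 0 := by
    intro h0
    have h1 : Transcendental ℂ s := hind.transcendental 1
    apply h1
    rw [← sub_eq_zero.1 h0]
    exact isAlgebraic_one
  obtain ⟨σ, hσ⟩ : ∃ σ, σ = 1 - s := ⟨_, rfl⟩
  rw [← hσ] at hs1
  obtain ⟨m, hm⟩ : ∃ m, m = (X - algebraMap ℂ N k) / σ := ⟨_, rfl⟩
  have hX : X = algebraMap ℂ N k + m * σ := by rw [hm, div_mul_cancel₀ _ hs1]; ring
  have hs : s = 1 - σ := by rw [hσ]; ring
  have hσm : ∀ (S : Set N), s ∈ S → σ ∈ IntermediateField.adjoin ℂ S := by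
    intro S h2
    rw [hσ]
    exact sub_mem (one_mem _) (IntermediateField.subset_adjoin _ _ h2)
  obtain ⟨h1, h2⟩ := plane_change (u := m) (v := σ) hind
    (by
      rw [hm]
      exact div_mem (sub_mem (IntermediateField.subset_adjoin _ _ (by simp))
        (IntermediateField.algebraMap_mem _ _)) (hσm _ (by simp)))
    (hσm _ (by simp))
    (by
      rw [hX]
      exact add_mem (IntermediateField.algebraMap_mem _ _)
        (mul_mem (IntermediateField.subset_adjoin _ _ (by simp))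
          (IntermediateField.subset_adjoin _ _ (by simp))))
    (by
      rw [hs]
      exact sub_mem (one_mem _) (IntermediateField.subset_adjoin _ _ (by simp)))
  have hmt : Transcendental ℂ m := transcendental_of_indep h1
  have hmm : m ∈ ℂ⟮m⟯ := IntermediateField.mem_adjoin_simple_self _ _
  have hcm : ∀ c : ℂ, algebraMap ℂ N c ∈ ℂ⟮m⟯ := fun c => IntermediateField.algebraMap_mem _ _
  refine ⟨m, σ, algebraMap ℂ N 4 * m ^ 3 - algebraMap ℂ N a₂ * m + algebraMap ℂ N b₃,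
    algebraMap ℂ N (12 * k) * m ^ 2 + algebraMap ℂ N (a₁ + 2 * a₂) * m -
      algebraMap ℂ N (a₂ * k + (b₂ + 3 * b₃)),
    algebraMap ℂ N (12 * k ^ 2 - (a₀ + a₁ + a₂)) * m +
      algebraMap ℂ N ((a₁ + 2 * a₂) * k + (b₁ + 2 * b₂ + 3 * b₃)), σ⁻¹, h1, h2,
    add_mem (sub_mem (mul_mem (hcm _) (pow_mem hmm _)) (mul_mem (hcm _) hmm)) (hcm _),
    sub_mem (add_mem (mul_mem (hcm _) (pow_mem hmm _)) (mul_mem (hcm _) hmm)) (hcm _),
    add_mem (mul_mem (hcm _) hmm) (hcm _), ?_, ?_, inv_ne_zero hs1, ?_⟩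
  · have h3 := poly4_ne hmt (16 * ((a₀ + a₁ + a₂) - 3 * k ^ 2))
      (2 * (12 * k) * (a₁ + 2 * a₂) -
        16 * ((a₁ + 2 * a₂) * k + (b₁ + 2 * b₂ + 3 * b₃)))
      ((a₁ + 2 * a₂) ^ 2 - 24 * k * (a₂ * k + (b₂ + 3 * b₃)) +
        4 * (12 * k ^ 2 - (a₀ + a₁ + a₂)) * a₂)
      (-(2 * (a₁ + 2 * a₂) * (a₂ * k + (b₂ + 3 * b₃))) +
        4 * a₂ * ((a₁ + 2 * a₂) * k + (b₁ + 2 * b₂ + 3 * b₃)) -
        4 * b₃ * (12 * k ^ 2 - (a₀ + a₁ + a₂)))
      ((a₂ * k + (b₂ + 3 * b₃)) ^ 2 -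
        4 * b₃ * ((a₁ + 2 * a₂) * k + (b₁ + 2 * b₂ + 3 * b₃))) (mul_ne_zero (by norm_num) hk')
    intro h0
    apply h3
    rw [← h0]
    simp only [map_add, map_sub, map_mul, map_pow, map_neg, map_ofNat]
    ring
  · rw [h2]
    exact inv_mem (IntermediateField.subset_adjoin _ _ (by simp))
  · rw [mul_pow, hy, ← hσ]
    have h3 : jf (algebraMap ℂ N a₀) (algebraMap ℂ N a₁) (algebraMap ℂ N a₂)
      (algebraMap ℂ N b₀) (algebraMap ℂ N b₁) (algebraMap ℂ N b₂) (algebraMap ℂ N b₃) X s =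
      σ * ((algebraMap ℂ N 4 * m ^ 3 - algebraMap ℂ N a₂ * m + algebraMap ℂ N b₃) * σ ^ 2 +
        (algebraMap ℂ N (12 * k) * m ^ 2 + algebraMap ℂ N (a₁ + 2 * a₂) * m -
      algebraMap ℂ N (a₂ * k + (b₂ + 3 * b₃))) * σ +
        (algebraMap ℂ N (12 * k ^ 2 - (a₀ + a₁ + a₂)) * m +
      algebraMap ℂ N ((a₁ + 2 * a₂) * k + (b₁ + 2 * b₂ + 3 * b₃)))) := by
      rw [hX, hs]
      unfold jf
      simp only [map_add, map_sub, map_mul, map_pow, map_ofNat]
      linear_combination hkN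
    rw [h3]
    field_simp

end

section Stable

variable {K Ω : Type} [Field K] [Algebra ℂ K] [Field Ω] [Algebra ℂ Ω]

theorem act_inv_eq {v : (K →ₐ[ℂ] Ω) →₀ ℤ} (g h : Ω ≃ₐ[ℂ] Ω)
    (hv : H600.act (g.trans h.symm).toAlgHom v = v) :
    H600.act g.toAlgHom v = H600.act h.toAlgHom v := by
  have h1 := congrArg (H600.act h.toAlgHom) hv
  rw [act_act] at h1
  rw [← h1]
  congr 1
  congr 1
  apply AlgHom.ext
  intro x
  change g x = h (h.symm (g x))
  rw [AlgEquiv.apply_symm_apply]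

/-- the `2`-torsion argument for a `(ℤ/2)²`-cover with three rational quotients -/
theorem jac_stable [IsAlgClosed Ω] {X s η y : Ω} (hs : s = 1 - η ^ 2)
    (v : (K →ₐ[ℂ] Ω) →₀ ℤ)
    (hv : ∀ g : Ω ≃ₐ[ℂ] Ω, g X = X → g η = η → g y = y → H600.act g.toAlgHom v = v)
    (hy : y ^ 2 ∈ IntermediateField.adjoin ℂ {X, s})
    (L₁ : IsRational (IntermediateField.adjoin ℂ {X, s} ⊔ IntermediateField.adjoin ℂ {y}))
    (L₂ : IsRational (IntermediateField.adjoin ℂ {X, s} ⊔ IntermediateField.adjoin ℂ {η * y}))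
    (L₃ : IsRational (IntermediateField.adjoin ℂ {X, η}))
    (hη0 : η ≠ 0)
    (hL : Algebra.IsAlgebraic (IntermediateField.adjoin ℂ {X, s}) Ω) :
    (2 : ℤ) • v ∈ stableRelations K Ω := by
  have hXm : X ∈ IntermediateField.adjoin ℂ {X, s} :=
    IntermediateField.subset_adjoin _ _ (by simp)
  have hsm : s ∈ IntermediateField.adjoin ℂ {X, s} :=
    IntermediateField.subset_adjoin _ _ (by simp)
  have hη2 : η ^ 2 ∈ IntermediateField.adjoin ℂ {X, s} := by
    have h1 : η ^ 2 = 1 - s := by rw [hs]; ring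
    rw [h1]
    exact sub_mem (one_mem _) hsm
  have hle3 : IntermediateField.adjoin ℂ {X, s} ≤ IntermediateField.adjoin ℂ {X, η} := by
    rw [IntermediateField.adjoin_le_iff]
    rintro a (ha | ha)
    · rw [ha]
      exact IntermediateField.subset_adjoin _ _ (by simp)
    · rw [Set.mem_singleton_iff.1 ha, hs]
      exact sub_mem (one_mem _) (pow_mem (IntermediateField.subset_adjoin _ _ (by simp)) 2)
  obtain ⟨E₁, hE₁⟩ : ∃ E : IntermediateField ℂ Ω, E = IntermediateField.adjoin ℂ {X, s} ⊔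
    IntermediateField.adjoin ℂ {y} := ⟨_, rfl⟩
  obtain ⟨E₂, hE₂⟩ : ∃ E : IntermediateField ℂ Ω, E = IntermediateField.adjoin ℂ {X, s} ⊔
    IntermediateField.adjoin ℂ {η * y} := ⟨_, rfl⟩
  obtain ⟨E₃, hE₃⟩ : ∃ E : IntermediateField ℂ Ω, E = IntermediateField.adjoin ℂ {X, η} :=
    ⟨_, rfl⟩
  rw [← hE₁] at L₁
  rw [← hE₂] at L₂
  rw [← hE₃] at L₃ hle3
  have hle1 : IntermediateField.adjoin ℂ {X, s} ≤ E₁ := by rw [hE₁]; exact le_sup_left
  have hle2 : IntermediateField.adjoin ℂ {X, s} ≤ E₂ := by rw [hE₂]; exact le_sup_left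
  have hy1 : y ∈ E₁ := by
    rw [hE₁]
    exact (le_sup_right : IntermediateField.adjoin ℂ {y} ≤ _)
      (IntermediateField.mem_adjoin_simple_self ℂ _)
  have hy2 : η * y ∈ E₂ := by
    rw [hE₂]
    exact (le_sup_right : IntermediateField.adjoin ℂ {η * y} ≤ _)
      (IntermediateField.mem_adjoin_simple_self ℂ _)
  have hη3 : η ∈ E₃ := by
    rw [hE₃]
    exact IntermediateField.subset_adjoin _ _ (by simp)
  have A₁ := isAlgebraic_mono hle1 hL
  have A₂ := isAlgebraic_mono hle2 hL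
  have A₃ := isAlgebraic_mono hle3 hL
  -- sign of the image
  have hsq : ∀ (g : Ω ≃ₐ[ℂ] Ω) (a : Ω), g (a ^ 2) = a ^ 2 → g a = a ∨ g a = -a := by
    intro g a h
    rw [map_pow] at h
    exact sq_eq_sq_iff_eq_or_eq_neg.1 h
  -- degenerate cases
  by_cases d1 : η ∈ E₁
  · refine AddSubgroup.zsmul_mem _ (stable_of_fixed E₁ L₁ A₁ v fun g hg => ?_) _
    exact hv g (hg X (hle1 hXm)) (hg η d1) (hg y hy1)
  by_cases d2 : η ∈ E₂
  · refine AddSubgroup.zsmul_mem _ (stable_of_fixed E₂ L₂ A₂ v fun g hg => ?_) _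
    have h1 := hg _ hy2
    rw [map_mul, hg η d2] at h1
    exact hv g (hg X (hle2 hXm)) (hg η d2) (mul_left_cancel₀ hη0 h1)
  by_cases d3 : y ∈ E₃
  · refine AddSubgroup.zsmul_mem _ (stable_of_fixed E₃ L₃ A₃ v fun g hg => ?_) _
    exact hv g (hg X (hle3 hXm)) (hg η hη3) (hg y d3)
  obtain ⟨g₁, hg₁, hg₁η⟩ := exists_conj E₁ A₁ η (-η) (by rw [add_neg_cancel]; exact zero_mem _)
    (by
      have h1 : η * -η = -(η ^ 2) := by ring
      rw [h1]
      exact neg_mem (hle1 hη2)) d1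
  obtain ⟨g₂, hg₂, hg₂η⟩ := exists_conj E₂ A₂ η (-η) (by rw [add_neg_cancel]; exact zero_mem _)
    (by
      have h1 : η * -η = -(η ^ 2) := by ring
      rw [h1]
      exact neg_mem (hle2 hη2)) d2
  obtain ⟨g₃, hg₃, hg₃y⟩ := exists_conj E₃ A₃ y (-y) (by rw [add_neg_cancel]; exact zero_mem _)
    (by
      have h1 : y * -y = -(y ^ 2) := by ring
      rw [h1]
      exact neg_mem (hle3 hy)) d3
  have hg₂y : g₂ y = -y := by
    have h1 := hg₂ _ hy2
    rw [map_mul, hg₂η] at h1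
    have h2 : η * (g₂ y + y) = 0 := by linear_combination -h1
    rcases mul_eq_zero.1 h2 with h3 | h3
    · exact absurd h3 hη0
    · linear_combination h3
  have i₁X := hg₁ X (hle1 hXm)
  have i₂X := hg₂ X (hle2 hXm)
  have i₃X := hg₃ X (hle3 hXm)
  have i₁y := hg₁ y hy1
  have i₃η := hg₃ η hη3
  -- two automorphisms with the same values give the same cycle
  have same : ∀ g h : Ω ≃ₐ[ℂ] Ω, g X = h X → g η = h η → g y = h y →
      H600.act g.toAlgHom v = H600.act h.toAlgHom v := by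
    intro g h e1 e2 e3
    apply act_inv_eq
    apply hv
    · change h.symm (g X) = X
      rw [e1, AlgEquiv.symm_apply_apply]
    · change h.symm (g η) = η
      rw [e2, AlgEquiv.symm_apply_apply]
    · change h.symm (g y) = y
      rw [e3, AlgEquiv.symm_apply_apply]
  have hact : ∀ g h : Ω ≃ₐ[ℂ] Ω, H600.act g.toAlgHom (H600.act h.toAlgHom v) =
      H600.act (h.trans g).toAlgHom v := by
    intro g h
    rw [act_act]
    rfl
  -- relation of a pair
  have rel : ∀ (E : IntermediateField ℂ Ω) (h : Ω ≃ₐ[ℂ] Ω), IsRational E →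
      Algebra.IsAlgebraic E Ω →
      (∀ g, Fixes E g → (g X = X ∧ g η = η ∧ g y = y) ∨ (g X = h X ∧ g η = h η ∧ g y = h y)) →
      (h (h X) = X ∧ h (h η) = η ∧ h (h y) = y) → Fixes E h →
      v + H600.act h.toAlgHom v ∈ stableRelations K Ω := by
    intro E h hR hA hg hh hfix
    refine stable_of_fixed E hR hA _ fun g hgE => ?_
    rw [map_add, hact]
    rcases hg g hgE with ⟨e1, e2, e3⟩ | ⟨e1, e2, e3⟩
    · rw [hv g e1 e2 e3]
      congr 1
      rcases hg (h.trans g) (hfix.trans hgE) with ⟨f1, f2, f3⟩ | ⟨f1, f2, f3⟩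
      · -- then `h` fixes the generators
        have k1 : g (h X) = X := f1
        have k2 : g (h η) = η := f2
        have k3 : g (h y) = y := f3
        apply same
        · change g (h X) = h X
          have : h X = X := by
            apply g.injective
            rw [k1, e1]
          rw [this, e1]
        · change g (h η) = h η
          have : h η = η := by
            apply g.injective
            rw [k2, e2]
          rw [this, e2]
        · change g (h y) = h y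
          have : h y = y := by
            apply g.injective
            rw [k3, e3]
          rw [this, e3]
      · exact same _ _ f1 f2 f3
    · rw [same g h e1 e2 e3, add_comm]
      congr 1
      rcases hg (h.trans g) (hfix.trans hgE) with ⟨f1, f2, f3⟩ | ⟨f1, f2, f3⟩
      · exact hv _ f1 f2 f3
      · -- then again `h` fixes the generators
        have k1 : g (h X) = h X := f1
        have k2 : g (h η) = h η := f2
        have k3 : g (h y) = h y := f3
        apply hv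
        · change g (h X) = X
          have : h X = X := g.injective (by rw [k1, e1])
          rw [this, e1, this]
        · change g (h η) = η
          have : h η = η := g.injective (by rw [k2, e2])
          rw [this, e2, this]
        · change g (h y) = y
          have : h y = y := g.injective (by rw [k3, e3])
          rw [this, e3, this]
  have R1 : v + H600.act g₁.toAlgHom v ∈ stableRelations K Ω := by
    refine rel E₁ g₁ L₁ A₁ (fun g hg => ?_) ⟨by rw [i₁X, i₁X], by rw [hg₁η, map_neg, hg₁η, neg_neg],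
      by rw [i₁y, i₁y]⟩ hg₁
    have e1 := hg X (hle1 hXm)
    have e3 := hg y hy1
    rcases hsq g η (hg _ (hle1 hη2)) with e2 | e2
    · exact Or.inl ⟨e1, e2, e3⟩
    · exact Or.inr ⟨by rw [e1, i₁X], by rw [e2, hg₁η], by rw [e3, i₁y]⟩
  have R2 : v + H600.act g₂.toAlgHom v ∈ stableRelations K Ω := by
    refine rel E₂ g₂ L₂ A₂ (fun g hg => ?_) ⟨by rw [i₂X, i₂X], by rw [hg₂η, map_neg, hg₂η, neg_neg],
      by rw [hg₂y, map_neg, hg₂y, neg_neg]⟩ hg₂
    have e1 := hg X (hle2 hXm)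
    have e3 := hg _ hy2
    rw [map_mul] at e3
    rcases hsq g η (hg _ (hle2 hη2)) with e2 | e2
    · left
      refine ⟨e1, e2, ?_⟩
      rw [e2] at e3
      exact mul_left_cancel₀ hη0 e3
    · right
      refine ⟨by rw [e1, i₂X], by rw [e2, hg₂η], ?_⟩
      rw [e2] at e3
      rw [hg₂y]
      have h2 : η * (g y + y) = 0 := by linear_combination -e3
      rcases mul_eq_zero.1 h2 with h3 | h3
      · exact absurd h3 hη0
      · linear_combination h3
  have R3 : v + H600.act g₃.toAlgHom v ∈ stableRelations K Ω := by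
    refine rel E₃ g₃ L₃ A₃ (fun g hg => ?_) ⟨by rw [i₃X, i₃X], by rw [i₃η, i₃η],
      by rw [hg₃y, map_neg, hg₃y, neg_neg]⟩ hg₃
    have e1 := hg X (hle3 hXm)
    have e2 := hg η hη3
    rcases hsq g y (hg _ (hle3 hy)) with e3 | e3
    · exact Or.inl ⟨e1, e2, e3⟩
    · exact Or.inr ⟨by rw [e1, i₃X], by rw [e2, i₃η], by rw [e3, hg₃y]⟩
  have R4 : H600.act g₃.toAlgHom v + H600.act g₂.toAlgHom v ∈ stableRelations K Ω := by
    have h1 := act_mem g₃ R1
    rw [map_add, hact] at h1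
    rwa [same (g₁.trans g₃) g₂ (by
        change g₃ (g₁ X) = _
        rw [i₁X, i₃X, i₂X]) (by
        change g₃ (g₁ η) = _
        rw [hg₁η, map_neg, i₃η, hg₂η]) (by
        change g₃ (g₁ y) = _
        rw [i₁y, hg₃y, hg₂y])] at h1
  have h5 : (2 : ℤ) • v = (v + H600.act g₂.toAlgHom v) + (v + H600.act g₃.toAlgHom v) -
      (H600.act g₃.toAlgHom v + H600.act g₂.toAlgHom v) := by
    rw [two_zsmul]
    abel
  rw [h5]
  exact AddSubgroup.sub_mem _ (AddSubgroup.add_mem _ R2 R3) R4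

/-- **The Jacobian surface `y² = 4 X³ - g₂(1 - η²) X - g₃(1 - η²)`.** A cycle of embeddings that is
defined over its function field is half a combination of stable relations. -/
theorem jac_main [IsAlgClosed Ω] (a₀ a₁ a₂ b₀ b₁ b₂ b₃ : ℂ) (h₁ : a₂ ≠ 0 ∨ b₃ ≠ 0)
    (h₂ : a₀ + a₁ + a₂ ≠ 0 ∨ b₀ + b₁ + b₂ + b₃ ≠ 0) {X η y : Ω}
    (hind : AlgebraicIndependent ℂ ![X, η])
    (hy : y ^ 2 = jf (algebraMap ℂ Ω a₀) (algebraMap ℂ Ω a₁) (algebraMap ℂ Ω a₂)
      (algebraMap ℂ Ω b₀) (algebraMap ℂ Ω b₁) (algebraMap ℂ Ω b₂) (algebraMap ℂ Ω b₃) X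
      (1 - η ^ 2))
    (hΩ : Algebra.IsAlgebraic (IntermediateField.adjoin ℂ {X, η}) Ω)
    (v : (K →ₐ[ℂ] Ω) →₀ ℤ)
    (hv : ∀ g : Ω ≃ₐ[ℂ] Ω, g X = X → g η = η → g y = y → H600.act g.toAlgHom v = v) :
    (2 : ℤ) • v ∈ stableRelations K Ω := by
  obtain ⟨s, hs⟩ : ∃ s, s = 1 - η ^ 2 := ⟨_, rfl⟩
  have hη : Transcendental ℂ η := hind.transcendental 1
  have hη0 : η ≠ 0 := by
    rintro rfl
    exact hη isAlgebraic_zero
  -- `X, s` are independent and `Ω` is algebraic over them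
  have hηa : IsAlgebraic (IntermediateField.adjoin ℂ {X, s}) η := by
    have h1 : IsIntegral (IntermediateField.adjoin ℂ {X, s}) η := by
      refine IsIntegral.of_pow (n := 2) (by norm_num) ?_
      have h2 : η ^ 2 ∈ IntermediateField.adjoin ℂ {X, s} := by
        have h3 : η ^ 2 = 1 - s := by rw [hs]; ring
        rw [h3]
        exact sub_mem (one_mem _) (IntermediateField.subset_adjoin _ _ (by simp))
      exact isIntegral_algebraMap (x := (⟨η ^ 2, h2⟩ : IntermediateField.adjoin ℂ {X, s}))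
    exact h1.isAlgebraic
  have hind' : AlgebraicIndependent ℂ ![X, s] := by
    apply indep_of_algebraic hind
    intro i
    rw [range_pair]
    fin_cases i
    · exact isAlgebraic_mem _ _ (IntermediateField.subset_adjoin _ _ (by simp))
    · exact hηa
  have hL : Algebra.IsAlgebraic (IntermediateField.adjoin ℂ {X, s}) Ω := by
    refine ⟨fun z => H729.alg_of_gens2 (u := X) (v := η) _ (fun z => ?_)
      (isAlgebraic_mem _ _ (IntermediateField.subset_adjoin _ _ (by simp))) hηa z⟩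
    rw [range_pair]
    exact hΩ.isAlgebraic z
  refine jac_stable hs v hv ?_ ?_ ?_ ?_ hη0 hL
  · rw [hy, ← hs]
    unfold jf
    have hXm : X ∈ IntermediateField.adjoin ℂ {X, s} :=
      IntermediateField.subset_adjoin _ _ (by simp)
    have hsm : s ∈ IntermediateField.adjoin ℂ {X, s} :=
      IntermediateField.subset_adjoin _ _ (by simp)
    have hc : ∀ c : ℂ, algebraMap ℂ Ω c ∈ IntermediateField.adjoin ℂ {X, s} := fun c =>
      IntermediateField.algebraMap_mem _ _
    have h4 : (4 : Ω) ∈ IntermediateField.adjoin ℂ {X, s} := by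
      have h5 := hc 4
      rwa [map_ofNat] at h5
    exact sub_mem (sub_mem (mul_mem h4 (pow_mem hXm 3)) (mul_mem (add_mem (add_mem (hc _)
      (mul_mem (hc _) hsm)) (mul_mem (hc _) (pow_mem hsm 2))) hXm)) (add_mem (add_mem (add_mem
      (hc _) (mul_mem (hc _) hsm)) (mul_mem (hc _) (pow_mem hsm 2))) (mul_mem (hc _)
      (pow_mem hsm 3)))
  · exact conic_rational (jac_conic₁ a₀ a₁ a₂ b₀ b₁ b₂ b₃ h₁ hind' (by rw [hy, hs]))
  · refine conic_rational (jac_conic₂ a₀ a₁ a₂ b₀ b₁ b₂ b₃ h₂ hind' ?_)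
    rw [mul_pow, hy, hs]
    ring
  · exact ⟨2, ![X, η], hind, by rw [range_pair]⟩

end Stable

end Vale.Agent.P297.H160
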