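import Vale.Agent.P297.H160.Jac

/-!
The surfaces `y² = x³ + a₄(s) x + a₆(s)` and `(e y)²`, `s = 1 - e²`, with one more variable `t`.
-/

set_option linter.unusedSectionVars false
set_option linter.style.haveILetI false

open IntermediateField Polynomial

namespace Vale.Agent.P297.H160

open Vale.Agent.P297 Vale.Agent.P297.H839 Vale.Agent.P297.H109 Vale.Agent.P297.H729
open Vale.Agent.P297.H600 Vale.Agent.P297.H964

section

variable {N : Type} [Field N] [Algebra ℂ N]

theorem conic_gens {F : IntermediateField ℂ N} {z : N} (h : IsConicType F z) :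
    ∃ u τ : N, F ⊔ IntermediateField.adjoin ℂ {z} = IntermediateField.adjoin ℂ {u, τ} := by
  obtain ⟨u, v, a, b, c, q, huv, hF, ha, hb, hc, hd, hq, hq0, hz⟩ := h
  obtain ⟨τ, hτ⟩ := Vale.Agent.P297.H964.exists_conic_param huv ha hb hc hd hz
  refine ⟨u, τ, ?_⟩
  have hu : u ∈ F := by rw [hF]; exact IntermediateField.subset_adjoin _ _ (by simp)
  have hv : v ∈ F := by rw [hF]; exact IntermediateField.subset_adjoin _ _ (by simp)
  have hFle : F ≤ IntermediateField.adjoin ℂ {u, v, q * z} := by
    rw [hF]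
    apply IntermediateField.adjoin.mono
    rintro x (hx | hx)
    · rw [hx]; simp
    · rw [Set.mem_singleton_iff.1 hx]; simp
  rw [hτ]
  apply le_antisymm
  · refine sup_le hFle ?_
    rw [IntermediateField.adjoin_le_iff]
    rintro x hx
    rw [Set.mem_singleton_iff.1 hx]
    have h1 : z = (q * z) / q := by rw [mul_div_cancel_left₀ _ hq0]
    have h2 : (q * z) / q ∈ IntermediateField.adjoin ℂ {u, v, q * z} :=
      div_mem (IntermediateField.subset_adjoin _ _ (by simp)) (hFle hq)
    rw [← h1] at h2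
    exact h2
  · rw [IntermediateField.adjoin_le_iff]
    rintro x (hx | hx | hx)
    · rw [hx]; exact (le_sup_left : F ≤ _) hu
    · rw [hx]; exact (le_sup_left : F ≤ _) hv
    · rw [Set.mem_singleton_iff.1 hx]
      exact mul_mem ((le_sup_left : F ≤ _) hq)
        ((le_sup_right : IntermediateField.adjoin ℂ {z} ≤ _)
          (IntermediateField.mem_adjoin_simple_self ℂ _))

theorem range_triple (a b c : N) : Set.range ![a, b, c] = {a, b, c} := by
  ext z
  simp only [Set.mem_range, Set.mem_insert_iff, Set.mem_singleton_iff]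
  constructor
  · rintro ⟨i, rfl⟩
    fin_cases i <;> simp
  · rintro (rfl | rfl | rfl)
    · exact ⟨0, rfl⟩
    · exact ⟨1, rfl⟩
    · exact ⟨2, rfl⟩

theorem indep_pair {x e t s : N} (hind : AlgebraicIndependent ℂ ![x, e, t]) (hs : s = 1 - e ^ 2) :
    AlgebraicIndependent ℂ ![x, s] ∧ ∀ F : IntermediateField ℂ N, s ∈ F → IsAlgebraic F e := by
  have h1 : AlgebraicIndependent ℂ ![x, e] := by
    have h := hind.comp ![0, 1] (by
      intro i j hij
      fin_cases i <;> fin_cases j <;> simp_all)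
    have h2 : ![x, e, t] ∘ ![0, 1] = ![x, e] := by
      funext i
      fin_cases i <;> rfl
    rwa [h2] at h
  have h2 : ∀ F : IntermediateField ℂ N, s ∈ F → IsAlgebraic F e := by
    intro F hF
    have h1 : IsIntegral F e := by
      refine IsIntegral.of_pow (n := 2) (by norm_num) ?_
      have h2 : e ^ 2 ∈ F := by
        have h3 : e ^ 2 = 1 - s := by rw [hs]; ring
        rw [h3]
        exact sub_mem (one_mem _) hF
      exact isIntegral_algebraMap (x := (⟨e ^ 2, h2⟩ : F))
    exact h1.isAlgebraic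
  refine ⟨?_, h2⟩
  apply indep_of_algebraic h1
  intro i
  rw [range_pair]
  fin_cases i
  · exact isAlgebraic_mem _ _ (IntermediateField.subset_adjoin _ _ (by simp))
  · exact h2 _ (IntermediateField.subset_adjoin _ _ (by simp))

theorem rational_of_conic {x e t s y z : N} (hind : AlgebraicIndependent ℂ ![x, e, t])
    (hs : s = 1 - e ^ 2) (hz : IsConicType (IntermediateField.adjoin ℂ {x, s}) z)
    (hzy : ∃ c : ℂ, c ≠ 0 ∧ z = algebraMap ℂ N c * y) :
    IsRational (IntermediateField.adjoin ℂ {s, x, y, t}) := by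
  obtain ⟨c, hc, hcz⟩ := hzy
  have hcN : algebraMap ℂ N c ≠ 0 := by
    rwa [Ne, FaithfulSMul.algebraMap_eq_zero_iff]
  obtain ⟨u, τ, huτ⟩ := conic_gens hz
  obtain ⟨-, hea⟩ := indep_pair hind hs
  have hsub : ∀ a ∈ ({s, x, y, t} : Set N), a ∈ IntermediateField.adjoin ℂ {s, x, y, t} :=
    fun a ha => IntermediateField.subset_adjoin _ _ ha
  have hle1 : IntermediateField.adjoin ℂ {x, s} ⊔ IntermediateField.adjoin ℂ {z} ≤
      IntermediateField.adjoin ℂ {s, x, y, t} := by
    refine sup_le ?_ ?_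
    · rw [IntermediateField.adjoin_le_iff]
      rintro a (ha | ha)
      · rw [ha]; exact hsub _ (by simp)
      · rw [Set.mem_singleton_iff.1 ha]; exact hsub _ (by simp)
    · rw [IntermediateField.adjoin_le_iff]
      rintro a ha
      rw [Set.mem_singleton_iff.1 ha, hcz]
      exact mul_mem (IntermediateField.algebraMap_mem _ _) (hsub _ (by simp))
  have hle2 : IntermediateField.adjoin ℂ {x, s} ⊔ IntermediateField.adjoin ℂ {z} ≤
      IntermediateField.adjoin ℂ {u, τ, t} := by
    rw [huτ]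
    apply IntermediateField.adjoin.mono
    rintro a (ha | ha)
    · rw [ha]; simp
    · rw [Set.mem_singleton_iff.1 ha]; simp
  have hEq : IntermediateField.adjoin ℂ {s, x, y, t} =
      IntermediateField.adjoin ℂ (Set.range ![u, τ, t]) := by
    rw [range_triple]
    apply le_antisymm
    · rw [IntermediateField.adjoin_le_iff]
      rintro a (ha | ha | ha | ha)
      · rw [ha]
        exact hle2 ((le_sup_left : IntermediateField.adjoin ℂ {x, s} ≤ _)
          (IntermediateField.subset_adjoin _ _ (by simp)))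
      · rw [ha]
        exact hle2 ((le_sup_left : IntermediateField.adjoin ℂ {x, s} ≤ _)
          (IntermediateField.subset_adjoin _ _ (by simp)))
      · rw [ha]
        have h1 : y = z / algebraMap ℂ N c := by
          rw [hcz, mul_div_cancel_left₀ _ hcN]
        rw [h1]
        exact div_mem (hle2 ((le_sup_right : IntermediateField.adjoin ℂ {z} ≤ _)
          (IntermediateField.mem_adjoin_simple_self ℂ _))) (IntermediateField.algebraMap_mem _ _)
      · rw [Set.mem_singleton_iff.1 ha]
        exact IntermediateField.subset_adjoin _ _ (by simp)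
    · rw [IntermediateField.adjoin_le_iff]
      have h1 : IntermediateField.adjoin ℂ {u, τ} ≤ IntermediateField.adjoin ℂ {s, x, y, t} := by
        rw [← huτ]
        exact hle1
      rintro a (ha | ha | ha)
      · rw [ha]
        exact h1 (IntermediateField.subset_adjoin _ _ (by simp))
      · rw [ha]
        exact h1 (IntermediateField.subset_adjoin _ _ (by simp))
      · rw [Set.mem_singleton_iff.1 ha]
        exact hsub _ (by simp)
  refine isRational_of_gens hind _ _ hEq ?_
  intro i
  fin_cases i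
  · exact isAlgebraic_mem _ _ (hsub _ (by simp))
  · exact hea _ (hsub _ (by simp))
  · exact isAlgebraic_mem _ _ (hsub _ (by simp))

/-- the quotient `ℂ(s, x, y)` of the Jacobian surface, with one more variable -/
theorem jac_rational₁ (p₀ p₁ p₂ q₀ q₁ q₂ q₃ : ℂ) (h : p₂ ≠ 0 ∨ q₃ ≠ 0) {x e y t s : N}
    (hind : AlgebraicIndependent ℂ ![x, e, t]) (hs : s = 1 - e ^ 2)
    (hy : y ^ 2 = x ^ 3 + (algebraMap ℂ N p₀ + algebraMap ℂ N p₁ * s +
      algebraMap ℂ N p₂ * s ^ 2) * x + (algebraMap ℂ N q₀ + algebraMap ℂ N q₁ * s +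
      algebraMap ℂ N q₂ * s ^ 2 + algebraMap ℂ N q₃ * s ^ 3)) :
    IsRational (IntermediateField.adjoin ℂ {s, x, y, t}) := by
  obtain ⟨h1, -⟩ := indep_pair hind hs
  have h2 := jac_conic₁ (-4 * p₀) (-4 * p₁) (-4 * p₂) (-4 * q₀) (-4 * q₁) (-4 * q₂) (-4 * q₃)
    (h.imp (fun h => mul_ne_zero (by norm_num) h) (fun h => mul_ne_zero (by norm_num) h))
    (y := algebraMap ℂ N 2 * y) h1 (by
      rw [mul_pow, hy]
      unfold jf
      simp only [map_mul, map_neg, map_ofNat]
      ring)
  exact rational_of_conic hind hs h2 ⟨2, two_ne_zero, rfl⟩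

/-- the quotient `ℂ(s, x, e y)` of the Jacobian surface, with one more variable -/
theorem jac_rational₂ (p₀ p₁ p₂ q₀ q₁ q₂ q₃ : ℂ)
    (h : p₀ + p₁ + p₂ ≠ 0 ∨ q₀ + q₁ + q₂ + q₃ ≠ 0) {x e y t s : N}
    (hind : AlgebraicIndependent ℂ ![x, e, t]) (hs : s = 1 - e ^ 2)
    (hy : y ^ 2 = x ^ 3 + (algebraMap ℂ N p₀ + algebraMap ℂ N p₁ * s +
      algebraMap ℂ N p₂ * s ^ 2) * x + (algebraMap ℂ N q₀ + algebraMap ℂ N q₁ * s +
      algebraMap ℂ N q₂ * s ^ 2 + algebraMap ℂ N q₃ * s ^ 3)) :
    IsRational (IntermediateField.adjoin ℂ {s, x, e * y, t}) := by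
  obtain ⟨h1, -⟩ := indep_pair hind hs
  have h2 := jac_conic₂ (-4 * p₀) (-4 * p₁) (-4 * p₂) (-4 * q₀) (-4 * q₁) (-4 * q₂) (-4 * q₃)
    (h.imp (fun h => by
      have h3 : -4 * p₀ + -4 * p₁ + -4 * p₂ = -4 * (p₀ + p₁ + p₂) := by ring
      rw [h3]
      exact mul_ne_zero (by norm_num) h) (fun h => by
      have h3 : -4 * q₀ + -4 * q₁ + -4 * q₂ + -4 * q₃ = -4 * (q₀ + q₁ + q₂ + q₃) := by ring
      rw [h3]
      exact mul_ne_zero (by norm_num) h))
    (y := algebraMap ℂ N 2 * (e * y)) h1 (by
      rw [mul_pow, mul_pow, hy]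
      unfold jf
      simp only [map_mul, map_neg, map_ofNat]
      rw [hs]
      ring)
  exact rational_of_conic hind hs h2 ⟨2, two_ne_zero, rfl⟩

end

end Vale.Agent.P297.H160
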