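import Vale.Agent.P297.H160.Ev

/-! Kernel-friendly checker for identities of polynomials over `ℤ[s]`, `s³ = s² - 1`, modulo a
quadratic relation `q² = r0 + r1 q`: Kronecker substitution with mixed radices. -/

namespace Vale.Agent.P297.H160

open MvPolynomial

/-- triples `x + y s + z s²`. -/
structure A3 (R : Type*) where
  x : R
  y : R
  z : R

/-- pairs `a + b q`. -/
structure A6 (R : Type*) where
  a : A3 R
  b : A3 R

/-- base operations. -/
structure Bo (R : Type*) where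
  ad : R → R → R
  sb : R → R → R
  ml : R → R → R
  ci : ℤ → R
  vr : ℕ → R
  fc : R → Bool

namespace Bo

variable {R : Type*} (o : Bo R)

/-- sum. -/
def add3 : A3 R → A3 R → A3 R
  | ⟨x, y, z⟩, ⟨x', y', z'⟩ => ⟨o.ad x x', o.ad y y', o.ad z z'⟩

/-- difference. -/
def sub3 : A3 R → A3 R → A3 R
  | ⟨x, y, z⟩, ⟨x', y', z'⟩ => ⟨o.sb x x', o.sb y y', o.sb z z'⟩

/-- product, `s³ = s² - 1`. -/
def mul3 : A3 R → A3 R → A3 R
  | ⟨x, y, z⟩, ⟨x', y', z'⟩ =>
    ⟨o.sb (o.ml x x') (o.ad (o.ad (o.ml y z') (o.ml z y')) (o.ml z z')),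
      o.sb (o.ad (o.ml x y') (o.ml y x')) (o.ml z z'),
      o.ad (o.ad (o.ad (o.ml x z') (o.ml y y')) (o.ml z x'))
        (o.ad (o.ad (o.ml y z') (o.ml z y')) (o.ml z z'))⟩

/-- force evaluation. -/
def fc3 : A3 R → Bool
  | ⟨x, y, z⟩ => o.fc x && o.fc y && o.fc z

/-- the algebra of triples. -/
def al3 : Al (A3 R) where
  add := o.add3
  sub := o.sub3
  mul := o.mul3
  cst := fun x y z => ⟨o.ci x, o.ci y, o.ci z⟩
  var := fun i => ⟨o.vr i, o.ci 0, o.ci 0⟩
  q := ⟨o.ci 0, o.ci 0, o.ci 0⟩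
  fc := o.fc3

/-- the algebra of pairs. -/
def al6 (r0 r1 : A3 R) : Al (A6 R) where
  add := fun p p' => match p, p' with
    | ⟨a, b⟩, ⟨a', b'⟩ => ⟨o.add3 a a', o.add3 b b'⟩
  sub := fun p p' => match p, p' with
    | ⟨a, b⟩, ⟨a', b'⟩ => ⟨o.sub3 a a', o.sub3 b b'⟩
  mul := fun p p' => match p, p' with
    | ⟨a, b⟩, ⟨a', b'⟩ =>
      ⟨o.add3 (o.mul3 a a') (o.mul3 r0 (o.mul3 b b')),
        o.add3 (o.add3 (o.mul3 a b') (o.mul3 b a')) (o.mul3 r1 (o.mul3 b b'))⟩
  cst := fun x y z => ⟨⟨o.ci x, o.ci y, o.ci z⟩, ⟨o.ci 0, o.ci 0, o.ci 0⟩⟩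
  var := fun i => ⟨⟨o.vr i, o.ci 0, o.ci 0⟩, ⟨o.ci 0, o.ci 0, o.ci 0⟩⟩
  q := ⟨⟨o.ci 0, o.ci 0, o.ci 0⟩, ⟨o.ci 1, o.ci 0, o.ci 0⟩⟩
  fc := fun p => match p with
    | ⟨a, b⟩ => o.fc3 a && o.fc3 b

/-- all programs: `R0`, `R1` define the relation, `es` is run in the extension. -/
def runAll (R0 R1 : Ex) (es : List Ex) : List (A6 R) :=
  (o.al6 (o.al3.ev [] R0) (o.al3.ev [] R1)).run [] es

end Bo

/-- componentwise relation. -/
def L3 {R S : Type*} (ρ : R → S → Prop) (p : A3 R) (p' : A3 S) : Prop :=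
  ρ p.x p'.x ∧ ρ p.y p'.y ∧ ρ p.z p'.z

/-- componentwise relation. -/
def L6 {R S : Type*} (ρ : R → S → Prop) (p : A6 R) (p' : A6 S) : Prop :=
  L3 ρ p.a p'.a ∧ L3 ρ p.b p'.b

/-- compatible base relation. -/
structure BRel {R S : Type*} (o : Bo R) (o' : Bo S) (ρ : R → S → Prop) : Prop where
  ad : ∀ {a b a' b'}, ρ a a' → ρ b b' → ρ (o.ad a b) (o'.ad a' b')
  sb : ∀ {a b a' b'}, ρ a a' → ρ b b' → ρ (o.sb a b) (o'.sb a' b')
  ml : ∀ {a b a' b'}, ρ a a' → ρ b b' → ρ (o.ml a b) (o'.ml a' b')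
  ci : ∀ x, ρ (o.ci x) (o'.ci x)
  vr : ∀ i, ρ (o.vr i) (o'.vr i)

namespace BRel

variable {R S : Type*} {o : Bo R} {o' : Bo S} {ρ : R → S → Prop} (h : BRel o o' ρ)
include h

theorem add3 {a b : A3 R} {a' b' : A3 S} (ha : L3 ρ a a') (hb : L3 ρ b b') :
    L3 ρ (o.add3 a b) (o'.add3 a' b') :=
  ⟨h.ad ha.1 hb.1, h.ad ha.2.1 hb.2.1, h.ad ha.2.2 hb.2.2⟩

theorem sub3 {a b : A3 R} {a' b' : A3 S} (ha : L3 ρ a a') (hb : L3 ρ b b') :
    L3 ρ (o.sub3 a b) (o'.sub3 a' b') :=
  ⟨h.sb ha.1 hb.1, h.sb ha.2.1 hb.2.1, h.sb ha.2.2 hb.2.2⟩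

theorem mul3 {a b : A3 R} {a' b' : A3 S} (ha : L3 ρ a a') (hb : L3 ρ b b') :
    L3 ρ (o.mul3 a b) (o'.mul3 a' b') := by
  obtain ⟨x, y, z⟩ := a
  obtain ⟨x2, y2, z2⟩ := b
  obtain ⟨u, v, w⟩ := a'
  obtain ⟨u2, v2, w2⟩ := b'
  obtain ⟨h1, h2, h3⟩ := ha
  obtain ⟨k1, k2, k3⟩ := hb
  exact ⟨h.sb (h.ml h1 k1) (h.ad (h.ad (h.ml h2 k3) (h.ml h3 k2)) (h.ml h3 k3)),
    h.sb (h.ad (h.ml h1 k2) (h.ml h2 k1)) (h.ml h3 k3),
    h.ad (h.ad (h.ad (h.ml h1 k3) (h.ml h2 k2)) (h.ml h3 k1))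
      (h.ad (h.ad (h.ml h2 k3) (h.ml h3 k2)) (h.ml h3 k3))⟩

theorem rel3 : Rel o.al3 o'.al3 (L3 ρ) where
  add := h.add3
  sub := h.sub3
  mul := h.mul3
  cst x y z := ⟨h.ci x, h.ci y, h.ci z⟩
  var i := ⟨h.vr i, h.ci 0, h.ci 0⟩
  q := ⟨h.ci 0, h.ci 0, h.ci 0⟩

theorem rel6 {r0 r1 : A3 R} {r0' r1' : A3 S} (h0 : L3 ρ r0 r0') (h1 : L3 ρ r1 r1') :
    Rel (o.al6 r0 r1) (o'.al6 r0' r1') (L6 ρ) where
  add := fun ha hb => ⟨h.add3 ha.1 hb.1, h.add3 ha.2 hb.2⟩
  sub := fun ha hb => ⟨h.sub3 ha.1 hb.1, h.sub3 ha.2 hb.2⟩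
  mul := fun ha hb => ⟨h.add3 (h.mul3 ha.1 hb.1) (h.mul3 h0 (h.mul3 ha.2 hb.2)),
    h.add3 (h.add3 (h.mul3 ha.1 hb.2) (h.mul3 ha.2 hb.1)) (h.mul3 h1 (h.mul3 ha.2 hb.2))⟩
  cst x y z := ⟨⟨h.ci x, h.ci y, h.ci z⟩, ⟨h.ci 0, h.ci 0, h.ci 0⟩⟩
  var i := ⟨⟨h.vr i, h.ci 0, h.ci 0⟩, ⟨h.ci 0, h.ci 0, h.ci 0⟩⟩
  q := ⟨⟨h.ci 0, h.ci 0, h.ci 0⟩, ⟨h.ci 1, h.ci 0, h.ci 0⟩⟩

theorem runAll (R0 R1 : Ex) (es : List Ex) :
    List.Forall₂ (L6 ρ) (o.runAll R0 R1 es) (o'.runAll R0 R1 es) :=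
  (h.rel6 (h.rel3.ev .nil R0) (h.rel3.ev .nil R1)).run es .nil

end BRel

/-! ### the base algebras -/

/-- polynomials. -/
noncomputable def boP (m : ℕ) : Bo (MvPolynomial (Fin m) ℤ) where
  ad := fun a b => a + b
  sb := fun a b => a - b
  ml := fun a b => a * b
  ci := fun z => C z
  vr := fun i => if h : i < m then X ⟨i, h⟩ else 0
  fc := fun _ => true

/-- force an integer. -/
def fcZ : ℤ → Bool
  | .ofNat n => Nat.beq n n
  | .negSucc n => Nat.beq n n

/-- integers. -/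
def boZ (m : ℕ) (B : ℕ → ℕ) : Bo ℤ where
  ad := Int.add
  sb := Int.sub
  ml := Int.mul
  ci := fun z => z
  vr := fun i => match Nat.blt i m with
    | true => Int.ofNat (B i)
    | false => 0
  fc := fcZ

/-- bounds. -/
def boN (m k : ℕ) (B : ℕ → ℕ) : Bo ℕ where
  ad := Nat.add
  sb := Nat.add
  ml := Nat.mul
  ci := fun z => z.natAbs
  vr := fun i => match Nat.blt i m with
    | true => match Nat.blt i k with
      | true => B i
      | false => 1
    | false => 0
  fc := fun n => Nat.beq n n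

theorem relPZ (m : ℕ) (B : ℕ → ℕ) : BRel (boP m) (boZ m B)
    (fun p n => eval (fun i : Fin m => (B i : ℤ)) p = n) where
  ad := by
    rintro a b a' b' rfl rfl
    exact map_add _ _ _
  sb := by
    rintro a b a' b' rfl rfl
    exact map_sub _ _ _
  ml := by
    rintro a b a' b' rfl rfl
    exact map_mul _ _ _
  ci x := by simp [boP, boZ]
  vr i := by
    simp only [boP, boZ]
    split <;> rename_i h <;> split <;> rename_i h'
    · simp
    · exfalso
      have := Nat.blt_eq.mpr h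
      rw [this] at h'
      exact Bool.noConfusion h'
    · exact absurd (Nat.blt_eq.mp h') h
    · simp

/-- domination: the absolute evaluation at `w` is at most `n`. -/
def Bd {m : ℕ} (w : Fin m → ℕ) (p : MvPolynomial (Fin m) ℤ) (n : ℕ) : Prop :=
  ∃ Q : MvPolynomial (Fin m) ℕ, (∀ s, |coeff s p| ≤ ((coeff s Q : ℕ) : ℤ)) ∧ eval w Q ≤ n

theorem Bd.add {m : ℕ} {w : Fin m → ℕ} {p p' : MvPolynomial (Fin m) ℤ} {n n' : ℕ}
    (h : Bd w p n) (h' : Bd w p' n') : Bd w (p + p') (n + n') := by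
  obtain ⟨Q, h1, h2⟩ := h
  obtain ⟨Q', h1', h2'⟩ := h'
  refine ⟨Q + Q', fun s => ?_, by rw [map_add]; omega⟩
  simp only [coeff_add]
  push_cast
  exact (abs_add_le _ _).trans (add_le_add (h1 s) (h1' s))

theorem Bd.neg {m : ℕ} {w : Fin m → ℕ} {p : MvPolynomial (Fin m) ℤ} {n : ℕ}
    (h : Bd w p n) : Bd w (-p) n := by
  obtain ⟨Q, h1, h2⟩ := h
  refine ⟨Q, fun s => ?_, h2⟩
  rw [coeff_neg, abs_neg]
  exact h1 s

theorem Bd.mul {m : ℕ} {w : Fin m → ℕ} {p p' : MvPolynomial (Fin m) ℤ} {n n' : ℕ}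
    (h : Bd w p n) (h' : Bd w p' n') : Bd w (p * p') (n * n') := by
  obtain ⟨Q, h1, h2⟩ := h
  obtain ⟨Q', h1', h2'⟩ := h'
  refine ⟨Q * Q', fun s => ?_, by rw [map_mul]; exact Nat.mul_le_mul h2 h2'⟩
  simp only [coeff_mul]
  push_cast
  refine (Finset.abs_sum_le_sum_abs _ _).trans (Finset.sum_le_sum ?_)
  intro x _
  rw [abs_mul]
  exact mul_le_mul (h1 _) (h1' _) (abs_nonneg _) (le_trans (abs_nonneg _) (h1 _))

theorem relPN (m k : ℕ) (B : ℕ → ℕ) : BRel (boP m) (boN m k B)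
    (Bd (fun i : Fin m => if (i : ℕ) < k then B i else 1)) where
  ad := fun h h' => h.add h'
  sb := by
    intro a b a' b' h h'
    have := h.add h'.neg
    rwa [← sub_eq_add_neg] at this
  ml := fun h h' => h.mul h'
  ci x := by
    refine ⟨C x.natAbs, fun s => ?_, by simp [boN]⟩
    simp only [boP, coeff_C]
    split_ifs <;> simp
  vr i := by
    simp only [boP, boN]
    split <;> rename_i h
    · refine ⟨X ⟨i, h⟩, fun s => ?_, ?_⟩
      · simp only [coeff_X]
        split_ifs <;> simp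
      · rw [eval_X]
        rw [Nat.blt_eq.mpr h]
        simp only
        split_ifs with h1
        · rw [Nat.blt_eq.mpr h1]
        · have : Nat.blt i k = false := by
            rw [← Bool.not_eq_true, Nat.blt_eq]; exact h1
          rw [this]
    · exact ⟨0, fun s => by simp, by simp⟩

theorem Bd.sum_le {m : ℕ} {w : Fin m → ℕ} {p : MvPolynomial (Fin m) ℤ} {n : ℕ}
    (h : Bd w p n) : ∑ s ∈ p.support, |coeff s p| * ∏ i, (w i : ℤ) ^ s i ≤ n := by
  classical
  obtain ⟨Q, h1, h2⟩ := h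
  have hsub : p.support ⊆ Q.support := by
    intro s hs
    rw [mem_support_iff] at hs ⊢
    intro h0
    have := h1 s
    rw [h0] at this
    simp only [Nat.cast_zero, abs_nonpos_iff] at this
    exact hs this
  have h3 : ∑ s ∈ p.support, |coeff s p| * ∏ i, (w i : ℤ) ^ s i
      ≤ ∑ s ∈ Q.support, ((coeff s Q : ℕ) : ℤ) * ∏ i, (w i : ℤ) ^ s i := by
    refine (Finset.sum_le_sum fun s _ => mul_le_mul_of_nonneg_right (h1 s)
      (Finset.prod_nonneg fun i _ => by positivity)).trans ?_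
    exact Finset.sum_le_sum_of_subset_of_nonneg hsub fun s _ _ => by positivity
  refine h3.trans ?_
  have h4 : ∑ s ∈ Q.support, ((coeff s Q : ℕ) : ℤ) * ∏ i, (w i : ℤ) ^ s i
      = ((eval w Q : ℕ) : ℤ) := by
    rw [eval_eq']
    push_cast
    rfl
  rw [h4]
  exact_mod_cast h2

/-- digits, one variable. -/
theorem dig1 (b : ℕ) (J : Finset ℕ) (a : ℕ → ℤ) (ha : ∀ j ∈ J, |a j| < b)
    (h : ∑ j ∈ J, a j * (b : ℤ) ^ j = 0) : ∀ j ∈ J, a j = 0 := by
  classical
  by_contra hne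
  push Not at hne
  obtain ⟨j1, hj1, hne1⟩ := hne
  have hb : (b : ℤ) ≠ 0 := by
    have := ha j1 hj1
    have h2 := abs_nonneg (a j1)
    omega
  obtain ⟨j0, hj0, hmin⟩ := Finset.exists_min_image (J.filter fun j => a j ≠ 0) id
    ⟨j1, Finset.mem_filter.mpr ⟨hj1, hne1⟩⟩
  rw [Finset.mem_filter] at hj0
  have h' : ∑ j ∈ J.filter (fun j => a j ≠ 0), a j * (b : ℤ) ^ j = 0 := by
    rw [Finset.sum_filter]
    refine (Finset.sum_congr rfl fun j _ => ?_).trans h
    by_cases h0 : a j = 0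
    · simp [h0]
    · simp [h0]
  rw [← Finset.add_sum_erase _ _ (Finset.mem_filter.mpr hj0)] at h'
  have hdvd : (b : ℤ) ^ (j0 + 1) ∣
      ∑ j ∈ (J.filter (fun j => a j ≠ 0)).erase j0, a j * (b : ℤ) ^ j := by
    apply Finset.dvd_sum
    intro j hj
    rw [Finset.mem_erase] at hj
    have := hmin j hj.2
    simp only [id_eq] at this
    exact Dvd.dvd.mul_left (pow_dvd_pow _ (by omega)) _
  have hdvd2 : (b : ℤ) ^ (j0 + 1) ∣ a j0 * (b : ℤ) ^ j0 := by
    have e : a j0 * (b : ℤ) ^ j0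
        = -∑ j ∈ (J.filter (fun j => a j ≠ 0)).erase j0, a j * (b : ℤ) ^ j := by
      linarith
    rw [e]
    exact (dvd_neg).mpr hdvd
  have hdvd3 : (b : ℤ) ∣ a j0 := by
    rw [pow_succ', mul_comm (a j0)] at hdvd2
    rw [mul_comm (b : ℤ)] at hdvd2
    exact Int.dvd_of_mul_dvd_mul_left (pow_ne_zero _ hb) hdvd2
  exact hj0.2 (Int.eq_zero_of_abs_lt_dvd hdvd3 (ha j0 hj0.1))

/-- digits, mixed radices. -/
theorem dig {ι : Type*} (B : ℕ → ℕ) (e : ι → ℕ → ℕ) (c : ι → ℤ) : ∀ (m : ℕ) (S : Finset ι),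
    (∀ s ∈ S, ∀ t ∈ S, (∀ i < m, e s i = e t i) → s = t) →
    (∀ k < m, ∑ s ∈ S, |c s| * ∏ i ∈ Finset.range k, (B i : ℤ) ^ e s i < B k) →
    ∑ s ∈ S, c s * ∏ i ∈ Finset.range m, (B i : ℤ) ^ e s i = 0 → ∀ s ∈ S, c s = 0
  | 0, S, hinj, _, h0, s, hs => by
    classical
    have hS : S = {s} := by
      ext t
      rw [Finset.mem_singleton]
      exact ⟨fun ht => hinj t ht s hs fun i hi => absurd hi (Nat.not_lt_zero i), fun h => h ▸ hs⟩
    rw [hS, Finset.sum_singleton] at h0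
    simpa using h0
  | m + 1, S, hinj, hB, h0, s, hs => by
    classical
    let a : ℕ → ℤ := fun j =>
      ∑ t ∈ S.filter (fun t => e t m = j), c t * ∏ i ∈ Finset.range m, (B i : ℤ) ^ e t i
    have hle : ∀ (j k : ℕ), ∑ t ∈ S.filter (fun t => e t m = j),
        |c t| * ∏ i ∈ Finset.range k, (B i : ℤ) ^ e t i
        ≤ ∑ t ∈ S, |c t| * ∏ i ∈ Finset.range k, (B i : ℤ) ^ e t i := fun j k =>
      Finset.sum_le_sum_of_subset_of_nonneg (Finset.filter_subset _ _)
        fun t _ _ => mul_nonneg (abs_nonneg _) (Finset.prod_nonneg fun i _ => by positivity)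
    have ha : ∀ j, |a j| < B m := by
      intro j
      refine lt_of_le_of_lt ?_ (hB m (Nat.lt_succ_self m))
      refine (Finset.abs_sum_le_sum_abs _ _).trans ?_
      refine le_trans (le_of_eq ?_) (hle j m)
      refine Finset.sum_congr rfl fun t _ => ?_
      rw [abs_mul, abs_of_nonneg (a := ∏ i ∈ Finset.range m, (B i : ℤ) ^ e t i)
        (Finset.prod_nonneg fun i _ => by positivity)]
    have hsum : ∑ j ∈ S.image (fun t => e t m), a j * (B m : ℤ) ^ j = 0 := by
      rw [← h0]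
      rw [← Finset.sum_fiberwise_of_maps_to (g := fun t => e t m)
        (t := S.image (fun t => e t m)) (fun t ht => Finset.mem_image_of_mem _ ht)]
      refine Finset.sum_congr rfl fun j _ => ?_
      simp only [a]
      rw [Finset.sum_mul]
      refine Finset.sum_congr rfl fun t ht => ?_
      rw [Finset.mem_filter] at ht
      rw [Finset.prod_range_succ, ht.2]
      ring
    have hz := dig1 (B m) _ a (fun j _ => ha j) hsum (e s m) (Finset.mem_image_of_mem _ hs)
    refine dig B e c m (S.filter (fun t => e t m = e s m)) ?_ ?_ hz s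
      (Finset.mem_filter.mpr ⟨hs, rfl⟩)
    · intro t ht t' ht' hi
      rw [Finset.mem_filter] at ht ht'
      refine hinj t ht.1 t' ht'.1 fun i him => ?_
      rcases Nat.lt_succ_iff_lt_or_eq.mp him with h | h
      · exact hi i h
      · rw [h, ht.2, ht'.2]
    · intro k hk
      exact lt_of_le_of_lt (hle _ k) (hB k (Nat.lt_succ_of_lt hk))

/-- vanishing criterion. -/
theorem poly_zero {m : ℕ} (B : ℕ → ℕ) (p : MvPolynomial (Fin m) ℤ)
    (hB : ∀ k < m, Bd (fun i : Fin m => if (i : ℕ) < k then B i else 1) p (B k - 1) ∧ 0 < B k)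
    (h : eval (fun i : Fin m => (B i : ℤ)) p = 0) : p = 0 := by
  classical
  let e : (Fin m →₀ ℕ) → ℕ → ℕ := fun s i => if h : i < m then s ⟨i, h⟩ else 0
  have hprod : ∀ (s : Fin m →₀ ℕ) (f : ℕ → ℤ),
      ∏ i : Fin m, f i ^ s i = ∏ i ∈ Finset.range m, f i ^ e s i := by
    intro s f
    rw [← Fin.prod_univ_eq_prod_range (fun i => f i ^ e s i) m]
    refine Finset.prod_congr rfl fun i _ => ?_
    simp [e]
  have key := dig B e (fun s => coeff s p) m p.support ?_ ?_ ?_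
  · ext s
    rw [coeff_zero]
    by_contra hne
    exact hne (key s (mem_support_iff.mpr hne))
  · intro s _ t _ hst
    ext i
    have := hst i i.2
    simpa [e] using this
  · intro k hk
    have h1 := (hB k hk).1.sum_le
    have h2 := (hB k hk).2
    refine lt_of_le_of_lt ?_ (lt_of_le_of_lt h1 (by push_cast [Nat.cast_sub h2]; omega))
    refine le_of_eq (Finset.sum_congr rfl fun s _ => ?_)
    congr 1
    have h3 := hprod s (fun i => ((if i < k then B i else 1 : ℕ) : ℤ))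
    rw [h3]
    have h4 : Finset.range k ⊆ Finset.range m := Finset.range_subset_range.mpr hk.le
    rw [← Finset.prod_subset h4]
    · refine Finset.prod_congr rfl fun i hi => ?_
      rw [if_pos (Finset.mem_range.mp hi)]
    · intro i _ hi
      rw [if_neg (fun h => hi (Finset.mem_range.mpr h))]
      simp
  · rw [eval_eq'] at h
    rw [← h]
    refine Finset.sum_congr rfl fun s _ => ?_
    rw [hprod s (fun i => (B i : ℤ))]

/-! ### semantics -/

section sem

variable {A : Type*} [CommRing A] (s q : A) (f : ℕ → A)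

/-- evaluation in a commutative ring. -/
def rg (m : ℕ) : Al A where
  add := fun a b => a + b
  sub := fun a b => a - b
  mul := fun a b => a * b
  cst := fun x y z => x + y * s + z * s ^ 2
  var := fun i => if i < m then f i else 0
  q := q
  fc := fun _ => true

/-- value of a triple. -/
noncomputable def val3 {m : ℕ} (p : A3 (MvPolynomial (Fin m) ℤ)) : A :=
  aeval (fun i : Fin m => f i) p.x + aeval (fun i : Fin m => f i) p.y * s
    + aeval (fun i : Fin m => f i) p.z * s ^ 2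

variable {s}

theorem val3_add {m : ℕ} (p p' : A3 (MvPolynomial (Fin m) ℤ)) :
    val3 s f ((boP m).add3 p p') = val3 s f p + val3 s f p' := by
  simp only [val3, Bo.add3, boP, map_add]
  ring

theorem val3_sub {m : ℕ} (p p' : A3 (MvPolynomial (Fin m) ℤ)) :
    val3 s f ((boP m).sub3 p p') = val3 s f p - val3 s f p' := by
  simp only [val3, Bo.sub3, boP, map_sub]
  ring

theorem val3_mul (hs : s ^ 3 = s ^ 2 - 1) {m : ℕ} (p p' : A3 (MvPolynomial (Fin m) ℤ)) :
    val3 s f ((boP m).mul3 p p') = val3 s f p * val3 s f p' := by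
  simp only [val3, Bo.mul3, boP, map_add, map_sub, map_mul]
  generalize aeval (fun i : Fin m => f i) p.x = x
  generalize aeval (fun i : Fin m => f i) p.y = y
  generalize aeval (fun i : Fin m => f i) p.z = z
  generalize aeval (fun i : Fin m => f i) p'.x = x'
  generalize aeval (fun i : Fin m => f i) p'.y = y'
  generalize aeval (fun i : Fin m => f i) p'.z = z'
  linear_combination (-(y * z' + z * y') - z * z' * s - z * z') * hs

theorem relPA3 (hs : s ^ 3 = s ^ 2 - 1) (m : ℕ) :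
    Rel (boP m).al3 (rg s 0 f m) (fun p a => val3 s f p = a) where
  add := by
    rintro a b a' b' rfl rfl
    exact val3_add f a b
  sub := by
    rintro a b a' b' rfl rfl
    exact val3_sub f a b
  mul := by
    rintro a b a' b' rfl rfl
    exact val3_mul f hs a b
  cst x y z := by
    simp [Bo.al3, boP, val3, rg]
  var i := by
    simp only [Bo.al3, boP, val3, rg]
    split_ifs <;> simp
  q := by simp [Bo.al3, boP, val3, rg]

theorem relPA6 (hs : s ^ 3 = s ^ 2 - 1) (m : ℕ) (r0 r1 : A3 (MvPolynomial (Fin m) ℤ))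
    (hq : q ^ 2 = val3 s f r0 + val3 s f r1 * q) :
    Rel ((boP m).al6 r0 r1) (rg s q f m) (fun p a => val3 s f p.a + val3 s f p.b * q = a) where
  add := by
    rintro a b a' b' rfl rfl
    simp only [Bo.al6, rg, val3_add]
    ring
  sub := by
    rintro a b a' b' rfl rfl
    simp only [Bo.al6, rg, val3_sub]
    ring
  mul := by
    rintro a b a' b' rfl rfl
    simp only [Bo.al6, rg, val3_add, val3_mul f hs]
    linear_combination (-(val3 s f a.b * val3 s f b.b)) * hq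
  cst x y z := by
    simp [Bo.al6, boP, val3, rg]
  var i := by
    simp only [Bo.al6, boP, val3, rg]
    split_ifs <;> simp
  q := by simp [Bo.al6, boP, val3, rg]

end sem

/-- every component of a pair satisfies a test. -/
def all6 {R : Type*} (t : R → Bool) : A6 R → Bool
  | ⟨⟨x, y, z⟩, ⟨u, v, w⟩⟩ => t x && t y && t z && t u && t v && t w

/-- test for zero. -/
def isZ : ℤ → Bool
  | .ofNat n => Nat.beq n 0
  | .negSucc _ => false

/-- the top register. -/
def top {R : Type*} (t : A6 R → Bool) : List (A6 R) → Bool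
  | [] => false
  | x :: _ => t x

/-- bit sizes to radices. -/
def rad : List ℕ → ℕ → ℕ
  | [], _ => 1
  | L :: _, 0 => 2 ^ L
  | _ :: l, i + 1 => rad l i

/-- bounds for all radices. -/
def bnds (R0 R1 : Ex) (es : List Ex) (m : ℕ) (B : ℕ → ℕ) : ℕ → Bool
  | 0 => true
  | k + 1 => bnds R0 R1 es m B k &&
      top (all6 fun n => Nat.blt n (B k)) ((boN m k B).runAll R0 R1 es)

/-- **the check**: `L` lists the bit sizes of the radices, one for each variable. -/
def check (R0 R1 : Ex) (es : List Ex) (L : List ℕ) : Bool :=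
  top (all6 isZ) ((boZ L.length (rad L)).runAll R0 R1 es) &&
    bnds R0 R1 es L.length (rad L) L.length

theorem bnds_spec (R0 R1 : Ex) (es : List Ex) (m : ℕ) (B : ℕ → ℕ) : ∀ n,
    bnds R0 R1 es m B n = true → ∀ k < n,
      top (all6 fun n => Nat.blt n (B k)) ((boN m k B).runAll R0 R1 es) = true
  | 0, _, k, hk => absurd hk (Nat.not_lt_zero k)
  | n + 1, h, k, hk => by
    simp only [bnds, Bool.and_eq_true] at h
    rcases Nat.lt_succ_iff_lt_or_eq.mp hk with h1 | h1
    · exact bnds_spec R0 R1 es m B n h.1 k h1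
    · rw [h1]; exact h.2

/-- **soundness**: the top register vanishes in every ring. -/
theorem check_sound {R0 R1 : Ex} {es : List Ex} {L : List ℕ} (h : check R0 R1 es L = true)
    {A : Type*} [CommRing A] {s q : A} (f : ℕ → A) (hs : s ^ 3 = s ^ 2 - 1)
    (hq : q ^ 2 = (rg s 0 f L.length).ev [] R0 + (rg s 0 f L.length).ev [] R1 * q) :
    ∃ l, (rg s q f L.length).run [] es = 0 :: l := by
  simp only [check, Bool.and_eq_true] at h
  obtain ⟨h1, h2⟩ := h
  have h3 := bnds_spec R0 R1 es L.length (rad L) L.length h2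
  set m := L.length with hm
  set B := rad L with hB
  have k1 := (relPZ m B).runAll R0 R1 es
  have k2 := fun k => (relPN m k B).runAll R0 R1 es
  have r3 := relPA3 f hs m
  have e0 : val3 s f ((boP m).al3.ev [] R0) = (rg s 0 f m).ev [] R0 := r3.ev .nil R0
  have e1 : val3 s f ((boP m).al3.ev [] R1) = (rg s 0 f m).ev [] R1 := r3.ev .nil R1
  have k3 := (relPA6 q f hs m ((boP m).al3.ev [] R0) ((boP m).al3.ev [] R1)
    (by rw [e0, e1]; exact hq)).run es .nil
  change List.Forall₂ _ ((boP m).runAll R0 R1 es) _ at k3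
  generalize (boP m).runAll R0 R1 es = lp at k1 k2 k3
  generalize (boZ m B).runAll R0 R1 es = lz at k1 h1
  generalize hrg : (rg s q f m).run [] es = la at k3 ⊢
  cases k1 with
  | nil => simp [top] at h1
  | cons hz _ =>
    rename_i p z lp' lz' _
    cases k3 with
    | cons ha _ =>
      rename_i a la' _
      refine ⟨la', ?_⟩
      congr 1
      rw [← ha]
      have hb : ∀ k < m, ∀ (g : A6 (MvPolynomial (Fin m) ℤ) → MvPolynomial (Fin m) ℤ)
          (g' : A6 ℕ → ℕ), (∀ (ρ : MvPolynomial (Fin m) ℤ → ℕ → Prop) p p',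
            L6 ρ p p' → ρ (g p) (g' p')) →
          (∀ t p, all6 t p = true → t (g' p) = true) →
          Bd (fun i : Fin m => if (i : ℕ) < k then B i else 1) (g p) (B k - 1) ∧ 0 < B k := by
        intro k hk g g' hg hg'
        have hh := h3 k hk
        have hk2 := k2 k
        generalize (boN m k B).runAll R0 R1 es = ln at hk2 hh
        cases hk2 with
        | cons hn _ =>
          rename_i n ln' _
          have h5 := hg _ _ _ hn
          have h6 := Nat.blt_eq.mp (hg' (fun n => Nat.blt n (B k)) n hh)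
          obtain ⟨Q, h7, h8⟩ := h5
          exact ⟨⟨Q, h7, by omega⟩, by omega⟩
      have hzero : ∀ (g : A6 (MvPolynomial (Fin m) ℤ) → MvPolynomial (Fin m) ℤ)
          (g' : A6 ℕ → ℕ) (g'' : A6 ℤ → ℤ), (∀ (ρ : MvPolynomial (Fin m) ℤ → ℕ → Prop) p p',
            L6 ρ p p' → ρ (g p) (g' p')) →
          (∀ (ρ : MvPolynomial (Fin m) ℤ → ℤ → Prop) p p', L6 ρ p p' → ρ (g p) (g'' p')) →
          (∀ t p, all6 t p = true → t (g' p) = true) →
          (∀ t p, all6 t p = true → t (g'' p) = true) → g p = 0 := by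
        intro g g' g'' hg1 hg2 hg3 hg4
        refine poly_zero B (g p) (fun k hk => hb k hk g g' hg1 hg3) ?_
        have h5 := hg2 _ _ _ hz
        have h6 := hg4 _ z h1
        rw [h5]
        revert h6
        generalize g'' z = w
        intro h6
        cases w with
        | ofNat n =>
          rw [Nat.eq_of_beq_eq_true (show Nat.beq n 0 = true from h6)]; rfl
        | negSucc n => simp [isZ] at h6
      have z1 := hzero (fun p => p.a.x) (fun p => p.a.x) (fun p => p.a.x)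
        (fun _ _ _ h => h.1.1) (fun _ _ _ h => h.1.1)
        (fun t p h => by
          obtain ⟨⟨x, y, z⟩, ⟨u, v, w⟩⟩ := p
          simp only [all6, Bool.and_eq_true] at h; exact h.1.1.1.1.1)
        (fun t p h => by
          obtain ⟨⟨x, y, z⟩, ⟨u, v, w⟩⟩ := p
          simp only [all6, Bool.and_eq_true] at h; exact h.1.1.1.1.1)
      have z2 := hzero (fun p => p.a.y) (fun p => p.a.y) (fun p => p.a.y)
        (fun _ _ _ h => h.1.2.1) (fun _ _ _ h => h.1.2.1)
        (fun t p h => by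
          obtain ⟨⟨x, y, z⟩, ⟨u, v, w⟩⟩ := p
          simp only [all6, Bool.and_eq_true] at h; exact h.1.1.1.1.2)
        (fun t p h => by
          obtain ⟨⟨x, y, z⟩, ⟨u, v, w⟩⟩ := p
          simp only [all6, Bool.and_eq_true] at h; exact h.1.1.1.1.2)
      have z3 := hzero (fun p => p.a.z) (fun p => p.a.z) (fun p => p.a.z)
        (fun _ _ _ h => h.1.2.2) (fun _ _ _ h => h.1.2.2)
        (fun t p h => by
          obtain ⟨⟨x, y, z⟩, ⟨u, v, w⟩⟩ := p
          simp only [all6, Bool.and_eq_true] at h; exact h.1.1.1.2)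
        (fun t p h => by
          obtain ⟨⟨x, y, z⟩, ⟨u, v, w⟩⟩ := p
          simp only [all6, Bool.and_eq_true] at h; exact h.1.1.1.2)
      have z4 := hzero (fun p => p.b.x) (fun p => p.b.x) (fun p => p.b.x)
        (fun _ _ _ h => h.2.1) (fun _ _ _ h => h.2.1)
        (fun t p h => by
          obtain ⟨⟨x, y, z⟩, ⟨u, v, w⟩⟩ := p
          simp only [all6, Bool.and_eq_true] at h; exact h.1.1.2)
        (fun t p h => by
          obtain ⟨⟨x, y, z⟩, ⟨u, v, w⟩⟩ := p
          simp only [all6, Bool.and_eq_true] at h; exact h.1.1.2)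
      have z5 := hzero (fun p => p.b.y) (fun p => p.b.y) (fun p => p.b.y)
        (fun _ _ _ h => h.2.2.1) (fun _ _ _ h => h.2.2.1)
        (fun t p h => by
          obtain ⟨⟨x, y, z⟩, ⟨u, v, w⟩⟩ := p
          simp only [all6, Bool.and_eq_true] at h; exact h.1.2)
        (fun t p h => by
          obtain ⟨⟨x, y, z⟩, ⟨u, v, w⟩⟩ := p
          simp only [all6, Bool.and_eq_true] at h; exact h.1.2)
      have z6 := hzero (fun p => p.b.z) (fun p => p.b.z) (fun p => p.b.z)
        (fun _ _ _ h => h.2.2.2) (fun _ _ _ h => h.2.2.2)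
        (fun t p h => by
          obtain ⟨⟨x, y, z⟩, ⟨u, v, w⟩⟩ := p
          simp only [all6, Bool.and_eq_true] at h; exact h.2)
        (fun t p h => by
          obtain ⟨⟨x, y, z⟩, ⟨u, v, w⟩⟩ := p
          simp only [all6, Bool.and_eq_true] at h; exact h.2)
      simp only [val3, z1, z2, z3, z4, z5, z6, map_zero]
      ring

end Vale.Agent.P297.H160
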