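import Mathlib.Algebra.Ring.Defs
import Mathlib.Tactic.Ring
import Mathlib.Tactic.LinearCombination

/-!
The surfaces with `ℤ/3`-torsion: the polynomials.
-/

namespace Vale.Agent.P297.H160

section

variable {R : Type*} [CommRing R]

/-- `m = v² - d₂ v - d₁` -/
def z3m (d₁ d₂ v : R) : R := v ^ 2 - d₂ * v - d₁

/-- the part of the quadric in `r` -/
def z3QR (c d₁ d₂ v r : R) : R := z3m d₁ d₂ v - 2 * c + 2 * v * r - 3 * r ^ 2

/-- the part of the quadric in `t` -/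
def z3Qo (c d₁ d₂ v t : R) : R := -(z3m d₁ d₂ v + 2 * c) + 2 * v * t - t ^ 2

/-- the part of the cubic in `r` -/
def z3CR (c e g v r : R) : R := v * r ^ 2 - r ^ 3 - (c + g) * r + (c * v - e)

/-- the part of the cubic in `t` -/
def z3E (c e g v r t : R) : R :=
  (v + r) * t ^ 2 + 2 * (v * r - c) * t + ((g - c) * r - c * v + e)

/-- the quartic `φ` -/
def z3phi (c d₁ d₂ e g v : R) : R :=
  v ^ 4 - d₂ * v ^ 3 + (g - d₁ + 4 * c) * v ^ 2 - (2 * e + c * d₂) * v + c * (3 * c - d₁ - g)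

/-- the form `D` of bidegree `(2, 2)` -/
def z3D (c e g v l : R) : R :=
  (v ^ 2 + c) * l ^ 2 + (g * v - e) * l + (c * v ^ 2 - e * v + c ^ 2 - c * g)

/-- twice the form `C` of bidegree `(1, 3)` -/
def z3C (c d₁ d₂ e g v l : R) : R :=
  2 * v * l ^ 3 + (d₂ * v + g + d₁) * l ^ 2 + ((g + 2 * c) * v - 3 * e) * l +
    ((c * d₂ - e) * v + c * d₁ - 2 * c * g)

/-- the denominator of `r` -/
def z3Dn (c d₁ d₂ g v l : R) : R :=
  -2 * v * l ^ 2 + (z3m d₁ d₂ v + 3 * c - g) * l + v * (z3m d₁ d₂ v + c + g)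

/-- minus the numerator of `r` -/
def z3Nn (c d₁ d₂ e v l : R) : R :=
  (c - v ^ 2) * l ^ 2 + (v * (z3m d₁ d₂ v + 3 * c) - e) * l + v * (e - c * v) -
    c * (z3m d₁ d₂ v + 2 * c)

/-- the Jacobian of the two quadratic forms in `t` -/
theorem z3_jac (c d₁ d₂ e g v r l : R) :
    (-1 * (2 * (v * r - c)) - 2 * v * (v + r)) * l ^ 2 +
      2 * (-1 * ((g - c) * r - c * v + e) - -(z3m d₁ d₂ v + 2 * c) * (v + r)) * l +
      (2 * v * ((g - c) * r - c * v + e) - -(z3m d₁ d₂ v + 2 * c) * (2 * (v * r - c))) =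
    2 * (r * z3Dn c d₁ d₂ g v l + z3Nn c d₁ d₂ e v l) := by
  unfold z3Dn z3Nn z3m
  ring

theorem z3_phi (c d₁ d₂ e g v l : R) :
    4 * v * z3Nn c d₁ d₂ e v l + (2 * c - 2 * v ^ 2) * z3Dn c d₁ d₂ g v l =
      2 * (l - v) * z3phi c d₁ d₂ e g v := by
  unfold z3Dn z3Nn z3phi z3m
  ring

theorem z3_diag (c d₁ d₂ g v : R) :
    z3Dn c d₁ d₂ g v v = 2 * v * (2 * c - d₁ - d₂ * v) := by
  unfold z3Dn z3m
  ring

/-- the discriminant of the Jacobian, as a quadratic polynomial in `r` -/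
def z3G2 (c d₁ d₂ g v : R) : R :=
  (z3m d₁ d₂ v + 3 * c - g) ^ 2 + 8 * v ^ 2 * (z3m d₁ d₂ v + c + g)

/-- the middle coefficient -/
def z3G1 (c d₁ d₂ e g v : R) : R :=
  2 * (z3m d₁ d₂ v + 3 * c - g) * (v * (z3m d₁ d₂ v + 3 * c) - e) -
    4 * ((c - v ^ 2) * (v * (z3m d₁ d₂ v + c + g)) -
      2 * v * (v * (e - c * v) - c * (z3m d₁ d₂ v + 2 * c)))

/-- the constant coefficient -/
def z3G0 (c d₁ d₂ e v : R) : R :=
  (v * (z3m d₁ d₂ v + 3 * c) - e) ^ 2 -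
    4 * (c - v ^ 2) * (v * (e - c * v) - c * (z3m d₁ d₂ v + 2 * c))

theorem z3_gamma (c d₁ d₂ e g v r : R) :
    (-1 * ((g - c) * r - c * v + e) - -(z3m d₁ d₂ v + 2 * c) * (v + r)) ^ 2 -
      (2 * v * ((g - c) * r - c * v + e) - -(z3m d₁ d₂ v + 2 * c) * (2 * (v * r - c))) *
        (-1 * (2 * (v * r - c)) - 2 * v * (v + r)) =
      z3G2 c d₁ d₂ g v * r ^ 2 + z3G1 c d₁ d₂ e g v * r + z3G0 c d₁ d₂ e v := by
  unfold z3G2 z3G1 z3G0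
  ring

theorem z3_disc (c d₁ d₂ e g v : R) :
    z3G1 c d₁ d₂ e g v ^ 2 - 4 * z3G2 c d₁ d₂ g v * z3G0 c d₁ d₂ e v =
      16 * z3phi c d₁ d₂ e g v ^ 2 * (d₂ * v + d₁ - 2 * c) := by
  unfold z3G2 z3G1 z3G0 z3phi z3m
  ring

/-- the four coefficients in `r` of the square of the twin coordinate -/
theorem z3_fcoef (c d₁ d₂ e g v r l : R) :
    2 * l * (-1 * z3CR c e g v r - (v + r) * z3QR c d₁ d₂ v r) +
      (2 * v * z3CR c e g v r - 2 * (v * r - c) * z3QR c d₁ d₂ v r) =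
    (2 * l * (e - c * v - v * (z3m d₁ d₂ v - 2 * c)) +
      2 * v * (c * v - e) + 2 * c * (z3m d₁ d₂ v - 2 * c)) +
    (2 * l * (g + 3 * c - z3m d₁ d₂ v - 2 * v ^ 2) - 2 * v * (c + g) -
      2 * v * (z3m d₁ d₂ v - 2 * c) + 4 * c * v) * r +
    (-2 * v ^ 2 - 6 * c) * r ^ 2 + (8 * l + 4 * v) * r ^ 3 := by
  unfold z3CR z3QR
  ring

theorem z3_norm (c d₁ d₂ e g v l : R) :
    (2 * l * (e - c * v - v * (z3m d₁ d₂ v - 2 * c)) +
      2 * v * (c * v - e) + 2 * c * (z3m d₁ d₂ v - 2 * c)) * z3Dn c d₁ d₂ g v l ^ 3 -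
    (2 * l * (g + 3 * c - z3m d₁ d₂ v - 2 * v ^ 2) - 2 * v * (c + g) -
      2 * v * (z3m d₁ d₂ v - 2 * c) + 4 * c * v) * z3Nn c d₁ d₂ e v l *
        z3Dn c d₁ d₂ g v l ^ 2 +
    (-2 * v ^ 2 - 6 * c) * z3Nn c d₁ d₂ e v l ^ 2 * z3Dn c d₁ d₂ g v l -
    (8 * l + 4 * v) * z3Nn c d₁ d₂ e v l ^ 3 =
    2 * (l - v) * (z3phi c d₁ d₂ e g v * z3C c d₁ d₂ e g v l ^ 2 - 4 * z3D c e g v l ^ 3) := by
  unfold z3Dn z3Nn z3phi z3C z3D z3m
  ring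

end

end Vale.Agent.P297.H160
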