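import Vale.Agent.P297.H160.ThreeStable
import Vale.Agent.P297.H212.ZMain
import Vale.Agent.P297.H572.Z3.Main

/-!
The surfaces with `ℤ/3`-torsion: the difference of two points is a torsion element.
-/

set_option linter.unusedSectionVars false
set_option linter.style.haveILetI false

open CategoryTheory AlgebraicGeometry IntermediateField Polynomial

namespace Vale.Agent.P297.H160

open Vale.Agent.P297 Vale.Agent.P297.H839 Vale.Agent.P297.H109 Vale.Agent.P297.H729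
open Vale.Agent.P297.H600 Vale.Agent.P297.H964 Vale.Agent.P297.H212.Z

/-- **The twins of the surfaces with `ℤ/3`-torsion are stable.** -/
theorem z3_twinStable (c d₁ d₂ e g : ℂ) (hA : c * g ^ 2 + e ^ 2 ≠ 0) (hE : d₂ ≠ 0)
    (hC : d₁ ^ 2 - 4 * c * d₁ - 3 * c * d₂ ^ 2 + 4 * c ^ 2 ≠ 0)
    (hD : zI c d₁ d₂ e g ≠ 0 ∨ zJ c d₁ d₂ e g ≠ 0)
    (hB : (4 * c - g) ^ 3 ≠ 27 * (c * g ^ 2 + e ^ 2) ∨
      4 * zI c d₁ d₂ e g ^ 3 ≠ zJ c d₁ d₂ e g ^ 2) : TwinStable c d₁ d₂ e g 1 18 := by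
  obtain ⟨F, p₀, p₁, p₂, q₀, q₁, q₂, q₃, h4, h6, hne, h1, h2, hF⟩ :=
    z3_cubic' c d₁ d₂ e g hA hE hC hD hB
  refine twinStable_of_cubic c d₁ d₂ e g F 18 hF ?_
  intro T N _ _ _ _ _ η x y htop hcub φ t hb
  exact Z3.cubic_stable_lam Polynomial.X X_ne_zero F p₀ p₁ p₂ q₀ q₁ q₂ q₃ η x y htop hcub h4 h6
    hne h1 h2 φ t hb

/-- **The torsion statement for the surfaces with `ℤ/3`-torsion.** -/
theorem z3_torsion {K : Type} [Field K] [Algebra ℂ K] (c d₁ d₂ e g : ℂ)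
    (hA : c * g ^ 2 + e ^ 2 ≠ 0) (hE : d₂ ≠ 0)
    (hC' : d₁ ^ 2 - 4 * c * d₁ - 3 * c * d₂ ^ 2 + 4 * c ^ 2 ≠ 0)
    (hD : zI c d₁ d₂ e g ≠ 0 ∨ zJ c d₁ d₂ e g ≠ 0)
    (hB : (4 * c - g) ^ 3 ≠ 27 * (c * g ^ 2 + e ^ 2) ∨
      4 * zI c d₁ d₂ e g ^ 3 ≠ zJ c d₁ d₂ e g ^ 2)
    {v r t θ : K} (hind : AlgebraicIndependent ℂ ![v, r])
    (htop : IntermediateField.adjoin ℂ {v, r, t, θ} = ⊤)
    (hQ : z3QR (algebraMap ℂ K c) (algebraMap ℂ K d₁) (algebraMap ℂ K d₂) v r +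
      θ ^ 2 * z3Qo (algebraMap ℂ K c) (algebraMap ℂ K d₁) (algebraMap ℂ K d₂) v t = 0)
    (hC : z3CR (algebraMap ℂ K c) (algebraMap ℂ K e) (algebraMap ℂ K g) v r +
      θ ^ 2 * z3E (algebraMap ℂ K c) (algebraMap ℂ K e) (algebraMap ℂ K g) v r t = 0)
    {S : Scheme.{0}} [IsIntegral S] (f : S ⟶ Spec (.of ℂ)) [IsProper f]
    (hS : IsFunctionFieldOf f K) (x y : ClosedPt S) :
    (36 : ℤ) • (Finsupp.single x (1 : ℤ) - Finsupp.single y 1) ∈ Rat f :=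
  z3_reduce c d₁ d₂ e g hE hind htop hQ hC 1 18
    (z3_twinStable c d₁ d₂ e g hA hE hC' hD hB) f hS x y

end Vale.Agent.P297.H160
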