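import Vale.Agent.P297.H160.ThreeDeltaC
import Vale.Agent.P297.H160.ThreeMain
import Vale.Agent.P297.H160.Comp

/-!
The surfaces with `ℤ/3`-torsion: the fibration of the twin by plane cubics and the fibre
`v = (2c - d₁) / d₂`.
-/

set_option linter.unusedSectionVars false
set_option linter.style.haveILetI false

open IntermediateField Polynomial

namespace Vale.Agent.P297.H160

open Vale.Agent.P297 Vale.Agent.P297.H72 Vale.Agent.P297.H839 Vale.Agent.P297.H212.Z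

section maps

variable {R S : Type*} [CommRing R] [CommRing S] (f : R →+* S)

theorem map_z3m (d₁ d₂ v : R) : f (z3m d₁ d₂ v) = z3m (f d₁) (f d₂) (f v) := by simp [z3m]

theorem map_z3Qo (c d₁ d₂ v t : R) :
    f (z3Qo c d₁ d₂ v t) = z3Qo (f c) (f d₁) (f d₂) (f v) (f t) := by
  simp [z3Qo, map_z3m, map_ofNat f]

theorem map_z3phi (c d₁ d₂ e g v : R) :
    f (z3phi c d₁ d₂ e g v) = z3phi (f c) (f d₁) (f d₂) (f e) (f g) (f v) := by
  simp [z3phi, map_ofNat f]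

theorem map_z3D (c e g v l : R) :
    f (z3D c e g v l) = z3D (f c) (f e) (f g) (f v) (f l) := by
  simp [z3D]

theorem map_z3C (c d₁ d₂ e g v l : R) :
    f (z3C c d₁ d₂ e g v l) = z3C (f c) (f d₁) (f d₂) (f e) (f g) (f v) (f l) := by
  simp [z3C, map_ofNat f]

theorem map_z3Dn (c d₁ d₂ g v l : R) :
    f (z3Dn c d₁ d₂ g v l) = z3Dn (f c) (f d₁) (f d₂) (f g) (f v) (f l) := by
  simp [z3Dn, map_z3m, map_ofNat f]

theorem map_z3Nn (c d₁ d₂ e v l : R) :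
    f (z3Nn c d₁ d₂ e v l) = z3Nn (f c) (f d₁) (f d₂) (f e) (f v) (f l) := by
  simp [z3Nn, map_z3m, map_ofNat f]

theorem map_z3RR (c d₁ d₂ e g v l : R) :
    f (z3RR c d₁ d₂ e g v l) = z3RR (f c) (f d₁) (f d₂) (f e) (f g) (f v) (f l) := by
  simp [z3RR, map_z3m, map_z3Dn, map_z3Nn, map_ofNat f]

theorem map_z3Psi (c d₁ d₂ e g v l : R) :
    f (z3Psi c d₁ d₂ e g v l) = z3Psi (f c) (f d₁) (f d₂) (f e) (f g) (f v) (f l) := by
  simp [z3Psi, map_z3phi, map_z3C, map_z3D, map_ofNat f]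

theorem map_z3Delta (c d₁ d₂ e g v l : R) :
    f (z3Delta c d₁ d₂ e g v l) = z3Delta (f c) (f d₁) (f d₂) (f e) (f g) (f v) (f l) := by
  simp [z3Delta, map_z3phi, map_z3C, map_z3D, map_z3Qo, map_z3RR, map_ofNat f]

end maps

/-- a constant -/
noncomputable abbrev kk (a : ℂ) : ℂ[X][X] := C (C a)

/-- `Ψ` -/
noncomputable def pPsi (c d₁ d₂ e g : ℂ) : ℂ[X][X] :=
  z3Psi (kk c) (kk d₁) (kk d₂) (kk e) (kk g) (C X) X

/-- `Δ` -/
noncomputable def pDelta (c d₁ d₂ e g : ℂ) : ℂ[X][X] :=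
  z3Delta (kk c) (kk d₁) (kk d₂) (kk e) (kk g) (C X) X

/-- `P = 4 D³` -/
noncomputable def pP (c e g : ℂ) : ℂ[X][X] := 4 * z3D (kk c) (kk e) (kk g) (C X) X ^ 3

/-- `Q = φ C²` -/
noncomputable def pQ (c d₁ d₂ e g : ℂ) : ℂ[X][X] :=
  z3phi (kk c) (kk d₁) (kk d₂) (kk e) (kk g) (C X) *
    z3C (kk c) (kk d₁) (kk d₂) (kk e) (kk g) (C X) X ^ 2

/-- `H = φ C` -/
noncomputable def pH (c d₁ d₂ e g : ℂ) : ℂ[X][X] :=
  z3phi (kk c) (kk d₁) (kk d₂) (kk e) (kk g) (C X) *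
    z3C (kk c) (kk d₁) (kk d₂) (kk e) (kk g) (C X) X

section evs

variable {A : Type} [CommRing A] [Algebra ℂ A]

theorem ev_kk (v l : A) (a : ℂ) : ev v l (kk a) = algebraMap ℂ A a := by
  rw [ev_C, aeval_C]

theorem ev_pPsi (c d₁ d₂ e g : ℂ) (v l : A) : ev v l (pPsi c d₁ d₂ e g) =
    z3Psi (algebraMap ℂ A c) (algebraMap ℂ A d₁) (algebraMap ℂ A d₂) (algebraMap ℂ A e)
      (algebraMap ℂ A g) v l := by
  have h := map_z3Psi (ev v l : ℂ[X][X] →+* A) (kk c) (kk d₁) (kk d₂) (kk e) (kk g) (C X) X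
  simp only [RingHom.coe_coe, ev_kk, ev_CX, ev_X] at h
  exact h

theorem ev_pDelta (c d₁ d₂ e g : ℂ) (v l : A) : ev v l (pDelta c d₁ d₂ e g) =
    z3Delta (algebraMap ℂ A c) (algebraMap ℂ A d₁) (algebraMap ℂ A d₂) (algebraMap ℂ A e)
      (algebraMap ℂ A g) v l := by
  have h := map_z3Delta (ev v l : ℂ[X][X] →+* A) (kk c) (kk d₁) (kk d₂) (kk e) (kk g) (C X) X
  simp only [RingHom.coe_coe, ev_kk, ev_CX, ev_X] at h
  exact h

theorem ev_pD (c e g : ℂ) (v l : A) : ev v l (z3D (kk c) (kk e) (kk g) (C X) X) =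
    z3D (algebraMap ℂ A c) (algebraMap ℂ A e) (algebraMap ℂ A g) v l := by
  have h := map_z3D (ev v l : ℂ[X][X] →+* A) (kk c) (kk e) (kk g) (C X) X
  simp only [RingHom.coe_coe, ev_kk, ev_CX, ev_X] at h
  exact h

theorem ev_pphi (c d₁ d₂ e g : ℂ) (v l : A) :
    ev v l (z3phi (kk c) (kk d₁) (kk d₂) (kk e) (kk g) (C X)) =
    z3phi (algebraMap ℂ A c) (algebraMap ℂ A d₁) (algebraMap ℂ A d₂) (algebraMap ℂ A e)
      (algebraMap ℂ A g) v := by
  have h := map_z3phi (ev v l : ℂ[X][X] →+* A) (kk c) (kk d₁) (kk d₂) (kk e) (kk g) (C X)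
  simp only [RingHom.coe_coe, ev_kk, ev_CX] at h
  exact h

theorem ev_pC (c d₁ d₂ e g : ℂ) (v l : A) :
    ev v l (z3C (kk c) (kk d₁) (kk d₂) (kk e) (kk g) (C X) X) =
    z3C (algebraMap ℂ A c) (algebraMap ℂ A d₁) (algebraMap ℂ A d₂) (algebraMap ℂ A e)
      (algebraMap ℂ A g) v l := by
  have h := map_z3C (ev v l : ℂ[X][X] →+* A) (kk c) (kk d₁) (kk d₂) (kk e) (kk g) (C X) X
  simp only [RingHom.coe_coe, ev_kk, ev_CX, ev_X] at h
  exact h

end evs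

theorem map_kk (α a : ℂ) : (kk a).map (evalRingHom α) = C a := by
  simp

theorem map_pPsi (c d₁ d₂ e g α : ℂ) : (pPsi c d₁ d₂ e g).map (evalRingHom α) =
    z3Psi (C c) (C d₁) (C d₂) (C e) (C g) (C α) X := by
  have h := map_z3Psi (mapRingHom (evalRingHom α)) (kk c) (kk d₁) (kk d₂) (kk e) (kk g) (C X) X
  simp only [coe_mapRingHom, map_C, map_X, coe_evalRingHom, eval_C, eval_X] at h
  exact h

theorem map_pDelta (c d₁ d₂ e g α : ℂ) : (pDelta c d₁ d₂ e g).map (evalRingHom α) =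
    z3Delta (C c) (C d₁) (C d₂) (C e) (C g) (C α) X := by
  have h := map_z3Delta (mapRingHom (evalRingHom α)) (kk c) (kk d₁) (kk d₂) (kk e) (kk g) (C X) X
  simp only [coe_mapRingHom, map_C, map_X, coe_evalRingHom, eval_C, eval_X] at h
  exact h

theorem pRel (c d₁ d₂ e g : ℂ) : pQ c d₁ d₂ e g * (pH c d₁ d₂ e g ^ 2 - pPsi c d₁ d₂ e g) =
    pP c e g * pH c d₁ d₂ e g ^ 2 := by
  unfold pQ pH pPsi pP z3Psi
  ring

theorem coeff_two {R : Type} [CommRing R] (a b c : R) :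
    (C a * X ^ 2 + C b * X + C c : R[X]).coeff 2 = a := by
  simp

/-- `D` as a polynomial in `l` -/
theorem pD_eq (c e g : ℂ) : z3D (kk c) (kk e) (kk g) (C X) X =
    C (X ^ 2 + C c) * X ^ 2 + C (C g * X - C e) * X +
      C (C c * X ^ 2 - C e * X + C c ^ 2 - C c * C g) := by
  unfold z3D
  simp only [C_add, C_mul, C_sub, C_pow]

theorem pC_eq (c d₁ d₂ e g : ℂ) : z3C (kk c) (kk d₁) (kk d₂) (kk e) (kk g) (C X) X =
    C (2 * X) * X ^ 3 + C (C d₂ * X + C g + C d₁) * X ^ 2 +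
      C ((C g + 2 * C c) * X - 3 * C e) * X +
      C ((C c * C d₂ - C e) * X + C c * C d₁ - 2 * C c * C g) := by
  have k2 : (C (2 : ℂ[X]) : ℂ[X][X]) = 2 := rfl
  have k3 : (C (3 : ℂ[X]) : ℂ[X][X]) = 3 := rfl
  unfold z3C
  simp only [C_add, C_mul, C_sub, k2, k3]

theorem pphi_eq (c d₁ d₂ e g : ℂ) : z3phi (kk c) (kk d₁) (kk d₂) (kk e) (kk g) (C X) =
    C (z3phi (C c) (C d₁) (C d₂) (C e) (C g) X) := by
  have h := map_z3phi (C : ℂ[X] →+* ℂ[X][X]) (C c) (C d₁) (C d₂) (C e) (C g) X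
  exact h.symm

/-- **The fibre `v = (2c - d₁) / d₂`.** -/
theorem z3_atFib (c d₁ d₂ e g v : ℂ) (hv : d₂ * v = 2 * c - d₁)
    (hP : z3phi c d₁ d₂ e g v ≠ 0) (hW : e ^ 2 + c * g ^ 2 ≠ 0)
    (hE : (4 * c - g) ^ 3 ≠ 27 * (e ^ 2 + c * g ^ 2)) (hQ : v ^ 2 - 3 * c ≠ 0)
    (hN : v ^ 2 + c ≠ 0) :
    AtFib (pPsi c d₁ d₂ e g) (pDelta c d₁ d₂ e g) (pP c e g) (pQ c d₁ d₂ e g) v := by
  obtain ⟨h1, h2, h3, h4, h5⟩ := z3_special c d₁ d₂ e g v hv hP hW hE hQ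
  refine ⟨⟨X - C v, z3qp c e g v, h2, h3, X_sub_C_ne_zero v, ?_⟩, ?_, ?_, ?_, ?_⟩
  · rw [map_pPsi]
    exact h1
  · intro s
    rw [map_pDelta]
    exact h4 s
  · intro s hs
    rw [Polynomial.map_mul, map_pPsi, map_pDelta, h1] at hs
    obtain ⟨u, rfl⟩ : (X - C v) ∣ s := (IsIntegrallyClosed.pow_dvd_pow_iff two_ne_zero).1
      ⟨z3qp c e g v * z3Delta (C c) (C d₁) (C d₂) (C e) (C g) (C v) X, by rw [hs]; ring⟩
    apply h5 u
    apply mul_left_cancel₀ (pow_ne_zero 2 (X_sub_C_ne_zero v))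
    linear_combination hs
  · rintro x ⟨hx1, hx2⟩
    unfold pP at hx1
    rw [map_mul, map_pow, ev_pD] at hx1
    have k4 : ev v x (4 : ℂ[X][X]) = 4 := map_ofNat _ 4
    rw [k4] at hx1
    unfold pQ at hx2
    rw [map_mul, map_pow, ev_pphi, ev_pC] at hx2
    simp only [Algebra.algebraMap_self, RingHom.id_apply] at hx1 hx2
    have hD : z3D c e g v x = 0 := by
      have h6 := (mul_eq_zero.1 hx1).resolve_left (by norm_num)
      exact pow_eq_zero_iff (by norm_num) |>.1 h6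
    have hC : z3C c d₁ d₂ e g v x = 0 := by
      have h6 := (mul_eq_zero.1 hx2).resolve_left hP
      exact pow_eq_zero_iff (by norm_num) |>.1 h6
    exact z3_no_common c d₁ d₂ e g v x hP hW hN hD hC
  · have hDd : (z3D (kk c) (kk e) (kk g) (C X) X : ℂ[X][X]).natDegree ≤ 2 := by
      rw [pD_eq]
      compute_degree
    have hCd : (z3C (kk c) (kk d₁) (kk d₂) (kk e) (kk g) (C X) X : ℂ[X][X]).natDegree ≤ 3 := by
      rw [pC_eq]
      compute_degree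
    refine ⟨6, by norm_num, ?_, ?_, ?_⟩
    · unfold pP
      have k4 : (4 : ℂ[X][X]) = C 4 := rfl
      rw [k4]
      refine (natDegree_C_mul_le _ _).trans ?_
      exact (natDegree_pow_le).trans (by omega)
    · unfold pQ
      rw [pphi_eq]
      refine (natDegree_C_mul_le _ _).trans ?_
      exact (natDegree_pow_le).trans (by omega)
    · rintro ⟨h6, -⟩
      unfold pP at h6
      have k4 : (4 : ℂ[X][X]) = C 4 := rfl
      rw [k4, coeff_C_mul] at h6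
      have h7 := coeff_pow_of_natDegree_le (m := 3) hDd
      have h8 : 3 * 2 = 6 := rfl
      rw [h8] at h7
      rw [h7, pD_eq] at h6
      rw [coeff_two, eval_mul, eval_pow, eval_add, eval_pow, eval_X, eval_C] at h6
      have h10 : (eval v (4 : ℂ[X])) = 4 := by simp
      rw [h10] at h6
      exact (mul_ne_zero (by norm_num) (pow_ne_zero 3 hN)) h6

theorem ev_mem_of {N : Type} [Field N] [Algebra ℂ N] (L : IntermediateField ℂ N) {v l : N}
    (hv : v ∈ L) (hl : l ∈ L) (q : ℂ[X][X]) : ev v l q ∈ L := by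
  have h4 := map_ev L.val ⟨v, hv⟩ ⟨l, hl⟩ q
  change _ = ev v l q at h4
  rw [← h4]
  exact Subtype.prop _

/-- **The fibration of the twin by plane cubics.** -/
theorem z3_fib (c d₁ d₂ e g : ℂ) (hA : c * g ^ 2 + e ^ 2 ≠ 0) (hE : d₂ ≠ 0)
    (hC : d₁ ^ 2 - 4 * c * d₁ - 3 * c * d₂ ^ 2 + 4 * c ^ 2 ≠ 0)
    (hD : zI c d₁ d₂ e g ≠ 0 ∨ zJ c d₁ d₂ e g ≠ 0)
    (hB : (4 * c - g) ^ 3 ≠ 27 * (c * g ^ 2 + e ^ 2) ∨
      4 * zI c d₁ d₂ e g ^ 3 ≠ zJ c d₁ d₂ e g ^ 2)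
    {N : Type} [Field N] [Algebra ℂ N] {v l η : N} (hind : AlgebraicIndependent ℂ ![v, l])
    (hη : η ^ 2 * (z3phi (algebraMap ℂ N c) (algebraMap ℂ N d₁) (algebraMap ℂ N d₂)
        (algebraMap ℂ N e) (algebraMap ℂ N g) v * z3C (algebraMap ℂ N c) (algebraMap ℂ N d₁)
          (algebraMap ℂ N d₂) (algebraMap ℂ N e) (algebraMap ℂ N g) v l ^ 2) =
        z3phi (algebraMap ℂ N c) (algebraMap ℂ N d₁) (algebraMap ℂ N d₂)
        (algebraMap ℂ N e) (algebraMap ℂ N g) v * z3C (algebraMap ℂ N c) (algebraMap ℂ N d₁)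
          (algebraMap ℂ N d₂) (algebraMap ℂ N e) (algebraMap ℂ N g) v l ^ 2 -
        4 * z3D (algebraMap ℂ N c) (algebraMap ℂ N e) (algebraMap ℂ N g) v l ^ 3) :
    ∃ (a b : N) (F : Fin 10 → ℂ[X]), H72.Fib (pPsi c d₁ d₂ e g) (pP c e g) (pQ c d₁ d₂ e g)
      (pH c d₁ d₂ e g) v l (z3phi (algebraMap ℂ N c) (algebraMap ℂ N d₁) (algebraMap ℂ N d₂)
        (algebraMap ℂ N e) (algebraMap ℂ N g) v * z3C (algebraMap ℂ N c) (algebraMap ℂ N d₁)
          (algebraMap ℂ N d₂) (algebraMap ℂ N e) (algebraMap ℂ N g) v l * η) η a b F := by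
  obtain ⟨F, p₀, p₁, p₂, q₀, q₁, q₂, q₃, -, -, hne, -, -, hF⟩ :=
    z3_cubic' c d₁ d₂ e g hA hE hC hD hB
  obtain ⟨a, b, hcub, htop, -⟩ := hF N v l η hind hη
  have hH0 : z3phi (algebraMap ℂ N c) (algebraMap ℂ N d₁) (algebraMap ℂ N d₂)
        (algebraMap ℂ N e) (algebraMap ℂ N g) v * z3C (algebraMap ℂ N c) (algebraMap ℂ N d₁)
          (algebraMap ℂ N d₂) (algebraMap ℂ N e) (algebraMap ℂ N g) v l ≠ 0 :=
    mul_ne_zero (z3phi_ne c d₁ d₂ e g (hind.transcendental 0)) (z3C_ne c d₁ d₂ e g hind)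
  have hevH : ev v l (pH c d₁ d₂ e g) =
      z3phi (algebraMap ℂ N c) (algebraMap ℂ N d₁) (algebraMap ℂ N d₂)
        (algebraMap ℂ N e) (algebraMap ℂ N g) v * z3C (algebraMap ℂ N c) (algebraMap ℂ N d₁)
          (algebraMap ℂ N d₂) (algebraMap ℂ N e) (algebraMap ℂ N g) v l := by
    unfold pH
    rw [map_mul, ev_pphi, ev_pC]
  have hevQ : ev v l (pQ c d₁ d₂ e g) =
      z3phi (algebraMap ℂ N c) (algebraMap ℂ N d₁) (algebraMap ℂ N d₂)
        (algebraMap ℂ N e) (algebraMap ℂ N g) v * z3C (algebraMap ℂ N c) (algebraMap ℂ N d₁)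
          (algebraMap ℂ N d₂) (algebraMap ℂ N e) (algebraMap ℂ N g) v l ^ 2 := by
    unfold pQ
    rw [map_mul, map_pow, ev_pphi, ev_pC]
  obtain ⟨H, hH⟩ : ∃ H, H = z3phi (algebraMap ℂ N c) (algebraMap ℂ N d₁) (algebraMap ℂ N d₂)
        (algebraMap ℂ N e) (algebraMap ℂ N g) v * z3C (algebraMap ℂ N c) (algebraMap ℂ N d₁)
          (algebraMap ℂ N d₂) (algebraMap ℂ N e) (algebraMap ℂ N g) v l := ⟨_, rfl⟩
  rw [← hH] at hH0 hevH ⊢
  have hvT : v ∈ IntermediateField.adjoin ℂ ({v, l, H * η} : Set N) :=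
    IntermediateField.subset_adjoin _ _ (by simp)
  have hlT : l ∈ IntermediateField.adjoin ℂ ({v, l, H * η} : Set N) :=
    IntermediateField.subset_adjoin _ _ (by simp)
  have hηT : η ∈ IntermediateField.adjoin ℂ ({v, l, H * η} : Set N) := by
    have h1 : H ∈ IntermediateField.adjoin ℂ ({v, l, H * η} : Set N) := by
      have h2 := ev_mem_of _ hvT hlT (pH c d₁ d₂ e g)
      rwa [hevH] at h2
    have h2 : H * η ∈ IntermediateField.adjoin ℂ ({v, l, H * η} : Set N) :=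
      IntermediateField.subset_adjoin _ _ (by simp)
    have h3 : η = (H * η) / H := by field_simp
    have h4 := div_mem h2 h1
    rwa [← h3] at h4
  have hle : IntermediateField.adjoin ℂ ({v, l, η} : Set N) ≤
      IntermediateField.adjoin ℂ ({v, l, H * η} : Set N) := by
    rw [IntermediateField.adjoin_le_iff]
    rintro x (hx | hx | hx)
    · rw [hx]; exact hvT
    · rw [hx]; exact hlT
    · rw [Set.mem_singleton_iff.1 hx]; exact hηT
  have hv : v ∈ IntermediateField.adjoin ℂ ({η, a, b} : Set N) := by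
    rw [htop]
    exact IntermediateField.subset_adjoin _ _ (by simp)
  have hl : l ∈ IntermediateField.adjoin ℂ ({η, a, b} : Set N) := by
    rw [htop]
    exact IntermediateField.subset_adjoin _ _ (by simp)
  refine ⟨a, b, F, pRel c d₁ d₂ e g, ?_, ?_, ?_, hle ?_, hle ?_, hv, hl, hcub, hne⟩
  · intro h0
    rw [h0, map_zero] at hevQ
    rcases mul_eq_zero.1 hevQ.symm with h1 | h1
    · exact z3phi_ne c d₁ d₂ e g (hind.transcendental 0) h1
    · exact pow_ne_zero 2 (z3C_ne c d₁ d₂ e g hind) h1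
  · intro h0
    rw [h0, map_zero] at hevH
    exact hH0 hevH.symm
  · rw [hevH, mul_comm]
  · rw [← htop]
    exact IntermediateField.subset_adjoin _ _ (by simp)
  · rw [← htop]
    exact IntermediateField.subset_adjoin _ _ (by simp)

/-! ### The field `ℂ(v, l, Y, Z)` -/

theorem sq_of_mem₂ {N : Type} [Field N] [Algebra ℂ N] {v l : N}
    (hind : AlgebraicIndependent ℂ ![v, l]) {q : ℂ[X][X]} {x : N}
    (hx : x ∈ IntermediateField.adjoin ℂ ({v, l} : Set N)) (h : x ^ 2 = ev v l q) :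
    ∃ s : ℂ[X][X], s ^ 2 = q := by
  obtain ⟨u, w, hw, hxw⟩ := frac_mem hind hx
  have h1 : u ^ 2 = q * w ^ 2 := by
    apply sub_eq_zero.1
    apply ev_injective hind
    rw [map_sub, map_pow, map_mul, map_pow, ← hxw, ← h]
    ring
  obtain ⟨s, rfl⟩ : w ∣ u := (IsIntegrallyClosed.pow_dvd_pow_iff two_ne_zero).1
    ⟨q, by rw [h1]; ring⟩
  refine ⟨s, ?_⟩
  apply mul_left_cancel₀ (pow_ne_zero 2 hw)
  linear_combination h1

/-- The hypotheses on the field, from a fibre on which the square roots are independent. -/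
theorem fld_of_nonsquare {N : Type} [Field N] [Algebra ℂ N] {Ψ Δ : ℂ[X][X]} {v l Y Z : N}
    (hind : AlgebraicIndependent ℂ ![v, l]) (hY : Y ^ 2 = ev v l Ψ) (hZ : Z ^ 2 = ev v l Δ)
    (htop : IntermediateField.adjoin ℂ ({v, l, Y, Z} : Set N) = ⊤)
    (h1 : ∀ s : ℂ[X][X], s ^ 2 ≠ Ψ) (h2 : ∀ s : ℂ[X][X], s ^ 2 ≠ Δ)
    (h3 : ∀ s : ℂ[X][X], s ^ 2 ≠ Ψ * Δ) : Fld Ψ Δ v l Y Z := by
  have : CharZero N := charZero_of_injective_algebraMap (algebraMap ℂ N).injective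
  obtain ⟨L, hL⟩ : ∃ L, L = IntermediateField.adjoin ℂ ({v, l} : Set N) := ⟨_, rfl⟩
  have hvL : v ∈ L := by rw [hL]; exact IntermediateField.subset_adjoin _ _ (by simp)
  have hlL : l ∈ L := by rw [hL]; exact IntermediateField.subset_adjoin _ _ (by simp)
  have hev : ∀ q : ℂ[X][X], ev v l q ∈ L := ev_mem_of L hvL hlL
  have hYF : Y ∉ L := fun h => by
    rw [hL] at h
    obtain ⟨s, hs⟩ := sq_of_mem₂ hind h hY
    exact h1 s hs
  have hY2 : Y ^ 2 ∈ L := by rw [hY]; exact hev _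
  have hZF : Z ∉ quadField L Y hY2 := by
    rintro ⟨α, hα, β, hβ, hαβ⟩
    have h4 : (α ^ 2 + β ^ 2 * Y ^ 2) + (2 * α * β) * Y = ev v l Δ + 0 * Y := by
      rw [← hZ, hαβ]
      ring
    obtain ⟨-, h5⟩ := quad_unique L Y hYF
      (add_mem (pow_mem hα 2) (mul_mem (pow_mem hβ 2) hY2))
      (mul_mem (mul_mem (ofNat_mem _ 2) hα) hβ) (hev _) (zero_mem _) h4
    rcases mul_eq_zero.1 h5 with h6 | h6
    · have h7 : α = 0 := (mul_eq_zero.1 h6).resolve_left two_ne_zero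
      rw [h7, zero_add] at hαβ
      obtain ⟨s, hs⟩ := sq_of_mem₂ hind (q := Ψ * Δ) (x := β * Y ^ 2)
        (by rw [← hL]; exact mul_mem hβ hY2) (by
          rw [map_mul, ← hY, ← hZ, hαβ]
          ring)
      exact h3 s hs
    · rw [h6, zero_mul, add_zero] at hαβ
      obtain ⟨s, hs⟩ := sq_of_mem₂ hind (q := Δ) (x := α) (by rw [← hL]; exact hα)
        (by rw [← hZ, hαβ])
      exact h2 s hs
  refine ⟨hind, hY, hZ, by rw [← hL]; exact hYF, ?_, htop⟩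
  intro h
  apply hZF
  have hle : IntermediateField.adjoin ℂ ({v, l, Y} : Set N) ≤ quadField L Y hY2 := by
    rw [IntermediateField.adjoin_le_iff]
    rintro x (hx | hx | hx)
    · rw [hx]; exact ⟨v, hvL, 0, zero_mem _, by ring⟩
    · rw [hx]; exact ⟨l, hlL, 0, zero_mem _, by ring⟩
    · rw [Set.mem_singleton_iff.1 hx]; exact ⟨0, zero_mem _, 1, one_mem _, by ring⟩
  exact hle h

theorem nsq_of_map {Ψ : ℂ[X][X]} (α : ℂ) (h : ∀ s : ℂ[X], s ^ 2 ≠ Ψ.map (evalRingHom α))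
    (s : ℂ[X][X]) : s ^ 2 ≠ Ψ := by
  intro hs
  apply h (s.map (evalRingHom α))
  rw [← hs, Polynomial.map_pow]

end Vale.Agent.P297.H160
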