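import Vale.Agent.P297.H160.ThreeTwin
import Vale.Agent.P297.H600.Big

/-!
Reduction of the surfaces with `ℤ/3`-torsion to their twins.
-/

set_option linter.unusedSectionVars false
set_option linter.style.haveILetI false

open CategoryTheory AlgebraicGeometry IntermediateField Polynomial

namespace Vale.Agent.P297.H160

open Vale.Agent.P297 Vale.Agent.P297.H839 Vale.Agent.P297.H109 Vale.Agent.P297.H729
open Vale.Agent.P297.H600 Vale.Agent.P297.H964

section

variable {N : Type} [Field N] [Algebra ℂ N]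

theorem z3QR_ne (c d₁ d₂ : ℂ) {v r : N} (hind : AlgebraicIndependent ℂ ![v, r]) :
    z3QR (algebraMap ℂ N c) (algebraMap ℂ N d₁) (algebraMap ℂ N d₂) v r ≠ 0 := by
  refine nz2 hind (z3QR (MvPolynomial.C c) (MvPolynomial.C d₁) (MvPolynomial.C d₂)
    (MvPolynomial.X 0) (MvPolynomial.X 1)) ?_ ?_
  · simp [z3QR, z3m]
  · by_contra hcon
    push Not at hcon
    have h0 := hcon 0 0
    have h1 := hcon 0 1
    simp [z3QR, z3m] at h0 h1
    have h3 : (3 : ℂ) = 0 := by linear_combination h0 - h1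
    norm_num at h3

/-- the element `t` is quadratic over `ℂ(v, r)` -/
theorem z3_quad (c d₁ d₂ e g v r t θ : N) (hQ : z3QR c d₁ d₂ v r + θ ^ 2 * z3Qo c d₁ d₂ v t = 0)
    (hC : z3CR c e g v r + θ ^ 2 * z3E c e g v r t = 0) :
    (-1 * z3CR c e g v r - (v + r) * z3QR c d₁ d₂ v r) * t ^ 2 +
      (2 * v * z3CR c e g v r - 2 * (v * r - c) * z3QR c d₁ d₂ v r) * t +
      (-(z3m d₁ d₂ v + 2 * c) * z3CR c e g v r -
        ((g - c) * r - c * v + e) * z3QR c d₁ d₂ v r) = 0 := by
  unfold z3Qo at hQ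
  unfold z3E at hC
  linear_combination (-(z3m d₁ d₂ v + 2 * c) + 2 * v * t - t ^ 2) * hC -
    ((v + r) * t ^ 2 + 2 * (v * r - c) * t + ((g - c) * r - c * v + e)) * hQ

theorem z3_sq_eq (c d₁ d₂ : ℂ) {v r t θ : N} (hind : AlgebraicIndependent ℂ ![v, r])
    (hQ : z3QR (algebraMap ℂ N c) (algebraMap ℂ N d₁) (algebraMap ℂ N d₂) v r +
      θ ^ 2 * z3Qo (algebraMap ℂ N c) (algebraMap ℂ N d₁) (algebraMap ℂ N d₂) v t = 0) :
    θ ^ 2 = -z3QR (algebraMap ℂ N c) (algebraMap ℂ N d₁) (algebraMap ℂ N d₂) v r /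
      z3Qo (algebraMap ℂ N c) (algebraMap ℂ N d₁) (algebraMap ℂ N d₂) v t := by
  have h1 := z3QR_ne c d₁ d₂ hind
  have h2 : z3Qo (algebraMap ℂ N c) (algebraMap ℂ N d₁) (algebraMap ℂ N d₂) v t ≠ 0 := by
    intro h0
    apply h1
    rw [h0] at hQ
    linear_combination hQ
  rw [eq_div_iff h2]
  linear_combination hQ

theorem z3_sq_mem (c d₁ d₂ : ℂ) {v r t θ : N} (hind : AlgebraicIndependent ℂ ![v, r])
    (hQ : z3QR (algebraMap ℂ N c) (algebraMap ℂ N d₁) (algebraMap ℂ N d₂) v r +
      θ ^ 2 * z3Qo (algebraMap ℂ N c) (algebraMap ℂ N d₁) (algebraMap ℂ N d₂) v t = 0)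
    (L : IntermediateField ℂ N) (hv : v ∈ L) (hr : r ∈ L) (ht : t ∈ L) : θ ^ 2 ∈ L := by
  rw [z3_sq_eq c d₁ d₂ hind hQ]
  have hcL : ∀ z : ℂ, algebraMap ℂ N z ∈ L := fun z => L.algebraMap_mem z
  have hm : z3m (algebraMap ℂ N d₁) (algebraMap ℂ N d₂) v ∈ L := by
    unfold z3m
    exact sub_mem (sub_mem (pow_mem hv 2) (mul_mem (hcL _) hv)) (hcL _)
  refine div_mem (neg_mem ?_) ?_
  · unfold z3QR
    exact sub_mem (add_mem (sub_mem hm (mul_mem (ofNat_mem L 2) (hcL _)))
      (mul_mem (mul_mem (ofNat_mem L 2) hv) hr)) (mul_mem (ofNat_mem L 3) (pow_mem hr 2))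
  · unfold z3Qo
    exact sub_mem (add_mem (neg_mem (add_mem hm (mul_mem (ofNat_mem L 2) (hcL _))))
      (mul_mem (mul_mem (ofNat_mem L 2) hv) ht)) (pow_mem ht 2)

end

section

variable {K : Type} [Field K] [Algebra ℂ K]

/-- the surface is a double cover of a rational surface -/
theorem z3_double (c d₁ d₂ e g : ℂ) (hd₂ : d₂ ≠ 0) {v r t θ : K}
    (hind : AlgebraicIndependent ℂ ![v, r])
    (htop : IntermediateField.adjoin ℂ {v, r, t, θ} = ⊤)
    (hQ : z3QR (algebraMap ℂ K c) (algebraMap ℂ K d₁) (algebraMap ℂ K d₂) v r +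
      θ ^ 2 * z3Qo (algebraMap ℂ K c) (algebraMap ℂ K d₁) (algebraMap ℂ K d₂) v t = 0)
    (hC : z3CR (algebraMap ℂ K c) (algebraMap ℂ K e) (algebraMap ℂ K g) v r +
      θ ^ 2 * z3E (algebraMap ℂ K c) (algebraMap ℂ K e) (algebraMap ℂ K g) v r t = 0) :
    IsDouble K := by
  refine ⟨IntermediateField.adjoin ℂ {v, r} ⊔ IntermediateField.adjoin ℂ {t}, θ,
    z3_wside c d₁ d₂ e g hd₂ hind hQ hC, ?_, ?_⟩
  · exact z3_sq_mem c d₁ d₂ hind hQ _
      ((le_sup_left : IntermediateField.adjoin ℂ {v, r} ≤ _)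
        (IntermediateField.subset_adjoin _ _ (by simp)))
      ((le_sup_left : IntermediateField.adjoin ℂ {v, r} ≤ _)
        (IntermediateField.subset_adjoin _ _ (by simp))) (mem_sup_adjoin _ t)
  · rw [eq_top_iff, ← htop, IntermediateField.adjoin_le_iff]
    rintro b (hb | hb | hb | hb)
    · rw [hb]
      exact IntermediateField.subset_adjoin _ _ (Or.inl
        ((le_sup_left : IntermediateField.adjoin ℂ {v, r} ≤ _)
          (IntermediateField.subset_adjoin _ _ (by simp))))
    · rw [hb]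
      exact IntermediateField.subset_adjoin _ _ (Or.inl
        ((le_sup_left : IntermediateField.adjoin ℂ {v, r} ≤ _)
          (IntermediateField.subset_adjoin _ _ (by simp))))
    · rw [hb]
      exact IntermediateField.subset_adjoin _ _ (Or.inl (mem_sup_adjoin _ t))
    · rw [Set.mem_singleton_iff.1 hb]
      exact IntermediateField.subset_adjoin _ _ (Or.inr rfl)

/-- The statement about the twins that is needed: `R` times the embedding of `ℂ(v, l, η)` is a
combination of stable relations in a field with `k` further variables. -/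
def TwinStable (c d₁ d₂ e g : ℂ) (k : ℕ) (R : ℤ) : Prop :=
  ∀ (A Ω : Type) [Field A] [Algebra ℂ A] [Field Ω] [Algebra ℂ Ω] [IsAlgClosed A] [IsAlgClosed Ω]
    [Algebra A Ω] [IsScalarTower ℂ A Ω] (s : Fin k → Ω), IsTranscendenceBasis A s →
    ∀ v l η : A, AlgebraicIndependent ℂ ![v, l] →
      (∀ z : A, IsAlgebraic (IntermediateField.adjoin ℂ {v, l}) z) →
      η ^ 2 * (z3phi (algebraMap ℂ A c) (algebraMap ℂ A d₁) (algebraMap ℂ A d₂)
        (algebraMap ℂ A e) (algebraMap ℂ A g) v * z3C (algebraMap ℂ A c) (algebraMap ℂ A d₁)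
          (algebraMap ℂ A d₂) (algebraMap ℂ A e) (algebraMap ℂ A g) v l ^ 2) =
        z3phi (algebraMap ℂ A c) (algebraMap ℂ A d₁) (algebraMap ℂ A d₂)
        (algebraMap ℂ A e) (algebraMap ℂ A g) v * z3C (algebraMap ℂ A c) (algebraMap ℂ A d₁)
          (algebraMap ℂ A d₂) (algebraMap ℂ A e) (algebraMap ℂ A g) v l ^ 2 -
        4 * z3D (algebraMap ℂ A c) (algebraMap ℂ A e) (algebraMap ℂ A g) v l ^ 3 →
      Finsupp.single ((IsScalarTower.toAlgHom ℂ A Ω).comp
        (IntermediateField.adjoin ℂ {v, l, η}).val) R ∈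
        stableRelations (IntermediateField.adjoin ℂ {v, l, η}) Ω

/-- **Reduction to the twin.** -/
theorem z3_reduce (c d₁ d₂ e g : ℂ) (hd₂ : d₂ ≠ 0) {v r t θ : K}
    (hind : AlgebraicIndependent ℂ ![v, r])
    (htop : IntermediateField.adjoin ℂ {v, r, t, θ} = ⊤)
    (hQ : z3QR (algebraMap ℂ K c) (algebraMap ℂ K d₁) (algebraMap ℂ K d₂) v r +
      θ ^ 2 * z3Qo (algebraMap ℂ K c) (algebraMap ℂ K d₁) (algebraMap ℂ K d₂) v t = 0)
    (hC : z3CR (algebraMap ℂ K c) (algebraMap ℂ K e) (algebraMap ℂ K g) v r +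
      θ ^ 2 * z3E (algebraMap ℂ K c) (algebraMap ℂ K e) (algebraMap ℂ K g) v r t = 0)
    (k : ℕ) (R : ℤ) (hT : TwinStable c d₁ d₂ e g k R)
    {S : Scheme.{0}} [IsIntegral S] (f : S ⟶ Spec (.of ℂ)) [IsProper f]
    (hS : IsFunctionFieldOf f K) (x y : ClosedPt S) :
    (2 * R) • (Finsupp.single x (1 : ℤ) - Finsupp.single y 1) ∈ Rat f := by
  let A := AlgebraicClosure K
  let m : K →ₐ[ℂ] A := IsScalarTower.toAlgHom ℂ K A
  have hinj : Function.Injective m := m.toRingHom.injective
  have hind' : AlgebraicIndependent ℂ ![m v, m r] := by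
    have h := hind.map' (f := m) hinj
    have h2 : (m ∘ ![v, r]) = ![m v, m r] := by
      funext i
      fin_cases i <;> rfl
    rwa [h2] at h
  have hm : m.fieldRange = IntermediateField.adjoin ℂ {m v, m r, m t, m θ} := by
    rw [AlgHom.fieldRange_eq_map, ← htop, IntermediateField.adjoin_map]
    congr 1
    simp only [Set.image_insert_eq, Set.image_singleton]
  have hQ' : z3QR (algebraMap ℂ A c) (algebraMap ℂ A d₁) (algebraMap ℂ A d₂) (m v) (m r) +
      (m θ) ^ 2 * z3Qo (algebraMap ℂ A c) (algebraMap ℂ A d₁) (algebraMap ℂ A d₂) (m v) (m t) =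
      0 := by
    have h0 := congrArg m hQ
    unfold z3QR z3Qo z3m at h0 ⊢
    simpa only [map_add, map_sub, map_mul, map_pow, map_neg, map_zero, map_ofNat,
      AlgHom.commutes] using h0
  have hC' : z3CR (algebraMap ℂ A c) (algebraMap ℂ A e) (algebraMap ℂ A g) (m v) (m r) +
      (m θ) ^ 2 * z3E (algebraMap ℂ A c) (algebraMap ℂ A e) (algebraMap ℂ A g) (m v) (m r)
        (m t) = 0 := by
    have h0 := congrArg m hC
    unfold z3CR z3E at h0 ⊢
    simpa only [map_add, map_sub, map_mul, map_pow, map_neg, map_zero, map_ofNat,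
      AlgHom.commutes] using h0
  obtain ⟨F, hF⟩ : ∃ F : IntermediateField ℂ A, F = IntermediateField.adjoin ℂ {m v, m r} :=
    ⟨_, rfl⟩
  have hvF : m v ∈ F := by rw [hF]; exact IntermediateField.subset_adjoin _ _ (by simp)
  have hrF : m r ∈ F := by rw [hF]; exact IntermediateField.subset_adjoin _ _ (by simp)
  obtain ⟨p, n, ζ, l, η, hp, hn, hq, hζ, hns, hf1, hf2, hrat, hvl, hη⟩ :=
    z3_twin c d₁ d₂ e g hd₂ hind' hQ' hC' F hF
  -- `A` is algebraic over `F`
  have hAlg : ∀ z : A, IsAlgebraic F z := by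
    have hmF : z3m (algebraMap ℂ A d₁) (algebraMap ℂ A d₂) (m v) ∈ F := by
      unfold z3m
      exact sub_mem (sub_mem (pow_mem hvF 2) (mul_mem (F.algebraMap_mem _) hvF))
        (F.algebraMap_mem _)
    have hQRF : z3QR (algebraMap ℂ A c) (algebraMap ℂ A d₁) (algebraMap ℂ A d₂) (m v) (m r) ∈ F := by
      unfold z3QR
      exact sub_mem (add_mem (sub_mem hmF (mul_mem (ofNat_mem F 2) (F.algebraMap_mem _)))
        (mul_mem (mul_mem (ofNat_mem F 2) hvF) hrF)) (mul_mem (ofNat_mem F 3) (pow_mem hrF 2))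
    have hCRF : z3CR (algebraMap ℂ A c) (algebraMap ℂ A e) (algebraMap ℂ A g) (m v) (m r) ∈ F := by
      unfold z3CR
      exact add_mem (sub_mem (sub_mem (mul_mem hvF (pow_mem hrF 2)) (pow_mem hrF 3))
        (mul_mem (add_mem (F.algebraMap_mem _) (F.algebraMap_mem _)) hrF))
        (sub_mem (mul_mem (F.algebraMap_mem _) hvF) (F.algebraMap_mem _))
    have hta : IsAlgebraic F (m t) := by
      refine alg_of_quad F ?_ ?_ ?_ ?_ (z3_quad _ _ _ _ _ _ _ _ _ hQ' hC')
      · exact sub_mem (mul_mem (neg_mem (one_mem F)) hCRF) (mul_mem (add_mem hvF hrF) hQRF)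
      · exact sub_mem (mul_mem (mul_mem (ofNat_mem F 2) hvF) hCRF)
          (mul_mem (mul_mem (ofNat_mem F 2) (sub_mem (mul_mem hvF hrF) (F.algebraMap_mem _))) hQRF)
      · exact sub_mem (mul_mem (neg_mem (add_mem hmF (mul_mem (ofNat_mem F 2)
          (F.algebraMap_mem _)))) hCRF) (mul_mem (add_mem (sub_mem (mul_mem (sub_mem
          (F.algebraMap_mem _) (F.algebraMap_mem _)) hrF) (mul_mem (F.algebraMap_mem _) hvF))
          (F.algebraMap_mem _)) hQRF)
      · rintro ⟨h0, -, -⟩
        exact z3F2_ne c d₁ d₂ e g hind' h0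
    have hθa : IsAlgebraic F (m θ) := by
      have h1 : IsAlgebraic F ((m θ) ^ 2) := by
        have h2 : (m θ) ^ 2 ∈ F ⊔ IntermediateField.adjoin ℂ {m t} := by
          rw [← hf2]
          exact mem_sup_adjoin F _
        have hle : F ⊔ IntermediateField.adjoin ℂ {m t} ≤
            (algebraicClosure F A).restrictScalars ℂ := by
          refine sup_le ?_ ?_
          · intro z hz
            exact mem_algebraicClosure_iff.2 (isAlgebraic_mem _ _ hz)
          · rw [IntermediateField.adjoin_le_iff]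
            rintro z hz
            rw [Set.mem_singleton_iff.1 hz]
            exact mem_algebraicClosure_iff.2 hta
        exact mem_algebraicClosure_iff.1 (hle h2)
      exact IsAlgebraic.of_pow two_pos h1
    refine alg_trans m.fieldRange F ?_ ?_
    · intro z
      obtain ⟨q, hq0, hqz⟩ := Algebra.IsAlgebraic.isAlgebraic (R := K) z
      let e : K →+* m.fieldRange := (m.rangeRestrict).toRingHom
      refine ⟨q.map e, ?_, ?_⟩
      · rw [Ne, Polynomial.map_eq_zero]
        exact hq0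
      · rw [Polynomial.aeval_def, Polynomial.eval₂_map]
        exact hqz
    · have hle : m.fieldRange ≤ (algebraicClosure F A).restrictScalars ℂ := by
        rw [hm, IntermediateField.adjoin_le_iff]
        rintro b (hb | hb | hb | hb)
        · rw [hb]; exact mem_algebraicClosure_iff.2 (isAlgebraic_mem _ _ hvF)
        · rw [hb]; exact mem_algebraicClosure_iff.2 (isAlgebraic_mem _ _ hrF)
        · rw [hb]; exact mem_algebraicClosure_iff.2 hta
        · rw [Set.mem_singleton_iff.1 hb]; exact mem_algebraicClosure_iff.2 hθa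
      intro z hz
      exact mem_algebraicClosure_iff.1 (hle hz)
  have hFa : Algebra.IsAlgebraic F A := ⟨hAlg⟩
  have hvlA : ∀ z : A, IsAlgebraic (IntermediateField.adjoin ℂ {m v, l}) z := by
    have hL : ∀ z : A, IsAlgebraic (F ⊔ IntermediateField.adjoin ℂ {ζ} : IntermediateField ℂ A) z :=
      (isAlgebraic_mono (le_sup_left : F ≤ F ⊔ IntermediateField.adjoin ℂ {ζ}) hFa).isAlgebraic
    rw [hf1] at hL
    set L := IntermediateField.adjoin ℂ {m v, l} with hLdef
    have hvL : m v ∈ L := IntermediateField.subset_adjoin _ _ (by simp)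
    have hlL : l ∈ L := IntermediateField.subset_adjoin _ _ (by simp)
    have hcL : ∀ z : ℂ, algebraMap ℂ A z ∈ L := fun z => L.algebraMap_mem z
    have hC0 := z3C_ne c d₁ d₂ e g hvl
    have hphi0 := z3phi_ne c d₁ d₂ e g (hvl.transcendental 0)
    have hη2 : IsAlgebraic L η := by
      have hphiL : z3phi (algebraMap ℂ A c) (algebraMap ℂ A d₁) (algebraMap ℂ A d₂)
          (algebraMap ℂ A e) (algebraMap ℂ A g) (m v) ∈ L := by
        unfold z3phi
        exact add_mem (sub_mem (add_mem (sub_mem (pow_mem hvL 4) (mul_mem (hcL _)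
          (pow_mem hvL 3))) (mul_mem (add_mem (sub_mem (hcL _) (hcL _)) (mul_mem
          (ofNat_mem L 4) (hcL _))) (pow_mem hvL 2))) (mul_mem (add_mem (mul_mem
          (ofNat_mem L 2) (hcL _)) (mul_mem (hcL _) (hcL _))) hvL)) (mul_mem (hcL _)
          (sub_mem (sub_mem (mul_mem (ofNat_mem L 3) (hcL _)) (hcL _)) (hcL _)))
      have hCL : z3C (algebraMap ℂ A c) (algebraMap ℂ A d₁) (algebraMap ℂ A d₂)
          (algebraMap ℂ A e) (algebraMap ℂ A g) (m v) l ∈ L := by
        unfold z3C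
        exact add_mem (add_mem (add_mem (mul_mem (mul_mem (ofNat_mem L 2) hvL) (pow_mem hlL 3))
          (mul_mem (add_mem (add_mem (mul_mem (hcL _) hvL) (hcL _)) (hcL _)) (pow_mem hlL 2)))
          (mul_mem (sub_mem (mul_mem (add_mem (hcL _) (mul_mem (ofNat_mem L 2) (hcL _))) hvL)
            (mul_mem (ofNat_mem L 3) (hcL _))) hlL))
          (sub_mem (add_mem (mul_mem (sub_mem (mul_mem (hcL _) (hcL _)) (hcL _)) hvL)
            (mul_mem (hcL _) (hcL _))) (mul_mem (mul_mem (ofNat_mem L 2) (hcL _)) (hcL _)))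
      have hDL : z3D (algebraMap ℂ A c) (algebraMap ℂ A e) (algebraMap ℂ A g) (m v) l ∈ L := by
        unfold z3D
        exact add_mem (add_mem (mul_mem (add_mem (pow_mem hvL 2) (hcL _)) (pow_mem hlL 2))
          (mul_mem (sub_mem (mul_mem (hcL _) hvL) (hcL _)) hlL))
          (sub_mem (add_mem (sub_mem (mul_mem (hcL _) (pow_mem hvL 2)) (mul_mem (hcL _) hvL))
            (pow_mem (hcL _) 2)) (mul_mem (hcL _) (hcL _)))
      have h2 : η ^ 2 ∈ L := by
        have h3 := eq_div_of_mul_eq (mul_ne_zero hphi0 (pow_ne_zero 2 hC0)) hη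
        rw [h3]
        exact div_mem (sub_mem (mul_mem hphiL (pow_mem hCL 2))
          (mul_mem (ofNat_mem L 4) (pow_mem hDL 3))) (mul_mem hphiL (pow_mem hCL 2))
      exact IsAlgebraic.of_pow two_pos (isAlgebraic_mem _ _ h2)
    refine alg_trans _ L hL ?_
    have hle : IntermediateField.adjoin ℂ {m v, l, η} ≤
        (algebraicClosure L A).restrictScalars ℂ := by
      rw [IntermediateField.adjoin_le_iff]
      rintro b (hb | hb | hb)
      · rw [hb]; exact mem_algebraicClosure_iff.2 (isAlgebraic_mem _ _ hvL)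
      · rw [hb]; exact mem_algebraicClosure_iff.2 (isAlgebraic_mem _ _ hlL)
      · rw [Set.mem_singleton_iff.1 hb]; exact mem_algebraicClosure_iff.2 hη2
    intro z hz
    exact mem_algebraicClosure_iff.1 (hle hz)
  have h1 := hT A (BigField A k) (bigVar A k) (bigVar_basis A k) (m v) l η hvl hvlA hη
  have h2 := quartic_stable_big (bigVar A k) (bigVar_basis A k) (m := m) (θ := m θ) hFa p n ζ hp hn
    hq hζ hns (by
      rw [hm]
      apply le_antisymm
      · rw [IntermediateField.adjoin_le_iff]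
        rintro b (hb | hb | hb | hb)
        · rw [hb]; exact (le_sup_left : F ≤ _) hvF
        · rw [hb]; exact (le_sup_left : F ≤ _) hrF
        · rw [hb]
          have h3 : m t ∈ F ⊔ IntermediateField.adjoin ℂ {m t} := mem_sup_adjoin F _
          rw [← hf2] at h3
          refine (sup_adjoin_le (le_sup_left : F ≤ F ⊔ IntermediateField.adjoin ℂ {m θ}) ?_) h3
          exact pow_mem (mem_sup_adjoin F _) 2
        · rw [Set.mem_singleton_iff.1 hb]; exact mem_sup_adjoin F _
      · refine sup_adjoin_le ?_ (IntermediateField.subset_adjoin _ _ (by simp))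
        rw [hF]
        apply IntermediateField.adjoin.mono
        rintro z (hz | hz)
        · rw [hz]; simp
        · rw [Set.mem_singleton_iff.1 hz]; simp) R
    (IntermediateField.adjoin ℂ {m v, l, η}).val (by
      rw [IntermediateField.fieldRange_val, hf1]) h1 hrat
  exact criterion_big _ (2 * R) h2 f hS x y

end

end Vale.Agent.P297.H160
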