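import Vale.Agent.P297.H160.ThreeDefs
import Vale.Agent.P297.H160.JacT
import Vale.Agent.P297.H424.Sq

/-!
The twin of the surfaces with `ℤ/3`-torsion, and their rational quotient.
-/

set_option linter.unusedSectionVars false
set_option linter.style.haveILetI false

open IntermediateField Polynomial

namespace Vale.Agent.P297.H160

open Vale.Agent.P297 Vale.Agent.P297.H839 Vale.Agent.P297.H109 Vale.Agent.P297.H729
open Vale.Agent.P297.H600 Vale.Agent.P297.H964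

/-- The data of the quartic twin principle for a pair of conics. -/
theorem twin_data {N : Type} [Field N] [Algebra ℂ N]
    (F : IntermediateField ℂ N) (b0 b1 b2 e0 e1 e2 A c t θ l : N)
    (hb0 : b0 ∈ F) (hb1 : b1 ∈ F) (hb2 : b2 ∈ F) (he0 : e0 ∈ F) (he1 : e1 ∈ F) (he2 : e2 ∈ F)
    (hAF : A ∈ F) (hcF : c ∈ F)
    (hA : A + θ ^ 2 * (b2 * t ^ 2 + b1 * t + b0) = 0)
    (hc : c + θ ^ 2 * (e2 * t ^ 2 + e1 * t + e0) = 0)
    (hl : (b2 * e1 - b1 * e2) * l ^ 2 + 2 * (b2 * e0 - b0 * e2) * l + (b1 * e0 - b0 * e1) = 0)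
    (hD : b2 * e1 - b1 * e2 ≠ 0) (hF2 : b2 * c - e2 * A ≠ 0)
    (hsq : ∀ a ∈ F, a ^ 2 ≠ (b2 * e0 - b0 * e2) ^ 2 - (b1 * e0 - b0 * e1) * (b2 * e1 - b1 * e2)) :
    ∃ p n ζ : N, p ∈ F ∧ n ∈ F ∧ θ ^ 4 - 2 * p * θ ^ 2 + n = 0 ∧ (2 * ζ ^ 2 - p) ^ 2 = n ∧
      (∀ a ∈ F, a ^ 2 ≠ n) ∧
      F ⊔ IntermediateField.adjoin ℂ {ζ} = F ⊔ IntermediateField.adjoin ℂ {l, θ * (t - l)} ∧
      F ⊔ IntermediateField.adjoin ℂ {θ ^ 2} = F ⊔ IntermediateField.adjoin ℂ {t} ∧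
      (θ * (t - l)) ^ 2 * (b2 * e1 - b1 * e2) =
        2 * l * (b2 * c - e2 * A) + (b1 * c - e1 * A) := by
  have : CharZero N := charZero_of_injective_algebraMap (algebraMap ℂ N).injective
  obtain ⟨d, hd⟩ : ∃ d, d = b2 * e1 - b1 * e2 := ⟨_, rfl⟩
  obtain ⟨d', hd'⟩ : ∃ d', d' = b2 * e0 - b0 * e2 := ⟨_, rfl⟩
  obtain ⟨d'', hd''⟩ : ∃ d'', d'' = b1 * e0 - b0 * e1 := ⟨_, rfl⟩
  obtain ⟨f1, hf1⟩ : ∃ f1, f1 = b1 * c - e1 * A := ⟨_, rfl⟩
  obtain ⟨f2, hf2⟩ : ∃ f2, f2 = b2 * c - e2 * A := ⟨_, rfl⟩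
  have hdF : d ∈ F := by rw [hd]; exact sub_mem (mul_mem hb2 he1) (mul_mem hb1 he2)
  have hd'F : d' ∈ F := by rw [hd']; exact sub_mem (mul_mem hb2 he0) (mul_mem hb0 he2)
  have hd''F : d'' ∈ F := by rw [hd'']; exact sub_mem (mul_mem hb1 he0) (mul_mem hb0 he1)
  have hf1F : f1 ∈ F := by rw [hf1]; exact sub_mem (mul_mem hb1 hcF) (mul_mem he1 hAF)
  have hf2F : f2 ∈ F := by rw [hf2]; exact sub_mem (mul_mem hb2 hcF) (mul_mem he2 hAF)
  rw [← hd, ← hd', ← hd''] at hl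
  rw [← hd] at hD
  rw [← hf2] at hF2
  rw [← hd, ← hd', ← hd''] at hsq
  rw [← hd, ← hf2, ← hf1]
  have hF2eq : f2 = -(θ ^ 2 * (d * t + d')) := by
    rw [hf2, hd, hd']
    linear_combination (-e2) * hA + b2 * hc
  have hF1eq : f1 = θ ^ 2 * (d * t ^ 2 - d'') := by
    rw [hf1, hd, hd'']
    linear_combination (-e1) * hA + b1 * hc
  obtain ⟨γ, hγ⟩ : ∃ γ, γ = d' ^ 2 - d'' * d := ⟨_, rfl⟩
  have hγF : γ ∈ F := by rw [hγ]; exact sub_mem (pow_mem hd'F 2) (mul_mem hd''F hdF)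
  have hγ0 : γ ≠ 0 := fun h => hsq 0 F.zero_mem (by rw [← hγ, h]; ring)
  obtain ⟨y, hy⟩ : ∃ y, y = d * l + d' := ⟨_, rfl⟩
  have hy2 : y ^ 2 = γ := by
    rw [hy, hγ]
    linear_combination d * hl
  have hy0 : y ≠ 0 := by
    rintro rfl
    apply hγ0
    rw [← hy2]
    ring
  have hθ0 : θ ≠ 0 := by
    rintro rfl
    apply hF2
    rw [hF2eq]
    ring
  obtain ⟨w, hw⟩ : ∃ w, w = θ * (t - l) := ⟨_, rfl⟩
  have hw2 : w ^ 2 * d = 2 * l * f2 + f1 := by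
    have h3 : d * (w ^ 2 * d - (2 * l * f2 + f1)) = 0 := by
      rw [hw, hF1eq, hF2eq]
      linear_combination θ ^ 2 * d * hl
    exact sub_eq_zero.1 ((mul_eq_zero.1 h3).resolve_left hD)
  rw [← hw]
  obtain ⟨ζ, hζ⟩ : ∃ ζ, ζ = -(w * d) / (2 * y) := ⟨_, rfl⟩
  obtain ⟨p, hp⟩ : ∃ p, p = -(2 * d' * f2 - d * f1) / (2 * γ) := ⟨_, rfl⟩
  obtain ⟨n, hn⟩ : ∃ n, n = f2 ^ 2 / γ := ⟨_, rfl⟩
  have h20 : (2 : N) ≠ 0 := two_ne_zero
  have hpF : p ∈ F := by
    rw [hp]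
    exact div_mem (neg_mem (sub_mem (mul_mem (mul_mem (ofNat_mem F 2) hd'F) hf2F)
      (mul_mem hdF hf1F))) (mul_mem (ofNat_mem F 2) hγF)
  have hnF : n ∈ F := by rw [hn]; exact div_mem (pow_mem hf2F 2) hγF
  have hζp : 2 * ζ ^ 2 - p = f2 / y := by
    rw [hζ, hp, ← hy2]
    field_simp
    rw [hy]
    linear_combination d * hw2
  have hζ2 : (2 * ζ ^ 2 - p) ^ 2 = n := by
    rw [hζp, hn, ← hy2]
    rw [div_pow]
  have hquart : θ ^ 4 - 2 * p * θ ^ 2 + n = 0 := by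
    rw [hp, hn]
    field_simp
    rw [hγ, hF1eq, hF2eq]
    ring
  have hsqn : ∀ a ∈ F, a ^ 2 ≠ n := by
    intro a ha h
    have ha0 : a ≠ 0 := by
      rintro rfl
      rw [hn] at h
      have : f2 ^ 2 / γ ≠ 0 := div_ne_zero (pow_ne_zero 2 hF2) hγ0
      exact this (by rw [← h]; ring)
    apply hsq (f2 / a) (div_mem hf2F ha)
    rw [div_pow, h, hn, ← hγ]
    field_simp
  refine ⟨p, n, ζ, hpF, hnF, hquart, hζ2, hsqn, ?_, ?_, hw2⟩
  · apply le_antisymm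
    · refine sup_adjoin_le le_sup_left ?_
      have hFle : F ≤ F ⊔ IntermediateField.adjoin ℂ {l, w} := le_sup_left
      have hl' : l ∈ F ⊔ IntermediateField.adjoin ℂ {l, w} :=
        (le_sup_right : IntermediateField.adjoin ℂ {l, w} ≤ _)
          (IntermediateField.subset_adjoin _ _ (by simp))
      have hw' : w ∈ F ⊔ IntermediateField.adjoin ℂ {l, w} :=
        (le_sup_right : IntermediateField.adjoin ℂ {l, w} ≤ _)
          (IntermediateField.subset_adjoin _ _ (by simp))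
      rw [hζ]
      refine div_mem (neg_mem (mul_mem hw' (hFle hdF))) (mul_mem (ofNat_mem _ 2) ?_)
      rw [hy]
      exact add_mem (mul_mem (hFle hdF) hl') (hFle hd'F)
    · have hFle : F ≤ F ⊔ IntermediateField.adjoin ℂ {ζ} := le_sup_left
      have hζm : ζ ∈ F ⊔ IntermediateField.adjoin ℂ {ζ} := mem_sup_adjoin F ζ
      have hym : y ∈ F ⊔ IntermediateField.adjoin ℂ {ζ} := by
        have h3 : y = f2 / (2 * ζ ^ 2 - p) := by
          rw [hζp]
          field_simp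
        rw [h3]
        exact div_mem (hFle hf2F) (sub_mem (mul_mem (ofNat_mem _ 2) (pow_mem hζm 2)) (hFle hpF))
      refine sup_le hFle ?_
      rw [IntermediateField.adjoin_le_iff]
      rintro a (ha | ha)
      · rw [ha]
        have h3 : l = (y - d') / d := by
          rw [hy]
          field_simp
          ring
        rw [h3]
        exact div_mem (sub_mem hym (hFle hd'F)) (hFle hdF)
      · rw [Set.mem_singleton_iff.1 ha]
        have h3 : w = -(2 * y * ζ) / d := by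
          rw [hζ]
          field_simp
        rw [h3]
        exact div_mem (neg_mem (mul_mem (mul_mem (ofNat_mem _ 2) hym) hζm)) (hFle hdF)
  · apply le_antisymm
    · have hFle : F ≤ F ⊔ IntermediateField.adjoin ℂ {t} := le_sup_left
      refine sup_adjoin_le hFle ?_
      have h4 : d * t + d' ≠ 0 := by
        intro h
        apply hF2
        rw [hF2eq, h]
        ring
      have h3 : θ ^ 2 = -f2 / (d * t + d') := by
        rw [hF2eq]
        field_simp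
      rw [h3]
      exact div_mem (neg_mem (hFle hf2F))
        (add_mem (mul_mem (hFle hdF) (mem_sup_adjoin F t)) (hFle hd'F))
    · have hFle : F ≤ F ⊔ IntermediateField.adjoin ℂ {θ ^ 2} := le_sup_left
      refine sup_adjoin_le hFle ?_
      have h3 : t = -(f2 / θ ^ 2 + d') / d := by
        rw [hF2eq]
        field_simp
        ring
      rw [h3]
      exact div_mem (neg_mem (add_mem (div_mem (hFle hf2F) (mem_sup_adjoin F _)) (hFle hd'F)))
        (hFle hdF)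

/-! ### The rational quotient -/

/-- coefficient of `v²` in the branch curve -/
noncomputable def z3A2 (c d₂ e g : ℂ) : ℂ[X] :=
  C (-16 * d₂) * X ^ 5 + C (-16 * c + 4 * d₂ ^ 2 + 16 * g) * X ^ 4 +
    C (-32 * c * d₂ - 8 * d₂ * g + 16 * e) * X ^ 3 +
    C (-32 * c ^ 2 + 8 * c * d₂ ^ 2 + 16 * c * g - 8 * d₂ * e + 4 * g ^ 2) * X ^ 2 +
    C (-16 * c ^ 2 * d₂ - 8 * c * d₂ * g + 16 * c * e + 8 * e * g) * X +
    C (-16 * c ^ 3 + 4 * c ^ 2 * d₂ ^ 2 - 8 * c * d₂ * e + 4 * e ^ 2)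

/-- coefficient of `v` in the branch curve -/
noncomputable def z3A1 (c d₁ d₂ e g : ℂ) : ℂ[X] :=
  C (16 * d₂) * X ^ 6 + C (-16 * d₁ + 32 * g) * X ^ 5 +
    C (48 * c * d₂ + 8 * d₁ * d₂ - 8 * d₂ * g + 32 * e) * X ^ 4 +
    C (-32 * c * d₁ + 48 * c * g - 8 * d₁ * g - 8 * d₂ * e + 8 * g ^ 2) * X ^ 3 +
    C (48 * c ^ 2 * d₂ + 16 * c * d₁ * d₂ - 8 * c * d₂ * g + 48 * c * e - 8 * d₁ * e +
      16 * e * g) * X ^ 2 +
    C (-16 * c ^ 2 * d₁ + 16 * c ^ 2 * g - 8 * c * d₁ * g - 8 * c * d₂ * e + 8 * e ^ 2) * X +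
    C (16 * c ^ 3 * d₂ + 8 * c ^ 2 * d₁ * d₂ + 16 * c ^ 2 * e - 8 * c * d₁ * e)

/-- constant coefficient of the branch curve -/
noncomputable def z3A0 (c d₁ e g : ℂ) : ℂ[X] :=
  C (16 * c + 16 * d₁ - 48 * g) * X ^ 6 + C (-48 * e) * X ^ 5 +
    C (48 * c ^ 2 + 48 * c * d₁ - 96 * c * g + 4 * d₁ ^ 2 - 8 * d₁ * g - 12 * g ^ 2) * X ^ 4 +
    C (-96 * c * e - 8 * d₁ * e - 24 * e * g) * X ^ 3 +
    C (48 * c ^ 3 + 48 * c ^ 2 * d₁ - 48 * c ^ 2 * g + 8 * c * d₁ ^ 2 - 8 * c * d₁ * g -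
      16 * c * g ^ 2 - 12 * e ^ 2) * X ^ 2 +
    C (-48 * c ^ 2 * e - 8 * c * d₁ * e - 32 * c * e * g) * X +
    C (16 * c ^ 4 + 16 * c ^ 3 * d₁ + 4 * c ^ 2 * d₁ ^ 2 - 16 * c * e ^ 2)

theorem z3A_disc (c d₁ d₂ e g : ℂ) (hd₂ : d₂ ≠ 0) :
    z3A1 c d₁ d₂ e g ^ 2 - 4 * z3A2 c d₂ e g * z3A0 c d₁ e g ≠ 0 := by
  intro h
  have h1 : z3A1 c d₁ d₂ e g ^ 2 = 4 * z3A2 c d₂ e g * z3A0 c d₁ e g := sub_eq_zero.1 h
  have h2 : (z3A1 c d₁ d₂ e g).natDegree = 6 := by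
    unfold z3A1
    compute_degree!
  have h3 : (4 * z3A2 c d₂ e g).natDegree ≤ 5 := by
    unfold z3A2
    have : (4 : ℂ[X]) = C 4 := rfl
    rw [this]
    compute_degree
  have h4 : (z3A0 c d₁ e g).natDegree ≤ 6 := by
    unfold z3A0
    compute_degree
  have h5 := congrArg natDegree h1
  rw [natDegree_pow, h2] at h5
  have h6 := natDegree_mul_le (p := 4 * z3A2 c d₂ e g) (q := z3A0 c d₁ e g)
  omega

section

variable {N : Type} [Field N] [Algebra ℂ N]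

/-- the specialization argument in two variables -/
theorem nz2 {x y : N} (h : AlgebraicIndependent ℂ ![x, y]) (P : MvPolynomial (Fin 2) ℂ) {g : N}
    (h1 : MvPolynomial.aeval ![x, y] P = g)
    (h2 : ∃ a b : ℂ, MvPolynomial.aeval ![a, b] P ≠ 0) : g ≠ 0 := by
  obtain ⟨a, b, hab⟩ := h2
  rw [← h1]
  exact Vale.Agent.P297.H424.ne_zero_of_point h P a b hab

theorem aeval_mem_simple (r : N) (P : ℂ[X]) : aeval r P ∈ ℂ⟮r⟯ := by
  have h1 : aeval r P ∈ Algebra.adjoin ℂ {r} := Polynomial.aeval_mem_adjoin_singleton ℂ r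
  exact IntermediateField.algebra_adjoin_le_adjoin ℂ {r} h1

/-- the leading coefficient in `t` -/
theorem z3F2_ne (c d₁ d₂ e g : ℂ) {v r : N} (hind : AlgebraicIndependent ℂ ![v, r]) :
    -1 * z3CR (algebraMap ℂ N c) (algebraMap ℂ N e) (algebraMap ℂ N g) v r -
      (v + r) * z3QR (algebraMap ℂ N c) (algebraMap ℂ N d₁) (algebraMap ℂ N d₂) v r ≠ 0 := by
  refine nz2 hind (-1 * z3CR (MvPolynomial.C c) (MvPolynomial.C e) (MvPolynomial.C g)
    (MvPolynomial.X 0) (MvPolynomial.X 1) - (MvPolynomial.X 0 + MvPolynomial.X 1) *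
      z3QR (MvPolynomial.C c) (MvPolynomial.C d₁) (MvPolynomial.C d₂) (MvPolynomial.X 0)
        (MvPolynomial.X 1)) ?_ ?_
  · simp [z3CR, z3QR, z3m]
  · by_contra hcon
    push Not at hcon
    have h0 := hcon 0 0
    have h1 := hcon 0 1
    have h2 := hcon 0 2
    simp [z3CR, z3QR, z3m] at h0 h1 h2
    have h3 : (24 : ℂ) = 0 := by linear_combination h2 - 2 * h1 + h0
    norm_num at h3

theorem z3d_ne (c : ℂ) {v r : N} (hind : AlgebraicIndependent ℂ ![v, r]) :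
    -1 * (2 * (v * r - algebraMap ℂ N c)) - 2 * v * (v + r) ≠ 0 := by
  refine nz2 hind (-1 * (2 * (MvPolynomial.X 0 * MvPolynomial.X 1 - MvPolynomial.C c)) -
    2 * MvPolynomial.X 0 * (MvPolynomial.X 0 + MvPolynomial.X 1)) ?_ ?_
  · simp
  · by_contra hcon
    push Not at hcon
    have h0 := hcon 1 0
    have h1 := hcon 1 1
    simp at h0 h1
    have h3 : (4 : ℂ) = 0 := by linear_combination h0 - h1
    norm_num at h3

theorem z3C_ne (c d₁ d₂ e g : ℂ) {v l : N} (hind : AlgebraicIndependent ℂ ![v, l]) :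
    z3C (algebraMap ℂ N c) (algebraMap ℂ N d₁) (algebraMap ℂ N d₂) (algebraMap ℂ N e)
      (algebraMap ℂ N g) v l ≠ 0 := by
  refine nz2 hind (z3C (MvPolynomial.C c) (MvPolynomial.C d₁) (MvPolynomial.C d₂)
    (MvPolynomial.C e) (MvPolynomial.C g) (MvPolynomial.X 0) (MvPolynomial.X 1)) ?_ ?_
  · simp [z3C]
  · by_contra hcon
    push Not at hcon
    have h0 := hcon 1 0
    have h1 := hcon 1 1
    have h2 := hcon 1 2
    have h3 := hcon 1 (-1)
    simp [z3C] at h0 h1 h2 h3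
    have h4 : (12 : ℂ) = 0 := by linear_combination h2 - 3 * h1 + 3 * h0 - h3
    norm_num at h4

theorem z3phi_ne (c d₁ d₂ e g : ℂ) {v : N} (hv : Transcendental ℂ v) :
    z3phi (algebraMap ℂ N c) (algebraMap ℂ N d₁) (algebraMap ℂ N d₂) (algebraMap ℂ N e)
      (algebraMap ℂ N g) v ≠ 0 := by
  have h := poly4_ne hv 1 (-d₂) (g - d₁ + 4 * c) (-(2 * e + c * d₂)) (c * (3 * c - d₁ - g))
    one_ne_zero
  intro h0
  apply h
  rw [← h0]
  unfold z3phi
  simp only [map_add, map_sub, map_mul, map_neg, map_one, map_ofNat]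
  ring

/-- **The quotient `ℂ(v, r, t)` is rational.** -/
theorem z3_wside (c d₁ d₂ e g : ℂ) (hd₂ : d₂ ≠ 0) {v r t θ : N}
    (hind : AlgebraicIndependent ℂ ![v, r])
    (hQ : z3QR (algebraMap ℂ N c) (algebraMap ℂ N d₁) (algebraMap ℂ N d₂) v r +
      θ ^ 2 * z3Qo (algebraMap ℂ N c) (algebraMap ℂ N d₁) (algebraMap ℂ N d₂) v t = 0)
    (hC : z3CR (algebraMap ℂ N c) (algebraMap ℂ N e) (algebraMap ℂ N g) v r +
      θ ^ 2 * z3E (algebraMap ℂ N c) (algebraMap ℂ N e) (algebraMap ℂ N g) v r t = 0) :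
    IsRational (IntermediateField.adjoin ℂ {v, r} ⊔ IntermediateField.adjoin ℂ {t}) := by
  have : CharZero N := charZero_of_injective_algebraMap (algebraMap ℂ N).injective
  obtain ⟨F, hF⟩ : ∃ F : IntermediateField ℂ N, F = IntermediateField.adjoin ℂ {v, r} := ⟨_, rfl⟩
  have hvF : v ∈ F := by rw [hF]; exact IntermediateField.subset_adjoin _ _ (by simp)
  have hrF : r ∈ F := by rw [hF]; exact IntermediateField.subset_adjoin _ _ (by simp)
  have hcF : ∀ z : ℂ, algebraMap ℂ N z ∈ F := fun z => F.algebraMap_mem z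
  have hmF : z3m (algebraMap ℂ N d₁) (algebraMap ℂ N d₂) v ∈ F := by
    unfold z3m
    exact sub_mem (sub_mem (pow_mem hvF 2) (mul_mem (hcF _) hvF)) (hcF _)
  obtain ⟨QR, hQR⟩ : ∃ QR, QR = z3QR (algebraMap ℂ N c) (algebraMap ℂ N d₁) (algebraMap ℂ N d₂)
    v r := ⟨_, rfl⟩
  obtain ⟨CR, hCR⟩ : ∃ CR, CR = z3CR (algebraMap ℂ N c) (algebraMap ℂ N e) (algebraMap ℂ N g)
    v r := ⟨_, rfl⟩
  have hQRF : QR ∈ F := by
    rw [hQR]
    unfold z3QR
    exact sub_mem (add_mem (sub_mem hmF (mul_mem (ofNat_mem F 2) (hcF _)))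
      (mul_mem (mul_mem (ofNat_mem F 2) hvF) hrF)) (mul_mem (ofNat_mem F 3) (pow_mem hrF 2))
  have hCRF : CR ∈ F := by
    rw [hCR]
    unfold z3CR
    exact add_mem (sub_mem (sub_mem (mul_mem hvF (pow_mem hrF 2)) (pow_mem hrF 3))
      (mul_mem (add_mem (hcF _) (hcF _)) hrF)) (sub_mem (mul_mem (hcF _) hvF) (hcF _))
  obtain ⟨F2, hF2⟩ : ∃ F2, F2 = -1 * CR - (v + r) * QR := ⟨_, rfl⟩
  obtain ⟨F1, hF1⟩ : ∃ F1, F1 = 2 * v * CR - 2 * (v * r - algebraMap ℂ N c) * QR := ⟨_, rfl⟩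
  obtain ⟨F0, hF0⟩ : ∃ F0, F0 = -(z3m (algebraMap ℂ N d₁) (algebraMap ℂ N d₂) v +
    2 * algebraMap ℂ N c) * CR - ((algebraMap ℂ N g - algebraMap ℂ N c) * r -
      algebraMap ℂ N c * v + algebraMap ℂ N e) * QR := ⟨_, rfl⟩
  have hF2F : F2 ∈ F := by
    rw [hF2]
    exact sub_mem (mul_mem (neg_mem (one_mem _)) hCRF) (mul_mem (add_mem hvF hrF) hQRF)
  have hF1F : F1 ∈ F := by
    rw [hF1]
    exact sub_mem (mul_mem (mul_mem (ofNat_mem F 2) hvF) hCRF) (mul_mem (mul_mem (ofNat_mem F 2)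
      (sub_mem (mul_mem hvF hrF) (hcF _))) hQRF)
  have hF20 : F2 ≠ 0 := by
    rw [hF2, hQR, hCR]
    exact z3F2_ne c d₁ d₂ e g hind
  rw [← hQR] at hQ
  rw [← hCR] at hC
  have hFt : F2 * t ^ 2 + F1 * t + F0 = 0 := by
    rw [hF2, hF1, hF0]
    unfold z3Qo at hQ
    unfold z3E at hC
    linear_combination (-(z3m (algebraMap ℂ N d₁) (algebraMap ℂ N d₂) v +
      2 * algebraMap ℂ N c) + 2 * v * t - t ^ 2) * hC - ((v + r) * t ^ 2 +
      2 * (v * r - algebraMap ℂ N c) * t + ((algebraMap ℂ N g - algebraMap ℂ N c) * r -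
      algebraMap ℂ N c * v + algebraMap ℂ N e)) * hQ
  obtain ⟨z, hz⟩ : ∃ z, z = 2 * F2 * t + F1 := ⟨_, rfl⟩
  have hz2 : z ^ 2 = F1 ^ 2 - 4 * F2 * F0 := by
    rw [hz]
    linear_combination 4 * F2 * hFt
  have hEq : F ⊔ IntermediateField.adjoin ℂ {t} = F ⊔ IntermediateField.adjoin ℂ {z} := by
    apply le_antisymm
    · refine sup_adjoin_le le_sup_left ?_
      have h1 : t = (z - F1) / (2 * F2) := by
        rw [hz]
        field_simp
        ring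
      rw [h1]
      exact div_mem (sub_mem (mem_sup_adjoin F z) ((le_sup_left : F ≤ _) hF1F))
        (mul_mem (ofNat_mem _ 2) ((le_sup_left : F ≤ _) hF2F))
    · refine sup_adjoin_le le_sup_left ?_
      rw [hz]
      exact add_mem (mul_mem (mul_mem (ofNat_mem _ 2) ((le_sup_left : F ≤ _) hF2F))
        (mem_sup_adjoin F t)) ((le_sup_left : F ≤ _) hF1F)
  rw [← hF, hEq]
  apply conic_rational
  have hrt : Transcendental ℂ r := hind.transcendental 1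
  refine ⟨r, v, aeval r (z3A2 c d₂ e g), aeval r (z3A1 c d₁ d₂ e g), aeval r (z3A0 c d₁ e g), 1,
    H839.indep_swap hind, ?_, aeval_mem_simple _ _, aeval_mem_simple _ _, aeval_mem_simple _ _,
    ?_, one_mem _, one_ne_zero, ?_⟩
  · rw [hF, Set.pair_comm]
  · intro h0
    have h1 : aeval r (z3A1 c d₁ d₂ e g ^ 2 - 4 * z3A2 c d₂ e g * z3A0 c d₁ e g) = 0 := by
      rw [map_sub, map_pow, map_mul, map_mul, map_ofNat]
      exact h0
    exact z3A_disc c d₁ d₂ e g hd₂ ((transcendental_iff.1 hrt) _ h1)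
  · rw [one_mul, hz2, hF2, hF1, hF0, hQR, hCR]
    unfold z3A2 z3A1 z3A0 z3QR z3CR z3m
    simp only [map_add, map_mul, map_pow, aeval_C, aeval_X, map_sub, map_neg, map_ofNat]
    ring

theorem quartic_ne (a b c d : ℂ) :
    (X ^ 4 - C a * X ^ 3 + C b * X ^ 2 - C c * X + C d : ℂ[X]) ≠ 0 := by
  intro h0
  have h2 := congrArg (fun p : ℂ[X] => p.coeff 4) h0
  simp at h2

theorem exists_spec (c d₁ d₂ e g : ℂ) (hd₂ : d₂ ≠ 0) :
    ∃ a : ℂ, 16 * z3phi c d₁ d₂ e g a ^ 2 * (d₂ * a + d₁ - 2 * c) ≠ 0 := by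
  by_contra hcon
  push Not at hcon
  have h1 : (X ^ 4 - C d₂ * X ^ 3 + C (g - d₁ + 4 * c) * X ^ 2 - C (2 * e + c * d₂) * X +
      C (c * (3 * c - d₁ - g)) : ℂ[X]) ≠ 0 := quartic_ne _ _ _ _
  have h2 : (C d₂ * X + C (d₁ - 2 * c) : ℂ[X]) ≠ 0 := by
    intro h0
    have h3 := congrArg (fun p : ℂ[X] => p.coeff 1) h0
    simp [coeff_C] at h3
    exact hd₂ h3
  have h3 : (X ^ 4 - C d₂ * X ^ 3 + C (g - d₁ + 4 * c) * X ^ 2 - C (2 * e + c * d₂) * X +
      C (c * (3 * c - d₁ - g)) : ℂ[X]) * (C d₂ * X + C (d₁ - 2 * c)) = 0 := by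
    apply Polynomial.funext
    intro a
    have h4 := hcon a
    have h5 : z3phi c d₁ d₂ e g a = 0 ∨ d₂ * a + d₁ - 2 * c = 0 := by
      rcases mul_eq_zero.1 h4 with h6 | h6
      · rcases mul_eq_zero.1 h6 with h7 | h7
        · norm_num at h7
        · exact Or.inl (pow_eq_zero_iff two_ne_zero |>.1 h7)
      · exact Or.inr h6
    simp only [eval_mul, eval_add, eval_sub, eval_pow, eval_X, eval_C, eval_zero]
    rcases h5 with h6 | h6
    · unfold z3phi at h6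
      rw [h6, zero_mul]
    · have h7 : d₂ * a + (d₁ - 2 * c) = 0 := by linear_combination h6
      rw [h7, mul_zero]
  rcases mul_eq_zero.1 h3 with h4 | h4
  · exact h1 h4
  · exact h2 h4

end

/-- The twin of the surfaces with `ℤ/3`-torsion, with all relations between the coordinates. -/
theorem z3_twin_strong {N : Type} [Field N] [Algebra ℂ N] [IsAlgClosed N] (c d₁ d₂ e g : ℂ)
    (hd₂ : d₂ ≠ 0) {v r t θ : N} (hind : AlgebraicIndependent ℂ ![v, r])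
    (hQ : z3QR (algebraMap ℂ N c) (algebraMap ℂ N d₁) (algebraMap ℂ N d₂) v r +
      θ ^ 2 * z3Qo (algebraMap ℂ N c) (algebraMap ℂ N d₁) (algebraMap ℂ N d₂) v t = 0)
    (hC : z3CR (algebraMap ℂ N c) (algebraMap ℂ N e) (algebraMap ℂ N g) v r +
      θ ^ 2 * z3E (algebraMap ℂ N c) (algebraMap ℂ N e) (algebraMap ℂ N g) v r t = 0)
    (F : IntermediateField ℂ N) (hF : F = IntermediateField.adjoin ℂ {v, r}) :
    ∃ p n ζ l η : N, p ∈ F ∧ n ∈ F ∧ θ ^ 4 - 2 * p * θ ^ 2 + n = 0 ∧ (2 * ζ ^ 2 - p) ^ 2 = n ∧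
      (∀ a ∈ F, a ^ 2 ≠ n) ∧
      F ⊔ IntermediateField.adjoin ℂ {ζ} = IntermediateField.adjoin ℂ {v, l, η} ∧
      F ⊔ IntermediateField.adjoin ℂ {θ ^ 2} = F ⊔ IntermediateField.adjoin ℂ {t} ∧
      IsRational (F ⊔ IntermediateField.adjoin ℂ {θ ^ 2}) ∧
      AlgebraicIndependent ℂ ![v, l] ∧
      η ^ 2 * (z3phi (algebraMap ℂ N c) (algebraMap ℂ N d₁) (algebraMap ℂ N d₂)
        (algebraMap ℂ N e) (algebraMap ℂ N g) v * z3C (algebraMap ℂ N c) (algebraMap ℂ N d₁)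
          (algebraMap ℂ N d₂) (algebraMap ℂ N e) (algebraMap ℂ N g) v l ^ 2) =
        z3phi (algebraMap ℂ N c) (algebraMap ℂ N d₁) (algebraMap ℂ N d₂)
        (algebraMap ℂ N e) (algebraMap ℂ N g) v * z3C (algebraMap ℂ N c) (algebraMap ℂ N d₁)
          (algebraMap ℂ N d₂) (algebraMap ℂ N e) (algebraMap ℂ N g) v l ^ 2 -
        4 * z3D (algebraMap ℂ N c) (algebraMap ℂ N e) (algebraMap ℂ N g) v l ^ 3 ∧
      η * z3C (algebraMap ℂ N c) (algebraMap ℂ N d₁) (algebraMap ℂ N d₂) (algebraMap ℂ N e)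
        (algebraMap ℂ N g) v l = θ * (t - l) * z3Dn (algebraMap ℂ N c) (algebraMap ℂ N d₁)
          (algebraMap ℂ N d₂) (algebraMap ℂ N g) v l ∧
      r * z3Dn (algebraMap ℂ N c) (algebraMap ℂ N d₁) (algebraMap ℂ N d₂) (algebraMap ℂ N g) v l +
        z3Nn (algebraMap ℂ N c) (algebraMap ℂ N d₁) (algebraMap ℂ N d₂) (algebraMap ℂ N e) v l =
          0 ∧
      z3Dn (algebraMap ℂ N c) (algebraMap ℂ N d₁) (algebraMap ℂ N d₂) (algebraMap ℂ N g) v l ≠
        0 := by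
  have hchar : CharZero N := charZero_of_injective_algebraMap (algebraMap ℂ N).injective
  have hvF : v ∈ F := by rw [hF]; exact IntermediateField.subset_adjoin _ _ (by simp)
  have hrF : r ∈ F := by rw [hF]; exact IntermediateField.subset_adjoin _ _ (by simp)
  have hcF : ∀ z : ℂ, algebraMap ℂ N z ∈ F := fun z => F.algebraMap_mem z
  have hvt : Transcendental ℂ v := hind.transcendental 0
  obtain ⟨c', hc'⟩ : ∃ c', c' = algebraMap ℂ N c := ⟨_, rfl⟩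
  obtain ⟨D₁, hD₁⟩ : ∃ D₁, D₁ = algebraMap ℂ N d₁ := ⟨_, rfl⟩
  obtain ⟨D₂, hD₂⟩ : ∃ D₂, D₂ = algebraMap ℂ N d₂ := ⟨_, rfl⟩
  obtain ⟨e', he'⟩ : ∃ e', e' = algebraMap ℂ N e := ⟨_, rfl⟩
  obtain ⟨g', hg'⟩ : ∃ g', g' = algebraMap ℂ N g := ⟨_, rfl⟩
  have hF2n := z3F2_ne c d₁ d₂ e g hind
  have hdn := z3d_ne c hind
  have hphin := z3phi_ne c d₁ d₂ e g hvt
  have hWs := z3_wside c d₁ d₂ e g hd₂ hind hQ hC
  have hc'F : c' ∈ F := by rw [hc']; exact hcF _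
  have hD₁F : D₁ ∈ F := by rw [hD₁]; exact hcF _
  have hD₂F : D₂ ∈ F := by rw [hD₂]; exact hcF _
  have he'F : e' ∈ F := by rw [he']; exact hcF _
  have hg'F : g' ∈ F := by rw [hg']; exact hcF _
  have hmF : z3m D₁ D₂ v ∈ F := by
    unfold z3m
    exact sub_mem (sub_mem (pow_mem hvF 2) (mul_mem hD₂F hvF)) hD₁F
  -- non-square
  have hsq : ∀ a ∈ F, a ^ 2 ≠ (-1 * ((g' - c') * r - c' * v + e') -
      -(z3m D₁ D₂ v + 2 * c') * (v + r)) ^ 2 -
      (2 * v * ((g' - c') * r - c' * v + e') - -(z3m D₁ D₂ v + 2 * c') * (2 * (v * r - c'))) *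
        (-1 * (2 * (v * r - c')) - 2 * v * (v + r)) := by
    obtain ⟨a₀, ha₀⟩ := exists_spec c d₁ d₂ e g hd₂
    let P : MvPolynomial (Fin 2) ℂ := z3G2 (MvPolynomial.C c) (MvPolynomial.C d₁)
      (MvPolynomial.C d₂) (MvPolynomial.C g) (MvPolynomial.X 0) * MvPolynomial.X 1 ^ 2 +
      z3G1 (MvPolynomial.C c) (MvPolynomial.C d₁) (MvPolynomial.C d₂) (MvPolynomial.C e)
        (MvPolynomial.C g) (MvPolynomial.X 0) * MvPolynomial.X 1 +
      z3G0 (MvPolynomial.C c) (MvPolynomial.C d₁) (MvPolynomial.C d₂) (MvPolynomial.C e)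
        (MvPolynomial.X 0)
    have h1 := Vale.Agent.P297.H424.not_square_of_spec hind P a₀ (by
      intro q
      have h2 : MvPolynomial.aeval ![C a₀, (X : ℂ[X])] P =
          C (z3G2 c d₁ d₂ g a₀) * X ^ 2 + C (z3G1 c d₁ d₂ e g a₀) * X +
            C (z3G0 c d₁ d₂ e a₀) := by
        have k2 : (C (2 : ℂ) : ℂ[X]) = 2 := rfl
        have k3 : (C (3 : ℂ) : ℂ[X]) = 3 := rfl
        have k4 : (C (4 : ℂ) : ℂ[X]) = 4 := rfl
        have k8 : (C (8 : ℂ) : ℂ[X]) = 8 := rfl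
        simp [P, z3G2, z3G1, z3G0, z3m, Polynomial.algebraMap_eq, k2, k3, k4, k8]
      rw [h2]
      exact Vale.Agent.P297.H424.quad_not_square (by rw [z3_disc]; exact ha₀) q)
    intro a ha
    have h3 := h1 a (by rw [← hF]; exact ha)
    have h4 : MvPolynomial.aeval ![v, r] P = z3G2 c' D₁ D₂ g' v * r ^ 2 +
        z3G1 c' D₁ D₂ e' g' v * r + z3G0 c' D₁ D₂ e' v := by
      simp [P, z3G2, z3G1, z3G0, z3m, hc', hD₁, hD₂, he', hg']
    rw [h4, ← z3_gamma] at h3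
    exact h3
  rw [← hc', ← hD₁, ← hD₂] at hQ
  rw [← hc', ← he', ← hg'] at hC
  rw [← hc', ← hD₁, ← hD₂, ← he', ← hg'] at hF2n hphin ⊢
  rw [← hc'] at hdn
  -- the root of the Jacobian
  obtain ⟨l, hl⟩ : ∃ l : N, (-1 * (2 * (v * r - c')) - 2 * v * (v + r)) * l ^ 2 +
      2 * (-1 * ((g' - c') * r - c' * v + e') - -(z3m D₁ D₂ v + 2 * c') * (v + r)) * l +
      (2 * v * ((g' - c') * r - c' * v + e') -
        -(z3m D₁ D₂ v + 2 * c') * (2 * (v * r - c'))) = 0 := by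
    obtain ⟨d, hd⟩ : ∃ d, d = -1 * (2 * (v * r - c')) - 2 * v * (v + r) := ⟨_, rfl⟩
    obtain ⟨d', hd'⟩ : ∃ d', d' = -1 * ((g' - c') * r - c' * v + e') -
      -(z3m D₁ D₂ v + 2 * c') * (v + r) := ⟨_, rfl⟩
    obtain ⟨d'', hd''⟩ : ∃ d'', d'' = 2 * v * ((g' - c') * r - c' * v + e') -
        -(z3m D₁ D₂ v + 2 * c') * (2 * (v * r - c')) := ⟨_, rfl⟩
    rw [← hd, ← hd', ← hd'']
    rw [← hd] at hdn
    obtain ⟨y, hy⟩ := IsAlgClosed.exists_pow_nat_eq (d' ^ 2 - d'' * d) (n := 2) two_pos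
    refine ⟨(y - d') / d, ?_⟩
    field_simp
    linear_combination hy
  have hlJ : r * z3Dn c' D₁ D₂ g' v l + z3Nn c' D₁ D₂ e' v l = 0 := by
    have h1 := z3_jac c' D₁ D₂ e' g' v r l
    rw [hl] at h1
    exact (mul_eq_zero.1 h1.symm).resolve_left two_ne_zero
  obtain ⟨p, n, ζ, hp, hn, hq, hζ, hns, hf1, hf2, hw⟩ := twin_data F (-(z3m D₁ D₂ v + 2 * c'))
    (2 * v) (-1) ((g' - c') * r - c' * v + e') (2 * (v * r - c')) (v + r)
    (z3QR c' D₁ D₂ v r) (z3CR c' e' g' v r) t θ l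
    (neg_mem (add_mem hmF (mul_mem (ofNat_mem F 2) hc'F))) (mul_mem (ofNat_mem F 2) hvF)
    (neg_mem (one_mem F)) (add_mem (sub_mem (mul_mem (sub_mem hg'F hc'F) hrF)
      (mul_mem hc'F hvF)) he'F) (mul_mem (ofNat_mem F 2) (sub_mem (mul_mem hvF hrF) hc'F))
    (add_mem hvF hrF)
    (by
      unfold z3QR
      exact sub_mem (add_mem (sub_mem hmF (mul_mem (ofNat_mem F 2) hc'F))
        (mul_mem (mul_mem (ofNat_mem F 2) hvF) hrF)) (mul_mem (ofNat_mem F 3) (pow_mem hrF 2)))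
    (by
      unfold z3CR
      exact add_mem (sub_mem (sub_mem (mul_mem hvF (pow_mem hrF 2)) (pow_mem hrF 3))
        (mul_mem (add_mem hc'F hg'F) hrF)) (sub_mem (mul_mem hc'F hvF) he'F))
    (by
      unfold z3Qo at hQ
      linear_combination hQ)
    (by
      unfold z3E at hC
      linear_combination hC)
    hl hdn hF2n hsq
  -- the denominator
  obtain ⟨Dn, hDn⟩ : ∃ Dn, Dn = z3Dn c' D₁ D₂ g' v l := ⟨_, rfl⟩
  obtain ⟨Nn, hNn⟩ : ∃ Nn, Nn = z3Nn c' D₁ D₂ e' v l := ⟨_, rfl⟩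
  obtain ⟨ph, hph⟩ : ∃ ph, ph = z3phi c' D₁ D₂ e' g' v := ⟨_, rfl⟩
  have i1 := z3_phi c' D₁ D₂ e' g' v l
  have i2 := z3_norm c' D₁ D₂ e' g' v l
  have i3 := z3_fcoef c' D₁ D₂ e' g' v r l
  rw [← hDn, ← hNn] at hlJ
  rw [← hDn, ← hNn, ← hph] at i1 i2
  rw [← hph] at hphin ⊢
  have hv0 : v ≠ 0 := by
    rintro rfl
    exact hvt isAlgebraic_zero
  have hDn0 : Dn ≠ 0 := by
    intro h0
    have h1 : Nn = 0 := by
      rw [h0] at hlJ
      linear_combination hlJ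
    rw [h0, h1] at i1
    have h2 : (l - v) * (2 * ph) = 0 := by linear_combination -i1
    rcases mul_eq_zero.1 h2 with h3 | h3
    · have h4 : l = v := sub_eq_zero.1 h3
      have h5 := z3_diag c' D₁ D₂ g' v
      rw [h4, h5] at hDn
      rw [h0] at hDn
      have h6 : 2 * c' - D₁ - D₂ * v = 0 :=
        (mul_eq_zero.1 hDn.symm).resolve_left (mul_ne_zero two_ne_zero hv0)
      have hD₂0 : D₂ ≠ 0 := by
        rw [hD₂, Ne, FaithfulSMul.algebraMap_eq_zero_iff]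
        exact hd₂
      have h7 : v = algebraMap ℂ N ((2 * c - d₁) / d₂) := by
        rw [map_div₀, map_sub, map_mul, map_ofNat, ← hc', ← hD₁, ← hD₂, eq_div_iff hD₂0]
        linear_combination -h6
      apply hvt
      rw [h7]
      exact isAlgebraic_algebraMap _
    · exact (mul_ne_zero two_ne_zero hphin) h3
  have hd2 : (-1 * (2 * (v * r - c')) - 2 * v * (v + r)) * Dn = 2 * (l - v) * ph := by
    rw [← i1]
    linear_combination (-4 * v) * hlJ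
  have hlv : l - v ≠ 0 := by
    intro h0
    rw [h0] at hd2
    have h1 : (-1 * (2 * (v * r - c')) - 2 * v * (v + r)) * Dn = 0 := by
      rw [hd2]
      ring
    exact (mul_ne_zero hdn hDn0) h1
  have hw' : (θ * (t - l)) ^ 2 * (ph * Dn ^ 2) = ph * z3C c' D₁ D₂ e' g' v l ^ 2 -
      4 * z3D c' e' g' v l ^ 3 := by
    rw [i3] at hw
    have h1 : 2 * (l - v) * ((θ * (t - l)) ^ 2 * (ph * Dn ^ 2)) =
        2 * (l - v) * (ph * z3C c' D₁ D₂ e' g' v l ^ 2 - 4 * z3D c' e' g' v l ^ 3) := by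
      rw [← i2]
      have h2 : r * Dn = -Nn := by linear_combination hlJ
      have h3 : 2 * (l - v) * ((θ * (t - l)) ^ 2 * (ph * Dn ^ 2)) =
          ((θ * (t - l)) ^ 2 * (-1 * (2 * (v * r - c')) - 2 * v * (v + r))) * Dn ^ 3 := by
        have h4 : 2 * (l - v) * ((θ * (t - l)) ^ 2 * (ph * Dn ^ 2)) =
          (θ * (t - l)) ^ 2 * Dn ^ 2 * (2 * (l - v) * ph) := by ring
        rw [h4, ← hd2]
        ring
      rw [h3, hw]
      have h5 : (r * Dn) ^ 2 = Nn ^ 2 := by rw [h2]; ring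
      have h6 : (r * Dn) ^ 3 = -Nn ^ 3 := by rw [h2]; ring
      linear_combination (2 * l * (g' + 3 * c' - z3m D₁ D₂ v - 2 * v ^ 2) - 2 * v * (c' + g') -
        2 * v * (z3m D₁ D₂ v - 2 * c') + 4 * c' * v) * Dn ^ 2 * h2 +
        (-2 * v ^ 2 - 6 * c') * Dn * h5 + (8 * l + 4 * v) * h6
    exact mul_left_cancel₀ (mul_ne_zero two_ne_zero hlv) h1
  -- membership
  have hmemL : ∀ L : IntermediateField ℂ N, v ∈ L → l ∈ L → Dn ∈ L ∧ Nn ∈ L ∧
      z3C c' D₁ D₂ e' g' v l ∈ L := by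
    intro L hv hl
    have hc1 : c' ∈ L := by rw [hc']; exact L.algebraMap_mem _
    have hc2 : D₁ ∈ L := by rw [hD₁]; exact L.algebraMap_mem _
    have hc3 : D₂ ∈ L := by rw [hD₂]; exact L.algebraMap_mem _
    have hc4 : e' ∈ L := by rw [he']; exact L.algebraMap_mem _
    have hc5 : g' ∈ L := by rw [hg']; exact L.algebraMap_mem _
    have hm : z3m D₁ D₂ v ∈ L := by
      unfold z3m
      exact sub_mem (sub_mem (pow_mem hv 2) (mul_mem hc3 hv)) hc2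
    have t2 : (2 : N) ∈ L := ofNat_mem L 2
    have t3 : (3 : N) ∈ L := ofNat_mem L 3
    refine ⟨?_, ?_, ?_⟩
    · rw [hDn]
      unfold z3Dn
      exact add_mem (add_mem (mul_mem (mul_mem (neg_mem t2) hv) (pow_mem hl 2))
        (mul_mem (sub_mem (add_mem hm (mul_mem t3 hc1)) hc5) hl))
        (mul_mem hv (add_mem (add_mem hm hc1) hc5))
    · rw [hNn]
      unfold z3Nn
      exact sub_mem (add_mem (add_mem (mul_mem (sub_mem hc1 (pow_mem hv 2)) (pow_mem hl 2))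
        (mul_mem (sub_mem (mul_mem hv (add_mem hm (mul_mem t3 hc1))) hc4) hl))
        (mul_mem hv (sub_mem hc4 (mul_mem hc1 hv))))
        (mul_mem hc1 (add_mem hm (mul_mem t2 hc1)))
    · unfold z3C
      exact add_mem (add_mem (add_mem (mul_mem (mul_mem t2 hv) (pow_mem hl 3))
        (mul_mem (add_mem (add_mem (mul_mem hc3 hv) hc5) hc2) (pow_mem hl 2)))
        (mul_mem (sub_mem (mul_mem (add_mem hc5 (mul_mem t2 hc1)) hv) (mul_mem t3 hc4)) hl))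
        (sub_mem (add_mem (mul_mem (sub_mem (mul_mem hc1 hc3) hc4) hv) (mul_mem hc1 hc2))
          (mul_mem (mul_mem t2 hc1) hc5))
  have hr : r = -Nn / Dn := by
    field_simp
    linear_combination hlJ
  have hrL : ∀ L : IntermediateField ℂ N, v ∈ L → l ∈ L → r ∈ L := by
    intro L hv hl
    rw [hr]
    exact div_mem (neg_mem (hmemL L hv hl).2.1) (hmemL L hv hl).1
  have hind2 : AlgebraicIndependent ℂ ![v, l] := by
    apply indep_of_algebraic hind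
    intro i
    rw [range_pair]
    fin_cases i
    · exact isAlgebraic_mem _ _ (IntermediateField.subset_adjoin _ _ (by simp))
    · exact isAlgebraic_mem _ _ (hrL _ (IntermediateField.subset_adjoin _ _ (by simp))
        (IntermediateField.subset_adjoin _ _ (by simp)))
  have hC0 := z3C_ne c d₁ d₂ e g hind2
  rw [← hc', ← hD₁, ← hD₂, ← he', ← hg'] at hC0
  obtain ⟨η, hη⟩ : ∃ η, η = θ * (t - l) * Dn / z3C c' D₁ D₂ e' g' v l := ⟨_, rfl⟩
  refine ⟨p, n, ζ, l, η, hp, hn, hq, hζ, hns, ?_, hf2, ?_, hind2, ?_, ?_, ?_, ?_⟩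
  · rw [hf1]
    apply le_antisymm
    · have hvL : v ∈ IntermediateField.adjoin ℂ {v, l, η} :=
        IntermediateField.subset_adjoin _ _ (by simp)
      have hlL : l ∈ IntermediateField.adjoin ℂ {v, l, η} :=
        IntermediateField.subset_adjoin _ _ (by simp)
      have hηL : η ∈ IntermediateField.adjoin ℂ {v, l, η} :=
        IntermediateField.subset_adjoin _ _ (by simp)
      obtain ⟨m1, m2, m3⟩ := hmemL _ hvL hlL
      refine sup_le ?_ ?_
      · rw [hF, IntermediateField.adjoin_le_iff]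
        rintro a (ha | ha)
        · rw [ha]; exact hvL
        · rw [Set.mem_singleton_iff.1 ha]
          exact hrL _ hvL hlL
      · rw [IntermediateField.adjoin_le_iff]
        rintro a (ha | ha)
        · rw [ha]; exact hlL
        · rw [Set.mem_singleton_iff.1 ha]
          have h1 : θ * (t - l) = η * z3C c' D₁ D₂ e' g' v l / Dn := by
            rw [hη]
            field_simp
          rw [h1]
          exact div_mem (mul_mem hηL m3) m1
    · have hFle : F ≤ F ⊔ IntermediateField.adjoin ℂ {l, θ * (t - l)} := le_sup_left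
      have hlL : l ∈ F ⊔ IntermediateField.adjoin ℂ {l, θ * (t - l)} :=
        (le_sup_right : IntermediateField.adjoin ℂ {l, θ * (t - l)} ≤ _)
          (IntermediateField.subset_adjoin _ _ (by simp))
      have hwL : θ * (t - l) ∈ F ⊔ IntermediateField.adjoin ℂ {l, θ * (t - l)} :=
        (le_sup_right : IntermediateField.adjoin ℂ {l, θ * (t - l)} ≤ _)
          (IntermediateField.subset_adjoin _ _ (by simp))
      obtain ⟨m1, m2, m3⟩ := hmemL _ (hFle hvF) hlL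
      rw [IntermediateField.adjoin_le_iff]
      rintro a (ha | ha | ha)
      · rw [ha]; exact hFle hvF
      · rw [ha]; exact hlL
      · rw [Set.mem_singleton_iff.1 ha, hη]
        exact div_mem (mul_mem hwL m1) m3
  · rw [hf2, hF]
    exact hWs
  · rw [← hw', hη]
    field_simp
  · rw [hη, hDn]
    field_simp
  · rw [← hDn, ← hNn]
    exact hlJ
  · rw [← hDn]
    exact hDn0

/-- **The twin of the surfaces with `ℤ/3`-torsion.** -/
theorem z3_twin {N : Type} [Field N] [Algebra ℂ N] [IsAlgClosed N] (c d₁ d₂ e g : ℂ)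
    (hd₂ : d₂ ≠ 0) {v r t θ : N} (hind : AlgebraicIndependent ℂ ![v, r])
    (hQ : z3QR (algebraMap ℂ N c) (algebraMap ℂ N d₁) (algebraMap ℂ N d₂) v r +
      θ ^ 2 * z3Qo (algebraMap ℂ N c) (algebraMap ℂ N d₁) (algebraMap ℂ N d₂) v t = 0)
    (hC : z3CR (algebraMap ℂ N c) (algebraMap ℂ N e) (algebraMap ℂ N g) v r +
      θ ^ 2 * z3E (algebraMap ℂ N c) (algebraMap ℂ N e) (algebraMap ℂ N g) v r t = 0)
    (F : IntermediateField ℂ N) (hF : F = IntermediateField.adjoin ℂ {v, r}) :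
    ∃ p n ζ l η : N, p ∈ F ∧ n ∈ F ∧ θ ^ 4 - 2 * p * θ ^ 2 + n = 0 ∧ (2 * ζ ^ 2 - p) ^ 2 = n ∧
      (∀ a ∈ F, a ^ 2 ≠ n) ∧
      F ⊔ IntermediateField.adjoin ℂ {ζ} = IntermediateField.adjoin ℂ {v, l, η} ∧
      F ⊔ IntermediateField.adjoin ℂ {θ ^ 2} = F ⊔ IntermediateField.adjoin ℂ {t} ∧
      IsRational (F ⊔ IntermediateField.adjoin ℂ {θ ^ 2}) ∧
      AlgebraicIndependent ℂ ![v, l] ∧
      η ^ 2 * (z3phi (algebraMap ℂ N c) (algebraMap ℂ N d₁) (algebraMap ℂ N d₂)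
        (algebraMap ℂ N e) (algebraMap ℂ N g) v * z3C (algebraMap ℂ N c) (algebraMap ℂ N d₁)
          (algebraMap ℂ N d₂) (algebraMap ℂ N e) (algebraMap ℂ N g) v l ^ 2) =
        z3phi (algebraMap ℂ N c) (algebraMap ℂ N d₁) (algebraMap ℂ N d₂)
        (algebraMap ℂ N e) (algebraMap ℂ N g) v * z3C (algebraMap ℂ N c) (algebraMap ℂ N d₁)
          (algebraMap ℂ N d₂) (algebraMap ℂ N e) (algebraMap ℂ N g) v l ^ 2 -
        4 * z3D (algebraMap ℂ N c) (algebraMap ℂ N e) (algebraMap ℂ N g) v l ^ 3 := by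
  obtain ⟨p, n, ζ, l, η, h1, h2, h3, h4, h5, h6, h7, h8, h9, h10, -⟩ :=
    z3_twin_strong c d₁ d₂ e g hd₂ hind hQ hC F hF
  exact ⟨p, n, ζ, l, η, h1, h2, h3, h4, h5, h6, h7, h8, h9, h10⟩

end Vale.Agent.P297.H160
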