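import Vale.Agent.P297.H160.ThreeRed
import Vale.Agent.P297.H600.BigOf
import Vale.Agent.P297.H212.ZGen

/-!
The twin of the surfaces with `ℤ/3`-torsion: from the plane cubic to stable relations.
-/

set_option linter.unusedSectionVars false
set_option linter.style.haveILetI false

open CategoryTheory AlgebraicGeometry IntermediateField Polynomial

namespace Vale.Agent.P297.H160

open Vale.Agent.P297 Vale.Agent.P297.H839 Vale.Agent.P297.H109 Vale.Agent.P297.H729
open Vale.Agent.P297.H600 Vale.Agent.P297.H964 Vale.Agent.P297.H212.Z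

/-- The statement about a plane cubic over `ℂ(1 - η²)` that is needed. -/
def CubicStable (F : Fin 10 → ℂ[X]) (R : ℤ) : Prop :=
  ∀ (T N : Type) [Field T] [Algebra ℂ T] [Field N] [Algebra ℂ N] [IsAlgClosed N] (η x y : T),
    IntermediateField.adjoin ℂ {η, x, y} = ⊤ →
    Z3.tc (fun i => aeval (1 - η ^ 2) (F i)) x y 1 = 0 →
    ∀ (φ : T →ₐ[ℂ] N) (t : N), Gen.Big N ![φ η, φ x, t] →
      Finsupp.single φ R ∈ stableRelations T N

theorem adjoin_top_of_map {N : Type} [Field N] [Algebra ℂ N] (T : IntermediateField ℂ N)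
    {a b c : N} (ha : a ∈ T) (hb : b ∈ T) (hc : c ∈ T)
    (h : T ≤ IntermediateField.adjoin ℂ {a, b, c}) :
    IntermediateField.adjoin ℂ {(⟨a, ha⟩ : T), ⟨b, hb⟩, ⟨c, hc⟩} = ⊤ := by
  rw [eq_top_iff]
  intro z _
  have h1 : (z : N) ∈ (IntermediateField.adjoin ℂ {(⟨a, ha⟩ : T), ⟨b, hb⟩, ⟨c, hc⟩}).map T.val := by
    rw [IntermediateField.adjoin_map]
    have h2 : T.val '' {(⟨a, ha⟩ : T), ⟨b, hb⟩, ⟨c, hc⟩} = {a, b, c} := by
      simp only [Set.image_insert_eq, Set.image_singleton]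
      rfl
    rw [h2]
    exact h z.2
  obtain ⟨w, hw, hwz⟩ := h1
  have h3 : z = w := Subtype.ext hwz.symm
  rw [h3]
  exact hw

/-- Stability of the twin from the stability of the plane cubic. -/
theorem twinStable_of_cubic (c d₁ d₂ e g : ℂ) (F : Fin 10 → ℂ[X]) (R : ℤ)
    (hF : ∀ (N : Type) [Field N] [Algebra ℂ N] (v l η : N), AlgebraicIndependent ℂ ![v, l] →
      η ^ 2 * (z3phi (algebraMap ℂ N c) (algebraMap ℂ N d₁) (algebraMap ℂ N d₂)
        (algebraMap ℂ N e) (algebraMap ℂ N g) v * z3C (algebraMap ℂ N c) (algebraMap ℂ N d₁)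
          (algebraMap ℂ N d₂) (algebraMap ℂ N e) (algebraMap ℂ N g) v l ^ 2) =
        z3phi (algebraMap ℂ N c) (algebraMap ℂ N d₁) (algebraMap ℂ N d₂)
        (algebraMap ℂ N e) (algebraMap ℂ N g) v * z3C (algebraMap ℂ N c) (algebraMap ℂ N d₁)
          (algebraMap ℂ N d₂) (algebraMap ℂ N e) (algebraMap ℂ N g) v l ^ 2 -
        4 * z3D (algebraMap ℂ N c) (algebraMap ℂ N e) (algebraMap ℂ N g) v l ^ 3 →
      ∃ x y : N, Z3.tc (fun i => aeval (1 - η ^ 2) (F i)) x y 1 = 0 ∧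
        IntermediateField.adjoin ℂ {η, x, y} = IntermediateField.adjoin ℂ {v, l, η} ∧
        AlgebraicIndependent ℂ ![η, x])
    (hS : CubicStable F R) : TwinStable c d₁ d₂ e g 1 R := by
  intro A Ω _ _ _ _ _ _ _ _ s hs v l η hvl hA hη
  obtain ⟨x, y, hcub, htop, hind⟩ := hF A v l η hvl hη
  obtain ⟨T, hT⟩ : ∃ T, T = IntermediateField.adjoin ℂ {v, l, η} := ⟨_, rfl⟩
  rw [← hT] at htop ⊢
  have hηT : η ∈ T := by rw [← htop]; exact IntermediateField.subset_adjoin _ _ (by simp)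
  have hxT : x ∈ T := by rw [← htop]; exact IntermediateField.subset_adjoin _ _ (by simp)
  have hyT : y ∈ T := by rw [← htop]; exact IntermediateField.subset_adjoin _ _ (by simp)
  have htop' := adjoin_top_of_map T hηT hxT hyT (le_of_eq htop.symm)
  have hcub' : Z3.tc (fun i => aeval (1 - (⟨η, hηT⟩ : T) ^ 2) (F i)) (⟨x, hxT⟩ : T) ⟨y, hyT⟩ 1 =
      0 := by
    apply T.val.toRingHom.injective
    rw [map_zero]
    have h1 : ∀ i, T.val (aeval (1 - (⟨η, hηT⟩ : T) ^ 2) (F i)) = aeval (1 - η ^ 2) (F i) := by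
      intro i
      rw [← Polynomial.aeval_algHom_apply]
      rfl
    unfold Z3.tc at hcub ⊢
    change T.val _ = 0
    simp only [map_add, map_mul, map_pow, h1, map_one]
    exact hcub
  -- `v` and `l` are algebraic over `ℂ(η, x)`
  have hAx : ∀ z : A, IsAlgebraic (IntermediateField.adjoin ℂ {η, x}) z := by
    have h1 := (basis_pair hvl hA).cardinalMk_eq_trdeg
    have h2 : IsTranscendenceBasis ℂ ![η, x] :=
      hind.isTranscendenceBasis_of_trdeg_le_of_finite h1.symm.le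
    have h3 := h2.isAlgebraic_field
    rw [H600.range_pair] at h3
    exact h3.isAlgebraic
  have hbig := big_of_basis η x hind hAx s hs
  exact hS T Ω (⟨η, hηT⟩ : T) ⟨x, hxT⟩ ⟨y, hyT⟩ htop' hcub'
    ((IsScalarTower.toAlgHom ℂ A Ω).comp T.val) (s 0) hbig

end Vale.Agent.P297.H160
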