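import Vale.Agent.P297.H572.Half.Tower

/-!
Tsen's theorem: few forms of degree `n` in many variables over a function field in one variable
have a nontrivial common zero; norms are surjective.
-/

set_option linter.unusedSectionVars false
set_option linter.style.haveILetI false

open IntermediateField Polynomial

namespace Vale.Agent.P297.H160

open Vale.Agent.P297 Vale.Agent.P297.H572.Half

/-- Few forms over `k[t]` in many variables have a nontrivial common zero. -/
theorem form_zero {k σ τ ι : Type} [Field k] [Fintype σ] [Fintype τ] [Fintype ι] [IsAlgClosed k]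
    {n : ℕ} (hn : 0 < n) (hc : n * Fintype.card τ < Fintype.card σ) (f : ι → Fin n → σ)
    (c : τ → ι → k[X]) :
    ∃ v : σ → k[X], v ≠ 0 ∧ ∀ m, ∑ i, c m i * ∏ j, v (f i j) = 0 := by
  classical
  obtain ⟨D, hD⟩ : ∃ D : ℕ, ∀ m i, (c m i).natDegree ≤ D := by
    refine ⟨∑ m, ∑ i, (c m i).natDegree, fun m i => ?_⟩
    calc (c m i).natDegree ≤ ∑ i, (c m i).natDegree :=
          Finset.single_le_sum (f := fun i => (c m i).natDegree) (fun _ _ => Nat.zero_le _)
            (Finset.mem_univ i)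
      _ ≤ _ := Finset.single_le_sum (f := fun m => ∑ i, (c m i).natDegree)
            (fun _ _ => Nat.zero_le _) (Finset.mem_univ m)
  obtain ⟨N, hN⟩ : ∃ N, N = Fintype.card τ * (D + 1) := ⟨_, rfl⟩
  let G : σ → (MvPolynomial (σ × Fin (N + 1)) k)[X] :=
    fun i => ∑ a : Fin (N + 1), C (MvPolynomial.X (i, a)) * X ^ (a : ℕ)
  let P : τ → (MvPolynomial (σ × Fin (N + 1)) k)[X] :=
    fun m => ∑ i, (c m i).map MvPolynomial.C * ∏ j, G (f i j)
  let V : (σ × Fin (N + 1) → k) → σ → k[X] :=
    fun v i => ∑ a : Fin (N + 1), C (v (i, a)) * X ^ (a : ℕ)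
  have hmapG : ∀ (v : σ × Fin (N + 1) → k) (i : σ),
      (G i).map (MvPolynomial.aeval v : _ →ₐ[k] k).toRingHom = V v i := by
    intro v i
    simp only [G, V, Polynomial.map_sum, Polynomial.map_mul, Polynomial.map_C,
      Polynomial.map_pow, Polynomial.map_X]
    refine Finset.sum_congr rfl fun a _ => ?_
    congr 2
    exact MvPolynomial.aeval_X v (i, a)
  have hmapP : ∀ (v : σ × Fin (N + 1) → k) (m : τ),
      (P m).map (MvPolynomial.aeval v : _ →ₐ[k] k).toRingHom =
        ∑ i, c m i * ∏ j, V v (f i j) := by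
    intro v m
    simp only [P, Polynomial.map_sum, Polynomial.map_mul, Polynomial.map_prod, hmapG,
      Polynomial.map_map]
    refine Finset.sum_congr rfl fun i _ => ?_
    congr 1
    have h1 : ((MvPolynomial.aeval v : MvPolynomial (σ × Fin (N + 1)) k →ₐ[k] k).toRingHom.comp
        MvPolynomial.C) = RingHom.id k := by
      ext x
      simp
    rw [h1, Polynomial.map_id]
  have hcoeff : ∀ (v : σ × Fin (N + 1) → k) (m : τ) (a : ℕ),
      MvPolynomial.aeval v ((P m).coeff a) = (∑ i, c m i * ∏ j, V v (f i j)).coeff a := by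
    intro v m a
    rw [← hmapP, coeff_map]
    rfl
  have hV0 : V 0 = 0 := by
    funext i
    simp [V]
  have hdegV : ∀ v i, (V v i).natDegree ≤ N := by
    intro v i
    refine natDegree_sum_le_of_forall_le _ _ fun a _ => ?_
    exact (natDegree_C_mul_X_pow_le _ _).trans (Nat.lt_succ_iff.1 a.2)
  obtain ⟨v, hv0, hv⟩ := common_zero (k := k) (σ := σ × Fin (N + 1))
    (τ := τ × Fin (n * N + D + 1)) (by
      rw [Fintype.card_prod, Fintype.card_prod, Fintype.card_fin, Fintype.card_fin]
      have h1 : n * Fintype.card τ + 1 ≤ Fintype.card σ := hc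
      calc Fintype.card τ * (n * N + D + 1) < (n * Fintype.card τ + 1) * (N + 1) := by
            rw [hN]; nlinarith
        _ ≤ _ := Nat.mul_le_mul_right _ h1)
    (fun p => (P p.1).coeff (p.2 : ℕ)) (by
      intro p
      rw [hcoeff, hV0]
      haveI : Nonempty (Fin n) := ⟨⟨0, hn⟩⟩
      simp [Finset.prod_const, zero_pow hn.ne'])
  refine ⟨V v, ?_, ?_⟩
  · intro h0
    apply hv0
    funext p
    obtain ⟨i, a⟩ := p
    have h1 := congrArg (fun q => q.coeff (a : ℕ)) (congrFun h0 i)
    simp only [V, finsetSum_coeff, coeff_C_mul, coeff_X_pow, Pi.zero_apply, coeff_zero] at h1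
    rw [Finset.sum_eq_single a] at h1
    · simpa using h1
    · intro b _ hb
      have : (a : ℕ) ≠ (b : ℕ) := fun h => hb (Fin.ext h.symm)
      simp [this]
    · simp
  · intro m
    ext a
    rw [coeff_zero]
    by_cases ha : a < n * N + D + 1
    · have h1 := hv (m, ⟨a, ha⟩)
      rwa [hcoeff] at h1
    · apply coeff_eq_zero_of_natDegree_lt
      refine lt_of_le_of_lt ?_ (not_lt.1 ha |> Nat.lt_of_succ_le)
      refine natDegree_sum_le_of_forall_le _ _ fun i _ => ?_
      calc (c m i * ∏ j, V v (f i j)).natDegree ≤ (c m i).natDegree +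
            (∏ j, V v (f i j)).natDegree := natDegree_mul_le
        _ ≤ D + ∑ j : Fin n, N := by
            refine add_le_add (hD m i) ?_
            refine (natDegree_prod_le _ _).trans (Finset.sum_le_sum fun j _ => hdegV v _)
        _ = n * N + D := by
            rw [Finset.sum_const, Finset.card_univ, Fintype.card_fin, smul_eq_mul]
            ring

variable {F : Type} [Field F] [Algebra ℂ F]

theorem aeval_tr_inj {t : F} (ht : Transcendental ℂ t) (q : ℂ[X]) (hq : aeval t q = 0) :
    q = 0 := by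
  by_contra hne
  exact ht ⟨q, hne, hq⟩

/-- **Tsen** for one form of degree `n` over a function field in one variable. -/
theorem tsen_form [IsFF ℂ F] {t : F} (ht : Transcendental ℂ t) {σ ι : Type} [Fintype σ]
    [Fintype ι] {n : ℕ} (hn : 0 < n) (hc : n * Module.finrank ℂ⟮t⟯ F < Fintype.card σ)
    (f : ι → Fin n → σ) (g : ι → F) :
    ∃ v : σ → ℂ[X], v ≠ 0 ∧ ∑ i, g i * ∏ j, aeval t (v (f i j)) = 0 := by
  classical
  haveI : FiniteDimensional ℂ⟮t⟯ F := IsFF.finiteDimensional ht
  let e := Module.finBasis ℂ⟮t⟯ F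
  obtain ⟨D, p, hD, hp⟩ := exists_den (t := t) (ι := Fin (Module.finrank ℂ⟮t⟯ F) × ι)
    (fun q => e.repr (g q.2) q.1)
  obtain ⟨v, hv0, hv⟩ := form_zero (k := ℂ) (σ := σ) (τ := Fin (Module.finrank ℂ⟮t⟯ F)) hn
    (by rwa [Fintype.card_fin]) f (fun m i => p (m, i))
  refine ⟨v, hv0, ?_⟩
  let gt : ℂ⟮t⟯ := AdjoinSimple.gen ℂ t
  have hg : ∀ q : ℂ[X], ((aeval gt q : ℂ⟮t⟯) : F) = aeval t q := by
    intro q
    have := aeval_algebraMap_apply F gt q
    rw [AdjoinSimple.algebraMap_gen] at this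
    exact this.symm
  have h2 : ∑ i, g i * ∏ j, aeval t (v (f i j)) =
      ∑ i, (∏ j, (aeval gt (v (f i j)) : ℂ⟮t⟯)) • g i := by
    refine Finset.sum_congr rfl fun i _ => ?_
    rw [Algebra.smul_def, map_prod, mul_comm]
    congr 1
    refine Finset.prod_congr rfl fun j _ => ?_
    exact (hg _).symm
  rw [h2]
  apply e.repr.injective
  rw [map_zero]
  ext m
  rw [map_sum, Finsupp.coe_finsetSum, Finset.sum_apply]
  simp only [map_smul, Finsupp.coe_smul, Pi.smul_apply, smul_eq_mul]
  apply mul_right_cancel₀ hD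
  change ((∑ i, (∏ j, (aeval gt (v (f i j)) : ℂ⟮t⟯)) * e.repr (g i) m : ℂ⟮t⟯) : F) *
    aeval t D = 0 * aeval t D
  rw [zero_mul]
  have h3 := congrArg (aeval t) (hv m)
  rw [map_zero] at h3
  rw [← h3]
  simp only [map_sum, map_mul, map_prod]
  push_cast
  rw [Finset.sum_mul]
  refine Finset.sum_congr rfl fun i _ => ?_
  rw [← hp (m, i)]
  have h6 : (∏ j, ((aeval gt (v (f i j)) : ℂ⟮t⟯) : F)) = ∏ j, aeval t (v (f i j)) :=
    Finset.prod_congr rfl fun j _ => hg _
  rw [h6]
  ring

/-- **Norms are surjective** over a function field in one variable. -/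
theorem norm_surj [IsFF ℂ F] {E : Type} [Field E] [Algebra F E] [FiniteDimensional F E] {c : F}
    (hc : c ≠ 0) : ∃ y : E, y ≠ 0 ∧ Algebra.norm F y = c := by
  classical
  obtain ⟨t, ht⟩ := IsFF.exists_transcendental (k := ℂ) (E := F)
  haveI : FiniteDimensional ℂ⟮t⟯ F := IsFF.finiteDimensional ht
  obtain ⟨n, hn⟩ : ∃ n, n = Module.finrank F E := ⟨_, rfl⟩
  obtain ⟨d, hd⟩ : ∃ d, d = Module.finrank ℂ⟮t⟯ F := ⟨_, rfl⟩
  have hn0 : 0 < n := by rw [hn]; exact Module.finrank_pos
  have hd0 : 0 < d := by rw [hd]; exact Module.finrank_pos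
  let b : Module.Basis (Fin n) F E := Module.finBasisOfFinrankEq F E hn.symm
  let w : Module.Basis (Fin d) ℂ⟮t⟯ F := Module.finBasisOfFinrankEq ℂ⟮t⟯ F hd.symm
  let M : Fin n × Fin d → Matrix (Fin n) (Fin n) F := fun s =>
    w s.2 • Algebra.leftMulMatrix b (b s.1)
  let f : (Equiv.Perm (Fin n) × (Fin n → Fin n × Fin d)) ⊕ (Fin n → Fin d) → Fin n →
      (Fin n × Fin d) ⊕ Fin d := fun i => match i with
    | Sum.inl q => fun j => Sum.inl (q.2 j)
    | Sum.inr h => fun j => Sum.inr (h j)
  let g : (Equiv.Perm (Fin n) × (Fin n → Fin n × Fin d)) ⊕ (Fin n → Fin d) → F := fun i =>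
    match i with
    | Sum.inl q => ((Equiv.Perm.sign q.1 : ℤ) : F) * ∏ j, M (q.2 j) (q.1 j) j
    | Sum.inr h => -c * ∏ j, w (h j)
  obtain ⟨v, hv0, hv⟩ := tsen_form ht (σ := (Fin n × Fin d) ⊕ Fin d) hn0 (by
    rw [Fintype.card_sum, Fintype.card_prod, Fintype.card_fin, Fintype.card_fin, ← hd]
    omega) f g
  let x : Fin n × Fin d → F := fun s => aeval t (v (Sum.inl s))
  let x' : Fin d → F := fun k => aeval t (v (Sum.inr k))
  let y : E := ∑ s, (x s * w s.2) • b s.1
  let z : F := ∑ k, x' k * w k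
  have hy : Algebra.norm F y = ∑ π : Equiv.Perm (Fin n), ∑ h : Fin n → Fin n × Fin d,
      (((Equiv.Perm.sign π : ℤ) : F) * ∏ j, M (h j) (π j) j) * ∏ j, x (h j) := by
    rw [Algebra.norm_eq_matrix_det b y, Matrix.det_apply']
    refine Finset.sum_congr rfl fun π _ => ?_
    have h1 : ∀ j, Algebra.leftMulMatrix b y (π j) j = ∑ s, M s (π j) j * x s := by
      intro j
      change Algebra.leftMulMatrix b (∑ s, (x s * w s.2) • b s.1) (π j) j = _
      rw [map_sum, Matrix.sum_apply]
      refine Finset.sum_congr rfl fun s _ => ?_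
      rw [map_smul]
      change (x s * w s.2) * Algebra.leftMulMatrix b (b s.1) (π j) j =
        (w s.2 * Algebra.leftMulMatrix b (b s.1) (π j) j) * x s
      ring
    simp only [h1]
    rw [Finset.prod_univ_sum, Fintype.piFinset_univ, Finset.mul_sum]
    refine Finset.sum_congr rfl fun h _ => ?_
    rw [Finset.prod_mul_distrib, mul_assoc]
  have hz : z ^ n = ∑ h : Fin n → Fin d, (∏ j, w (h j)) * ∏ j, x' (h j) := by
    have h1 : z ^ n = ∏ _j : Fin n, ∑ k, w k * x' k := by
      rw [Finset.prod_const, Finset.card_univ, Fintype.card_fin]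
      congr 1
      exact Finset.sum_congr rfl fun k _ => mul_comm _ _
    rw [h1, Finset.prod_univ_sum, Fintype.piFinset_univ]
    exact Finset.sum_congr rfl fun h _ => Finset.prod_mul_distrib
  have heq : Algebra.norm F y = c * z ^ n := by
    rw [Fintype.sum_sum_type, Fintype.sum_prod_type] at hv
    have h1 : ∑ π : Equiv.Perm (Fin n), ∑ h : Fin n → Fin n × Fin d,
        g (Sum.inl (π, h)) * ∏ j, aeval t (v (f (Sum.inl (π, h)) j)) = Algebra.norm F y := by
      rw [hy]
    have h2 : ∑ h : Fin n → Fin d, g (Sum.inr h) * ∏ j, aeval t (v (f (Sum.inr h) j)) =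
        -(c * z ^ n) := by
      rw [hz, Finset.mul_sum, ← Finset.sum_neg_distrib]
      refine Finset.sum_congr rfl fun h _ => ?_
      change (-c * ∏ j, w (h j)) * ∏ j, x' (h j) = _
      ring
    rw [h1, h2] at hv
    exact add_neg_eq_zero.1 hv
  -- the solution is nontrivial
  have hinj := aeval_tr_inj ht
  let gt : ℂ⟮t⟯ := AdjoinSimple.gen ℂ t
  have hg : ∀ q : ℂ[X], algebraMap ℂ⟮t⟯ F (aeval gt q) = aeval t q := by
    intro q
    have := aeval_algebraMap_apply F gt q
    rw [AdjoinSimple.algebraMap_gen] at this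
    exact this.symm
  have hwz : ∀ u : Fin d → ℂ[X], ∑ k, aeval t (u k) * w k = 0 → ∀ k, u k = 0 := by
    intro u hu k
    have h1 : ∑ k, (aeval gt (u k) : ℂ⟮t⟯) • w k = 0 := by
      rw [← hu]
      refine Finset.sum_congr rfl fun k _ => ?_
      rw [Algebra.smul_def, hg]
    have h2 := Fintype.linearIndependent_iff.1 w.linearIndependent _ h1 k
    apply hinj
    rw [← hg, h2, map_zero]
  have hz0 : z ≠ 0 := by
    intro h0
    rw [h0, zero_pow hn0.ne', mul_zero] at heq
    have hy0 : y = 0 := Algebra.norm_eq_zero_iff.1 heq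
    apply hv0
    funext s
    have hb : ∀ i k, v (Sum.inl (i, k)) = 0 := by
      intro i
      apply hwz
      have h1 : ∑ i, (∑ k, x (i, k) * w k) • b i = 0 := by
        rw [← hy0]
        change _ = ∑ s : Fin n × Fin d, (x s * w s.2) • b s.1
        rw [Fintype.sum_prod_type]
        exact Finset.sum_congr rfl fun i _ => Finset.sum_smul
      exact Fintype.linearIndependent_iff.1 b.linearIndependent _ h1 i
    rcases s with ⟨i, k⟩ | k
    · exact hb i k
    · exact hwz (fun k => v (Sum.inr k)) h0 k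
  refine ⟨algebraMap F E z⁻¹ * y, ?_, ?_⟩
  · intro h0
    have h1 : Algebra.norm F (algebraMap F E z⁻¹ * y) = 0 := by rw [h0, Algebra.norm_zero]
    rw [map_mul, Algebra.norm_algebraMap, heq, ← hn] at h1
    exact mul_ne_zero (pow_ne_zero n (inv_ne_zero hz0)) (mul_ne_zero hc (pow_ne_zero n hz0)) h1
  · rw [map_mul, Algebra.norm_algebraMap, heq, ← hn, inv_pow]
    field_simp

end Vale.Agent.P297.H160
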