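import Mathlib

/-!
General numerical Godeaux surfaces with torsion of order two: the quartic equation of the image of
the surface in the space of `(y, k, x)`.
-/

set_option linter.unusedSectionVars false
set_option linter.unusedVariables false

namespace Vale.Agent.P297.H160.Z2Irr

section coeffs

variable {A : Type*} [CommRing A]

def c10 (U V a c e m P R : A) : A :=
  -U ^ 4 * m + 2 * U ^ 4 * P * R - U ^ 3 * V * c * P + 2 * U ^ 3 * V * P * R + U ^ 3 * a * e +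
    U ^ 2 * V ^ 2 * a * P + U ^ 2 * V ^ 2 * P ^ 2 + U ^ 2 * e ^ 2 + 4 * U * V ^ 2 * e * P + 3 *
    V ^ 4 * P ^ 2

def c11 (U V a c e m P R : A) : A :=
  -2 * U ^ 4 * V * R + U ^ 4 * c * R - 2 * U ^ 4 * R ^ 2 + 3 * U ^ 3 * V * a * R - 2 * U ^ 2 *
    V ^ 2 * e + 2 * U ^ 2 * V ^ 2 * m - 4 * U ^ 2 * V ^ 2 * P * R + U ^ 2 * V * c * e - 2 * U *
    V ^ 4 * P + 3 * U * V ^ 3 * c * P + U * V ^ 2 * a * e + V ^ 4 * a * P - 2 * V ^ 4 * P ^ 2

def c12 (U V a c e m P R : A) : A :=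
  3 * U ^ 4 * R ^ 2 + U ^ 2 * V ^ 2 * c * R + U ^ 2 * V ^ 2 * R ^ 2 + 4 * U ^ 2 * V * e * R - U
    * V ^ 3 * a * R + 2 * U * V ^ 3 * P * R - V ^ 4 * m + 2 * V ^ 4 * P * R + V ^ 3 * c * e + V
    ^ 2 * e ^ 2

def c20 (U V a c e m P R : A) : A :=
  U ^ 2 * a * P + U ^ 2 * P ^ 2 + 2 * U * e * P + 3 * V ^ 2 * P ^ 2

def c21 (U V a c e m P R : A) : A :=
  -U ^ 3 * a + U ^ 2 * a ^ 2 + U ^ 2 * a * P - 2 * U ^ 2 * e + 2 * U ^ 2 * m - 4 * U ^ 2 * P *
    R - 4 * U * V ^ 2 * P + 3 * U * V * c * P + U * a * e + 2 * V ^ 2 * a * P - 4 * V ^ 2 * P ^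
    2

def c22 (U V a c e m P R : A) : A :=
  U ^ 2 * V ^ 2 - U ^ 2 * V * c - 2 * U ^ 2 * c * R - 2 * U ^ 2 * m + 4 * U ^ 2 * P * R + U ^ 2
    * R ^ 2 - U * V ^ 2 * a + 2 * U * V * a * c - U * V * a * R - U * V * c * P + 2 * U * V * P
    * R + U * a * e - 2 * V ^ 2 * a * P - 2 * V ^ 2 * m + V ^ 2 * P ^ 2 + 4 * V ^ 2 * P * R + V
    * c * e + e ^ 2

def c23 (U V a c e m P R : A) : A :=
  -4 * U ^ 2 * V * R + 2 * U ^ 2 * c * R - 4 * U ^ 2 * R ^ 2 + 3 * U * V * a * R - V ^ 3 * c +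
    V ^ 2 * c ^ 2 + V ^ 2 * c * R - 2 * V ^ 2 * e + 2 * V ^ 2 * m - 4 * V ^ 2 * P * R + V * c *
    e

def c24 (U V a c e m P R : A) : A :=
  3 * U ^ 2 * R ^ 2 + V ^ 2 * c * R + V ^ 2 * R ^ 2 + 2 * V * e * R

def c30 (U V a c e m P R : A) : A :=
  P ^ 2

def c31 (U V a c e m P R : A) : A :=
  -2 * U * P + a * P - 2 * P ^ 2

def c32 (U V a c e m P R : A) : A :=
  U ^ 2 - U * a - 2 * a * P - m + P ^ 2 + 2 * P * R

def c33 (U V a c e m P R : A) : A :=
  -U * a - V * c + a * P + c * R - 2 * e + 2 * m - 4 * P * R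

def c34 (U V a c e m P R : A) : A :=
  V ^ 2 - V * c - 2 * c * R - m + 2 * P * R + R ^ 2

def c35 (U V a c e m P R : A) : A :=
  -2 * V * R + c * R - 2 * R ^ 2

def c36 (U V a c e m P R : A) : A :=
  R ^ 2

/-- the square root of the last coefficient -/
def b0 (U V a c e m P R : A) : A := U * V * e + R * U ^ 3 + P * V ^ 3

/-- coefficient of the third power -/
def q3 (U V a c e m P R k : A) : A :=
  c36 U V a c e m P R * k ^ 6 + c35 U V a c e m P R * k ^ 5 + c34 U V a c e m P R * k ^ 4 + c33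
    U V a c e m P R * k ^ 3 + c32 U V a c e m P R * k ^ 2 + c31 U V a c e m P R * k + c30 U V a
    c e m P R

/-- coefficient of the second power -/
def q2 (U V a c e m P R k : A) : A :=
  c24 U V a c e m P R * k ^ 4 + c23 U V a c e m P R * k ^ 3 + c22 U V a c e m P R * k ^ 2 + c21
    U V a c e m P R * k + c20 U V a c e m P R

/-- coefficient of the first power -/
def q1 (U V a c e m P R k : A) : A :=
  c12 U V a c e m P R * k ^ 2 + c11 U V a c e m P R * k + c10 U V a c e m P R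

/-- the quartic -/
def qf (U V a c e m P R k x : A) : A :=
  k ^ 4 * x ^ 4 + q3 U V a c e m P R k * x ^ 3 + q2 U V a c e m P R k * x ^ 2 +
    q1 U V a c e m P R k * x + b0 U V a c e m P R ^ 2

end coeffs

section field

variable {K : Type*} [Field K]

/-- The elimination: the quartic is the combination of the numerators. -/
theorem qf_eq (U V a c e m P R k x A B c2 c3 g θ D L Nt Ns : K) (hA : P = A * U) (hB : R = B * V)
    (h2 : c2 = e + B * U ^ 2 + A * V ^ 2)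
    (h3 : c3 = m + A * c * V + B * a * U - (A * V + B * U) ^ 2)
    (hg : g = A + B * k) (hθ : θ = k + (k - 1) * (A - B * k))
    (hD : D = k * (k - 1) * x + U ^ 2 - k * V ^ 2) (hL : L = a * U + c * k * V)
    (ht : Nt = x * L + (x + V ^ 2) * (c2 - θ * x))
    (hs : Ns = k * x * L + (k ^ 2 * x + U ^ 2) * (c2 - θ * x)) :
    qf U V a c e m P R k x = (Ns + 2 * A * k * x * D) * (Nt - 2 * B * x * D) +
      g ^ 2 * x ^ 2 * D ^ 2 - c3 * x * D ^ 2 := by
  subst hA hB h2 h3 hg hθ hD hL ht hs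
  unfold qf q3 q2 q1 b0 c36 c35 c34 c33 c32 c31 c30 c24 c23 c22 c21 c20 c12 c11 c10
  ring

end field

end Vale.Agent.P297.H160.Z2Irr
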