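import Vale.Agent.P297.H160.Z2Gen

/-!
The general numerical Godeaux surface with torsion of order two: function fields generated over two
independent functions, and the form of the equations without the coordinate `x`.
-/

set_option linter.unusedSectionVars false
set_option linter.unusedVariables false
set_option linter.style.haveILetI false
set_option linter.unusedSimpArgs false

open IntermediateField Polynomial

namespace Vale.Agent.P297.H160.Z2Irr

open Vale.Agent.P297 Vale.Agent.P297.Gen Vale.Agent.P297.H777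

open scoped IntermediateField.algebraAdjoinAdjoin in
/-- The transcendence degree from algebraically independent elements over which the generators are
algebraic. -/
theorem trdeg_of_gen {K ι κ : Type} [Field K] [Algebra ℂ K] [Fintype κ] (o : ι → K)
    (ho : IntermediateField.adjoin ℂ (Set.range o) = ⊤) (u : κ → K)
    (hu : AlgebraicIndependent ℂ u)
    (halg : ∀ i, IsAlgebraic (IntermediateField.adjoin ℂ (Set.range u)) (o i)) :
    Algebra.trdeg ℂ K = Fintype.card κ := by
  let A := Algebra.adjoin ℂ (Set.range u)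
  let E := IntermediateField.adjoin ℂ (Set.range u)
  haveI h1 : Algebra.IsAlgebraic E K := by
    constructor
    intro z
    have h2 : IntermediateField.adjoin ℂ (Set.range o) ≤
        (algebraicClosure E K).restrictScalars ℂ := by
      rw [IntermediateField.adjoin_le_iff]
      rintro _ ⟨i, rfl⟩
      exact mem_algebraicClosure_iff.2 (halg i)
    rw [ho] at h2
    have h3 : z ∈ (algebraicClosure E K).restrictScalars ℂ := h2 trivial
    exact mem_algebraicClosure_iff.1 h3
  haveI h4 : Algebra.IsAlgebraic A E := inferInstance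
  haveI h5 : Algebra.IsAlgebraic A K := Algebra.IsAlgebraic.trans A E K
  have h6 : IsTranscendenceBasis ℂ u := hu.isTranscendenceBasis_iff_isAlgebraic.2 h5
  have h7 := h6.lift_cardinalMk_eq_trdeg
  simp only [Cardinal.lift_id, Cardinal.mk_fintype] at h7
  exact h7.symm

section

variable {K : Type} [Field K] [Algebra ℂ K] {P : Par}

/-- The function field, from its equations. -/
theorem IsFF.of_ind (h0 : P.P0 ≠ 0) {w : Fin 5 → K} (hyk : AlgebraicIndependent ℂ ![w 2, w 1])
    (htop : IntermediateField.adjoin ℂ (Set.range w) = ⊤)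
    (h1 : E1 P (w 0) (w 1) (w 2) (w 3) (w 4)) (h2 : E2 P (w 0) (w 1) (w 2) (w 3) (w 4))
    (h3 : E3 P (w 0) (w 1) (w 2) (w 3) (w 4)) : IsFF P w := by
  have hg : GenS P w := GenS.of_eqs h0 hyk h1 h2 h3
  refine ⟨htop, h1, h2, h3, hg.nx, hg.nU, hg.nV, hg.nD, ?_, h0⟩
  have hy : w 2 ∈ IntermediateField.adjoin ℂ (Set.range ![w 2, w 1]) :=
    IntermediateField.subset_adjoin _ _ ⟨0, rfl⟩
  have hk : w 1 ∈ IntermediateField.adjoin ℂ (Set.range ![w 2, w 1]) :=
    IntermediateField.subset_adjoin _ _ ⟨1, rfl⟩
  have htop3 : IntermediateField.adjoin ℂ (Set.range (xyz w)) = ⊤ := by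
    rw [eq_top_iff, ← htop, IntermediateField.adjoin_le_iff]
    rintro _ ⟨i, rfl⟩
    exact hg.mem3 i
  have h := trdeg_of_gen (xyz w) htop3 ![w 2, w 1] hyk (by
    intro j
    fin_cases j
    · exact hg.alg_x h0 _ hk hy
    · exact isAlgebraic_algebraMap (⟨w 1, hk⟩ : IntermediateField.adjoin ℂ
        (Set.range ![w 2, w 1]))
    · exact isAlgebraic_algebraMap (⟨w 2, hy⟩ : IntermediateField.adjoin ℂ
        (Set.range ![w 2, w 1])))
  rw [h]
  rfl

end

section zAB

variable {R : Type*} [CommRing R] [Algebra ℂ R] (P : Par)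

/-- the cubic form -/
def fC (k s t : R) : R := t * k ^ 2 - s

/-- the linear form -/
def fL (y k s t : R) : R := fU P y ^ 2 * t - fV P y ^ 2 * s - fa P y * fU P y - fc P y * fV P y * k

/-- the first quadratic form, multiplied by `U V` -/
def fD2 (y k s t : R) : R := fU P y * fV P y * (s - k * t + k) +
  (algebraMap ℂ R P.P0 * fV P y + algebraMap ℂ R P.P2 * fU P y) * k -
  algebraMap ℂ R P.P2 * fU P y * k ^ 2 - algebraMap ℂ R P.P0 * fV P y

/-- the second quadratic form, multiplied by `(U V) ^ 2` -/
def fD3 (y k s t : R) : R := fU P y * fV P y * (fU P y * s + 2 * algebraMap ℂ R P.P0 * k) *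
    (fV P y * t - 2 * algebraMap ℂ R P.P2) +
  (algebraMap ℂ R P.P0 * fV P y + algebraMap ℂ R P.P2 * fU P y * k) ^ 2

/-- the right side of the third equation, multiplied by `(U V) ^ 2` -/
def fr (y : R) : R := fU P y ^ 2 * fV P y ^ 2 * fm P y +
  algebraMap ℂ R P.P0 * fc P y * fU P y * fV P y ^ 3 +
  algebraMap ℂ R P.P2 * fa P y * fU P y ^ 3 * fV P y -
  (algebraMap ℂ R P.P0 * fV P y ^ 2 + algebraMap ℂ R P.P2 * fU P y ^ 2) ^ 2

/-- the first equation -/
def eA (y k s t : R) : R := fg P y * fC k s t + fD2 P y k s t * fL P y k s t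

/-- the second equation -/
def eB (y k s t : R) : R := fr P y * fC k s t + fD3 P y k s t * fL P y k s t

end zAB

section field

variable {N : Type} [Field N] [Algebra ℂ N] {P : Par} {y k s t : N}

/-- the square of the first coordinate -/
def fx (P : Par) (y k s t : N) : N := -(fL P y k s t / fC k s t)

theorem fx_mul (nC : fC k s t ≠ 0) : fx P y k s t * fC k s t = -fL P y k s t := by
  unfold fx
  rw [neg_mul, div_mul_cancel₀ _ nC]

theorem E1_of_zAB (nC : fC k s t ≠ 0) : E1 P (fx P y k s t) k y s t := by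
  have h1 := fx_mul (P := P) (y := y) nC
  unfold fL at h1
  unfold E1
  have h2 : fx P y k s t * (k ^ 2 * t - s) = fx P y k s t * fC k s t := by
    unfold fC
    ring
  linear_combination h1 + h2

theorem E2_of_zAB (nC : fC k s t ≠ 0) (hU : fU P y ≠ 0) (hV : fV P y ≠ 0)
    (hA : eA P y k s t = 0) : E2 P (fx P y k s t) k y s t := by
  have h1 := fx_mul (P := P) (y := y) nC
  have h2 : fx P y k s t * fD2 P y k s t = fg P y := by
    unfold eA at hA
    apply mul_right_cancel₀ nC
    linear_combination fD2 P y k s t * h1 - hA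
  unfold fD2 fg at h2
  unfold E2
  field_simp
  linear_combination h2

theorem E3_of_zAB (nC : fC k s t ≠ 0) (hU : fU P y ≠ 0) (hV : fV P y ≠ 0)
    (hB : eB P y k s t = 0) : E3 P (fx P y k s t) k y s t := by
  have h1 := fx_mul (P := P) (y := y) nC
  have h2 : fx P y k s t * fD3 P y k s t = fr P y := by
    unfold eB at hB
    apply mul_right_cancel₀ nC
    linear_combination fD3 P y k s t * h1 - hB
  unfold fD3 fr at h2
  unfold E3
  field_simp
  linear_combination h2

/-- Points from the two equations without `x`. -/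
theorem GenS.of_zAB (h0 : P.P0 ≠ 0) (hyk : AlgebraicIndependent ℂ ![y, k]) (nC : fC k s t ≠ 0)
    (hA : eA P y k s t = 0) (hB : eB P y k s t = 0) : GenS P ![fx P y k s t, k, y, s, t] :=
  GenS.of_eqs h0 (w := ![fx P y k s t, k, y, s, t]) hyk (E1_of_zAB nC)
    (E2_of_zAB nC (U_ne hyk) (V_ne hyk) hA) (E3_of_zAB nC (U_ne hyk) (V_ne hyk) hB)

end field

end Vale.Agent.P297.H160.Z2Irr
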