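import Vale.Agent.P297.H160.Z2Pts

/-!
The general numerical Godeaux surface with torsion of order two: the coordinates `y` and `k` of a
generic point are independent, and they determine four generic points.
-/

set_option linter.unusedSectionVars false
set_option linter.unusedVariables false
set_option linter.style.haveILetI false
set_option linter.unusedSimpArgs false

open IntermediateField Polynomial

namespace Vale.Agent.P297.H160.Z2Irr

open Vale.Agent.P297 Vale.Agent.P297.Gen Vale.Agent.P297.H777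

theorem pP_natDegree (P : Par) : (pP P).natDegree = 4 := by
  rw [pP_eq, qf_poly]
  have hX4 : (X ^ 4 : ℂ[X][X]) ≠ 0 := pow_ne_zero 4 X_ne_zero
  generalize (C (c36 (fU P (X : ℂ[X])) (fV P X) (fa P X) (fc P X) (fe P X) (fm P X)
    (algebraMap ℂ ℂ[X] P.P0) (algebraMap ℂ ℂ[X] P.P2)) * X ^ 6 + _ + _ + _ + _ + _ + _ :
      ℂ[X][X]) = a3
  generalize (C (c24 (fU P (X : ℂ[X])) (fV P X) (fa P X) (fc P X) (fe P X) (fm P X)
    (algebraMap ℂ ℂ[X] P.P0) (algebraMap ℂ ℂ[X] P.P2)) * X ^ 4 + _ + _ + _ + _ :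
      ℂ[X][X]) = a2
  generalize (C (c12 (fU P (X : ℂ[X])) (fV P X) (fa P X) (fc P X) (fe P X) (fm P X)
    (algebraMap ℂ ℂ[X] P.P0) (algebraMap ℂ ℂ[X] P.P2)) * X ^ 2 + _ + _ :
      ℂ[X][X]) = a1
  generalize (C (b0 (fU P (X : ℂ[X])) (fV P X) (fa P X) (fc P X) (fe P X) (fm P X)
    (algebraMap ℂ ℂ[X] P.P0) (algebraMap ℂ ℂ[X] P.P2) ^ 2) : ℂ[X][X]) = a0
  compute_degree!

theorem not_dvd {P : Par} {f : MvPolynomial (Fin 3) ℂ} (hf : f ≠ 0) (hd : (e3 f).natDegree < 4) :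
    ¬ hP P ∣ f := by
  rintro ⟨g, rfl⟩
  have h1 : pP P ∣ e3 (hP P * g) := by
    rw [map_mul, e3_hP]
    exact dvd_mul_right _ _
  have h2 : e3 (hP P * g) ≠ 0 := (map_ne_zero_iff e3 e3.injective).2 hf
  have h3 := natDegree_le_of_dvd h1 h2
  rw [pP_natDegree] at h3
  omega

section

variable {N : Type} [Field N] [Algebra ℂ N] {P : Par} {x k y : N}

theorem y_ne (hyk : AlgebraicIndependent ℂ ![y, k]) (f : ℂ[X]) (hf : f ≠ 0) : aeval y f ≠ 0 := by
  intro h
  have h1 : Transcendental ℂ y := hyk.transcendental 0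
  exact h1 ⟨f, hf, h⟩

theorem k_ne (hyk : AlgebraicIndependent ℂ ![y, k]) (f : ℂ[X]) (hf : f ≠ 0) : aeval k f ≠ 0 := by
  intro h
  have h1 : Transcendental ℂ k := hyk.transcendental 1
  exact h1 ⟨f, hf, h⟩

theorem dvd_yk (h0 : P.P0 ≠ 0) (hyk : AlgebraicIndependent ℂ ![y, k]) (hx : fQ P x k y = 0)
    (f : MvPolynomial (Fin 3) ℂ) : MvPolynomial.aeval ![x, k, y] f = 0 ↔ hP P ∣ f := by
  refine dvd_of_generic (hP P) (irr_hP P h0) ![x, k, y] (by rw [aeval_hP]; exact hx) ![2, 1] ?_ f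
  convert hyk using 1
  funext i
  fin_cases i <;> rfl

theorem U_ne (hyk : AlgebraicIndependent ℂ ![y, k]) : fU P y ≠ 0 := by
  have h := y_ne hyk (X + C P.u) (X_add_C_ne_zero _)
  simpa [fU] using h

theorem V_ne (hyk : AlgebraicIndependent ℂ ![y, k]) : fV P y ≠ 0 := by
  have h := y_ne hyk (X + C P.v) (X_add_C_ne_zero _)
  simpa [fV] using h

theorem fg_eq (P : Par) {R : Type*} [CommRing R] [Algebra ℂ R] (y : R) : fg P y =
    b0 (fU P y) (fV P y) (fa P y) (fc P y) (fe P y) (fm P y) (algebraMap ℂ R P.P0)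
      (algebraMap ℂ R P.P2) := by
  unfold fg b0
  ring

theorem fg_ne (hyk : AlgebraicIndependent ℂ ![y, k]) : fg P y ≠ 0 := by
  have h1 : fg P (X : ℂ[X]) ≠ 0 := by
    intro hz
    have h2 := natDegree_b0 P
    rw [← fg_eq, hz, natDegree_zero] at h2
    omega
  have h2 := y_ne hyk (fg P (X : ℂ[X])) h1
  rwa [map_fg, aeval_X] at h2

theorem fQ_zero (P : Par) {R : Type*} [CommRing R] [Algebra ℂ R] (k y : R) :
    fQ P 0 k y = fg P y ^ 2 := by
  rw [fg_eq]
  unfold fQ qf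
  ring

theorem x_ne (hyk : AlgebraicIndependent ℂ ![y, k]) (hx : fQ P x k y = 0) : x ≠ 0 := by
  rintro rfl
  rw [fQ_zero] at hx
  exact fg_ne hyk (pow_eq_zero_iff two_ne_zero |>.1 hx)

/-- the denominator over a ring -/
def rD (P : Par) {R : Type*} [CommRing R] [Algebra ℂ R] (x k y : R) : R :=
  k * (k - 1) * x + fU P y ^ 2 - k * fV P y ^ 2

theorem map_rD (P : Par) {R R' : Type*} [CommRing R] [Algebra ℂ R] [CommRing R'] [Algebra ℂ R']
    (f : R →ₐ[ℂ] R') (x k y : R) : f (rD P x k y) = rD P (f x) (f k) (f y) := by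
  simp only [rD, map_add, map_sub, map_mul, map_pow, map_one, map_fU, map_fV]

/-- the denominator as a polynomial -/
noncomputable def mD (P : Par) : MvPolynomial (Fin 3) ℂ :=
  rD P (MvPolynomial.X 0) (MvPolynomial.X 1) (MvPolynomial.X 2)

theorem e3_mD' (P : Par) : e3 (mD P) = rD P (X : ℂ[X][X][X]) (C X) (C (C X)) := by
  have h0 : e3.toAlgHom (MvPolynomial.X 0) = X := e3_X0
  have h1 : e3.toAlgHom (MvPolynomial.X 1) = C X := e3_X1
  have h2 : e3.toAlgHom (MvPolynomial.X 2) = C (C X) := e3_X2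
  have h3 : e3.toAlgHom (mD P) = rD P (e3.toAlgHom (MvPolynomial.X 0))
      (e3.toAlgHom (MvPolynomial.X 1)) (e3.toAlgHom (MvPolynomial.X 2)) := by
    unfold mD
    exact map_rD (R := MvPolynomial (Fin 3) ℂ) (R' := ℂ[X][X][X]) P e3.toAlgHom
      (MvPolynomial.X 0) (MvPolynomial.X 1) (MvPolynomial.X 2)
  rw [h0, h1, h2] at h3
  exact h3

theorem e3_mD (P : Par) : e3 (mD P) = C (X * (X - 1)) * X +
    C (C (fU P (X : ℂ[X]) ^ 2) - X * C (fV P (X : ℂ[X]) ^ 2)) := by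
  have h : ∀ r : ℂ, algebraMap ℂ ℂ[X][X][X] r = C (C (C r)) := fun r => rfl
  have h' : ∀ r : ℂ, algebraMap ℂ ℂ[X] r = C r := fun r => rfl
  rw [e3_mD']
  simp only [rD, fU, fV, h, h', map_add, map_sub, map_mul, map_pow, map_one]
  ring

theorem mD_ne (P : Par) : e3 (mD P) ≠ 0 ∧ (e3 (mD P)).natDegree < 4 := by
  rw [e3_mD]
  have hX : (X * (X - 1) : ℂ[X][X]) ≠ 0 := by
    refine mul_ne_zero X_ne_zero ?_
    have := X_sub_C_ne_zero (1 : ℂ[X])
    rwa [map_one] at this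
  generalize (C (fU P (X : ℂ[X]) ^ 2) - X * C (fV P (X : ℂ[X]) ^ 2) : ℂ[X][X]) = b
  have h1 : (C (X * (X - 1)) * X + C b : ℂ[X][X][X]).natDegree = 1 := by
    rw [natDegree_linear hX]
  refine ⟨?_, by omega⟩
  intro h
  rw [h, natDegree_zero] at h1
  omega

theorem D_ne (h0 : P.P0 ≠ 0) (hyk : AlgebraicIndependent ℂ ![y, k]) (hx : fQ P x k y = 0) :
    fD P x k y ≠ 0 := by
  intro h
  have h1 : MvPolynomial.aeval ![x, k, y] (mD P) = fD P x k y := by
    unfold mD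
    rw [map_rD]
    simp [rD, fD]
  have h2 : hP P ∣ mD P := (dvd_yk h0 hyk hx _).1 (by rw [h1, h])
  obtain ⟨h3, h4⟩ := mD_ne P
  exact not_dvd ((map_ne_zero_iff e3 e3.injective).1 h3) h4 h2

/-- The linear formulas give the first two equations. -/
theorem E1_of_num {σ τ : N} (hx : x ≠ 0) (hD : fD P x k y ≠ 0)
    (hσ : x * fD P x k y * σ = numS P x k y) (hτ : x * fD P x k y * τ = numT P x k y) :
    E1 P x k y σ τ := by
  unfold E1
  apply mul_left_cancel₀ (mul_ne_zero hx hD)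
  have h : (x * k ^ 2 + fU P y ^ 2) * numT P x k y - (x + fV P y ^ 2) * numS P x k y =
      x * fD P x k y * (fa P y * fU P y + fc P y * k * fV P y) := by
    unfold numT numS fD
    ring
  linear_combination (x * k ^ 2 + fU P y ^ 2) * hτ - (x + fV P y ^ 2) * hσ + h

theorem E2_of_num {σ τ : N} (hx : x ≠ 0) (hD : fD P x k y ≠ 0)
    (hσ : x * fD P x k y * σ = numS P x k y) (hτ : x * fD P x k y * τ = numT P x k y) :
    E2 P x k y σ τ := by
  unfold E2
  apply mul_left_cancel₀ hD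
  have h : numS P x k y - k * numT P x k y = fD P x k y * (f2 P y - fT P k y * x) := by
    unfold numT numS fD
    ring
  unfold f2 fT at h
  linear_combination hσ - k * hτ + h

theorem E3_of_num {σ τ : N} (hU : fU P y ≠ 0) (hV : fV P y ≠ 0) (hx : x ≠ 0)
    (hD : fD P x k y ≠ 0) (hσ : x * fD P x k y * σ = numS P x k y)
    (hτ : x * fD P x k y * τ = numT P x k y) (hQ : fQ P x k y = 0) : E3 P x k y σ τ := by
  unfold E3
  apply mul_left_cancel₀ (mul_ne_zero hx (pow_ne_zero 2 hD))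
  unfold fQ at hQ
  rw [qf_eq (fU P y) (fV P y) (fa P y) (fc P y) (fe P y) (fm P y) (algebraMap ℂ N P.P0)
    (algebraMap ℂ N P.P2) k x (algebraMap ℂ N P.P0 / fU P y) (algebraMap ℂ N P.P2 / fV P y)
    _ _ _ _ (fD P x k y) _ (numT P x k y) (numS P x k y) (by field_simp) (by field_simp) rfl rfl
    rfl rfl rfl rfl rfl rfl] at hQ
  rw [← hτ, ← hσ] at hQ
  linear_combination hQ

/-- **The points over a generic pair `(y, k)`.** -/
theorem GenS.of_yk' (h0 : P.P0 ≠ 0) (hyk : AlgebraicIndependent ℂ ![y, k])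
    (hQ : fQ P x k y = 0) {σ τ : N} (hσ : x * fD P x k y * σ = numS P x k y)
    (hτ : x * fD P x k y * τ = numT P x k y) : GenS P ![x, k, y, σ, τ] where
  e1 := E1_of_num (x_ne hyk hQ) (D_ne h0 hyk hQ) hσ hτ
  e2 := E2_of_num (x_ne hyk hQ) (D_ne h0 hyk hQ) hσ hτ
  e3 := E3_of_num (U_ne hyk) (V_ne hyk) (x_ne hyk hQ) (D_ne h0 hyk hQ) hσ hτ hQ
  nx := x_ne hyk hQ
  nU := U_ne hyk
  nV := V_ne hyk
  nD := D_ne h0 hyk hQ
  ind := ⟨2, 1, hyk⟩

theorem GenS.of_yk (h0 : P.P0 ≠ 0) (hyk : AlgebraicIndependent ℂ ![y, k])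
    (hQ : fQ P x k y = 0) : GenS P ![x, k, y, numS P x k y / (x * fD P x k y),
      numT P x k y / (x * fD P x k y)] := by
  have h1 : x * fD P x k y ≠ 0 := mul_ne_zero (x_ne hyk hQ) (D_ne h0 hyk hQ)
  refine GenS.of_yk' h0 hyk hQ ?_ ?_
  · exact mul_div_cancel₀ _ h1
  · exact mul_div_cancel₀ _ h1

/-- The equations alone, for independent `y`, `k`. -/
theorem GenS.of_eqs (h0 : P.P0 ≠ 0) {w : Fin 5 → N} (hyk : AlgebraicIndependent ℂ ![w 2, w 1])
    (h1 : E1 P (w 0) (w 1) (w 2) (w 3) (w 4)) (h2 : E2 P (w 0) (w 1) (w 2) (w 3) (w 4))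
    (h3 : E3 P (w 0) (w 1) (w 2) (w 3) (w 4)) : GenS P w := by
  have hQ := fQ_eq_zero P (U_ne hyk) (V_ne hyk) h1 h2 h3
  exact ⟨h1, h2, h3, x_ne hyk hQ, U_ne hyk, V_ne hyk, D_ne h0 hyk hQ, 2, 1, hyk⟩

theorem GenS.sigma_eq {w : Fin 5 → N} (h : GenS P w) :
    w 3 = numS P (w 0) (w 1) (w 2) / (w 0 * fD P (w 0) (w 1) (w 2)) := by
  have h1 := numS_eq P h.e1 h.e2
  have h2 := h.nx
  have h3 := h.nD
  rw [eq_div_iff (mul_ne_zero h2 h3)]
  linear_combination h1

theorem GenS.tau_eq {w : Fin 5 → N} (h : GenS P w) :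
    w 4 = numT P (w 0) (w 1) (w 2) / (w 0 * fD P (w 0) (w 1) (w 2)) := by
  have h1 := numT_eq P h.e1 h.e2
  have h2 := h.nx
  have h3 := h.nD
  rw [eq_div_iff (mul_ne_zero h2 h3)]
  linear_combination h1

/-- A generic point is determined by `x`, `k`, `y`. -/
theorem GenS.ext {w w' : Fin 5 → N} (h : GenS P w) (h' : GenS P w') (hx : w 0 = w' 0)
    (hk : w 1 = w' 1) (hy : w 2 = w' 2) : w = w' := by
  funext i
  fin_cases i
  · exact hx
  · exact hk
  · exact hy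
  · change w 3 = w' 3
    rw [h.sigma_eq, h'.sigma_eq, hx, hk, hy]
  · change w 4 = w' 4
    rw [h.tau_eq, h'.tau_eq, hx, hk, hy]

/-- the quartic in `x` -/
noncomputable def rQ (P : Par) {R : Type*} [CommRing R] [Algebra ℂ R] (k y : R) : R[X] :=
  C (k ^ 4) * X ^ 4 +
  C (q3 (fU P y) (fV P y) (fa P y) (fc P y) (fe P y) (fm P y) (algebraMap ℂ R P.P0)
    (algebraMap ℂ R P.P2) k) * X ^ 3 +
  C (q2 (fU P y) (fV P y) (fa P y) (fc P y) (fe P y) (fm P y) (algebraMap ℂ R P.P0)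
    (algebraMap ℂ R P.P2) k) * X ^ 2 +
  C (q1 (fU P y) (fV P y) (fa P y) (fc P y) (fe P y) (fm P y) (algebraMap ℂ R P.P0)
    (algebraMap ℂ R P.P2) k) * X + C (fg P y ^ 2)

theorem eval_rQ (P : Par) {R : Type*} [CommRing R] [Algebra ℂ R] (x k y : R) :
    (rQ P k y).eval x = fQ P x k y := by
  unfold rQ fQ qf
  rw [fg_eq]
  simp only [eval_add, eval_mul, eval_C, eval_pow, eval_X]

theorem rQ_ne (h0 : P.P0 ≠ 0) (k y : N) : rQ P k y ≠ 0 := by
  intro h
  obtain ⟨h4, h3, -, -, -⟩ := quartic_coeff (k ^ 4)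
    (q3 (fU P y) (fV P y) (fa P y) (fc P y) (fe P y) (fm P y) (algebraMap ℂ N P.P0)
    (algebraMap ℂ N P.P2) k)
    (q2 (fU P y) (fV P y) (fa P y) (fc P y) (fe P y) (fm P y) (algebraMap ℂ N P.P0)
    (algebraMap ℂ N P.P2) k)
    (q1 (fU P y) (fV P y) (fa P y) (fc P y) (fe P y) (fm P y) (algebraMap ℂ N P.P0)
    (algebraMap ℂ N P.P2) k) (fg P y ^ 2)
  have h5 : (rQ P k y).coeff 4 = k ^ 4 := h4
  have h6 : (rQ P k y).coeff 3 = q3 (fU P y) (fV P y) (fa P y) (fc P y) (fe P y) (fm P y)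
    (algebraMap ℂ N P.P0) (algebraMap ℂ N P.P2) k := h3
  rw [h, coeff_zero] at h5 h6
  have hk : k = 0 := pow_eq_zero_iff (by norm_num) |>.1 h5.symm
  rw [hk] at h6
  have h7 : q3 (fU P y) (fV P y) (fa P y) (fc P y) (fe P y) (fm P y)
    (algebraMap ℂ N P.P0) (algebraMap ℂ N P.P2) 0 = algebraMap ℂ N P.P0 ^ 2 := by
    unfold q3 c30
    ring
  rw [h7] at h6
  have h8 : algebraMap ℂ N P.P0 = 0 := pow_eq_zero_iff two_ne_zero |>.1 h6.symm
  exact h0 ((map_eq_zero (algebraMap ℂ N)).1 h8)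

theorem rQ_natDegree (P : Par) (k y : N) : (rQ P k y).natDegree ≤ 4 := by
  unfold rQ
  compute_degree

theorem map_q3 {A B : Type*} [CommRing A] [CommRing B] (g : A →+* B)
    (U V a c e m P R k : A) : g (q3 U V a c e m P R k) =
      q3 (g U) (g V) (g a) (g c) (g e) (g m) (g P) (g R) (g k) := by
  simp only [q3, c36, c35, c34, c33, c32, c31, c30, map_add, map_sub, map_mul, map_pow, map_neg,
    map_ofNat]

theorem map_q2 {A B : Type*} [CommRing A] [CommRing B] (g : A →+* B)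
    (U V a c e m P R k : A) : g (q2 U V a c e m P R k) =
      q2 (g U) (g V) (g a) (g c) (g e) (g m) (g P) (g R) (g k) := by
  simp only [q2, c24, c23, c22, c21, c20, map_add, map_sub, map_mul, map_pow, map_neg, map_ofNat]

theorem map_q1 {A B : Type*} [CommRing A] [CommRing B] (g : A →+* B)
    (U V a c e m P R k : A) : g (q1 U V a c e m P R k) =
      q1 (g U) (g V) (g a) (g c) (g e) (g m) (g P) (g R) (g k) := by
  simp only [q1, c12, c11, c10, map_add, map_sub, map_mul, map_pow, map_neg, map_ofNat]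

theorem map_rQ (P : Par) {R R' : Type*} [CommRing R] [Algebra ℂ R] [CommRing R'] [Algebra ℂ R']
    (f : R →ₐ[ℂ] R') (k y : R) : (rQ P k y).map (f : R →+* R') = rQ P (f k) (f y) := by
  have hq : ∀ z : R, (f : R →+* R') z = f z := fun z => rfl
  unfold rQ
  rw [Polynomial.map_add, Polynomial.map_add, Polynomial.map_add, Polynomial.map_add,
    Polynomial.map_mul, Polynomial.map_mul, Polynomial.map_mul, Polynomial.map_mul,
    Polynomial.map_pow, Polynomial.map_pow, Polynomial.map_pow, map_C, map_C, map_C, map_C,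
    map_C, map_X, map_q3, map_q2, map_q1]
  simp only [hq, map_pow, map_fU, map_fV, map_fa, map_fc, map_fe, map_fm, map_fg,
    AlgHom.commutes]

/-- The coordinate `x` is algebraic over `k`, `y`. -/
theorem GenS.alg_x (h0 : P.P0 ≠ 0) {w : Fin 5 → N} (h : GenS P w)
    (E : IntermediateField ℂ N) (hk : w 1 ∈ E) (hy : w 2 ∈ E) : IsAlgebraic E (w 0) := by
  refine ⟨rQ P (⟨w 1, hk⟩ : E) ⟨w 2, hy⟩, rQ_ne h0 _ _, ?_⟩
  rw [aeval_def, eval₂_eq_eval_map]
  have h1 : algebraMap E N = (E.val : E →+* N) := rfl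
  rw [h1, map_rQ P E.val, eval_rQ]
  exact h.zH

/-- The coordinates `y` and `k` of a generic point are independent. -/
theorem GenS.ind_yk (h0 : P.P0 ≠ 0) {w : Fin 5 → N} (h : GenS P w) :
    AlgebraicIndependent ℂ ![w 2, w 1] := by
  obtain ⟨s, hs⟩ := h.ind3
  have hy : w 2 ∈ IntermediateField.adjoin ℂ (Set.range ![w 2, w 1]) :=
    IntermediateField.subset_adjoin _ _ ⟨0, rfl⟩
  have hk : w 1 ∈ IntermediateField.adjoin ℂ (Set.range ![w 2, w 1]) :=
    IntermediateField.subset_adjoin _ _ ⟨1, rfl⟩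
  have halg : ∀ j, IsAlgebraic (IntermediateField.adjoin ℂ (Set.range ![w 2, w 1]))
      (xyz w j) := by
    intro j
    fin_cases j
    · exact h.alg_x h0 _ hk hy
    · exact isAlgebraic_algebraMap (⟨w 1, hk⟩ : IntermediateField.adjoin ℂ
        (Set.range ![w 2, w 1]))
    · exact isAlgebraic_algebraMap (⟨w 2, hy⟩ : IntermediateField.adjoin ℂ
        (Set.range ![w 2, w 1]))
  obtain ⟨t, ht⟩ := exists_indep_alg ![w 2, w 1] (fun i => xyz w (s i)) hs (fun i => halg _)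
  have hinj : Function.Injective t := by
    intro a b hab
    exact ht.injective (by simp only [hab])
  have hbij : Function.Bijective t := Finite.injective_iff_bijective.1 hinj
  let e : Fin 2 ≃ Fin 2 := Equiv.ofBijective t hbij
  exact (algebraicIndependent_equiv' e (f := ![w 2, w 1]) (g := fun i => ![w 2, w 1] (t i))
    rfl).1 ht

end

end Vale.Agent.P297.H160.Z2Irr
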