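import Vale.Agent.P297.H160.Z2IrrF
import Vale.Agent.P297.H160.Z2Gen
import Vale.Agent.P297.H860.Hyper
import Vale.Agent.P297.Gen.H516.Ext
import Mathlib.FieldTheory.Minpoly.IsConjRoot

/-!
General numerical Godeaux surfaces with torsion of order two: two generic points with the same
coordinate `y` are conjugate over the algebraic closure of `ℂ(y)`.
-/

set_option linter.unusedSectionVars false
set_option linter.unusedSimpArgs false
set_option linter.style.haveILetI false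

open IntermediateField Polynomial

namespace Vale.Agent.P297.H160.Z2Irr

open Vale.Agent.P297 Vale.Agent.P297.Gen Vale.Agent.P297.H777

section gauss

variable {M L : Type} [Field M] [Field L] [Algebra M L] {k : L}

/-- The homomorphism of the polynomial ring given by a transcendental element is localization at
all nonzero elements. -/
theorem isFractionRing_of_gen (hk : Transcendental M k)
    (hgen : ∀ z : L, ∃ r s : M[X], z = aeval k r / aeval k s) :
    letI := ((aeval k : M[X] →ₐ[M] L) : M[X] →+* L).toAlgebra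
    IsFractionRing M[X] L := by
  letI := ((aeval k : M[X] →ₐ[M] L) : M[X] →+* L).toAlgebra
  have hinj : ∀ p : M[X], aeval k p = 0 → p = 0 := by
    intro p hp
    by_contra hne
    exact hk ⟨p, hne, hp⟩
  have hmap : ∀ p : M[X], algebraMap M[X] L p = aeval k p := fun p => rfl
  refine { map_units := ?_, surj := ?_, exists_of_eq := ?_ }
  · intro s
    rw [hmap, isUnit_iff_ne_zero]
    intro h
    exact nonZeroDivisors.ne_zero s.2 (hinj _ h)
  · intro z
    obtain ⟨r, s, hz⟩ := hgen z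
    by_cases hs : aeval k s = 0
    · refine ⟨⟨0, 1⟩, ?_⟩
      rw [hz, hs]
      simp
    · have hs0 : s ≠ 0 := by
        rintro rfl
        exact hs (map_zero _)
      refine ⟨⟨r, ⟨s, mem_nonZeroDivisors_of_ne_zero hs0⟩⟩, ?_⟩
      rw [hmap, hmap, hz]
      exact div_mul_cancel₀ _ hs
  · intro p q h
    rw [hmap, hmap] at h
    refine ⟨1, ?_⟩
    rw [sub_eq_zero.1 (hinj (p - q) (by rw [map_sub, h, sub_self]))]

/-- Gauss's lemma. -/
theorem irr_map (hk : Transcendental M k)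
    (hgen : ∀ z : L, ∃ r s : M[X], z = aeval k r / aeval k s) {p : M[X][X]} (hp : Irreducible p)
    (hd : p.natDegree ≠ 0) : Irreducible (p.map ((aeval k : M[X] →ₐ[M] L) : M[X] →+* L)) := by
  letI := ((aeval k : M[X] →ₐ[M] L) : M[X] →+* L).toAlgebra
  haveI : IsFractionRing M[X] L := isFractionRing_of_gen hk hgen
  have h := (hp.isPrimitive hd).irreducible_iff_irreducible_map_fraction_map (K := L)
  exact h.1 hp

end gauss

section fields

variable {M L : Type} [Field M] [Field L] [Algebra M L] [Algebra ℂ M] [Algebra ℂ L]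
  [IsScalarTower ℂ M L] {P : Par}

theorem rQ_qf (P : Par) {R : Type*} [CommRing R] [Algebra ℂ R] (k y : R) :
    rQ P k y = qf (C (fU P y)) (C (fV P y)) (C (fa P y)) (C (fc P y)) (C (fe P y)) (C (fm P y))
      (C (algebraMap ℂ R P.P0)) (C (algebraMap ℂ R P.P2)) (C k) (X : R[X]) := by
  unfold rQ qf
  rw [← map_q3 (C : R →+* R[X]), ← map_q2 (C : R →+* R[X]), ← map_q1 (C : R →+* R[X]), fg_eq]
  simp only [b0, map_add, map_mul, map_pow]

/-- the quartic over the polynomials in `k` -/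
noncomputable def pM (P : Par) (y : M) : M[X][X] :=
  qf (C (C (fU P y))) (C (C (fV P y))) (C (C (fa P y))) (C (C (fc P y))) (C (C (fe P y)))
    (C (C (fm P y))) (C (C (algebraMap ℂ M P.P0))) (C (C (algebraMap ℂ M P.P2))) (C X) X

theorem algebraMap_coeffs (y : M) : algebraMap M L (fU P y) = fU P (algebraMap M L y) ∧
    algebraMap M L (fV P y) = fV P (algebraMap M L y) ∧
    algebraMap M L (fa P y) = fa P (algebraMap M L y) ∧
    algebraMap M L (fc P y) = fc P (algebraMap M L y) ∧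
    algebraMap M L (fe P y) = fe P (algebraMap M L y) ∧
    algebraMap M L (fm P y) = fm P (algebraMap M L y) := by
  have h : ∀ c : ℂ, algebraMap M L (algebraMap ℂ M c) = algebraMap ℂ L c := fun c =>
    (IsScalarTower.algebraMap_apply ℂ M L c).symm
  refine ⟨?_, ?_, ?_, ?_, ?_, ?_⟩ <;>
  simp only [fU, fV, fa, fc, fe, fm, map_add, map_sub, map_mul, map_pow, map_ofNat, h]

theorem map_pM (y : M) (k : L) :
    (pM P y).map ((aeval k : M[X] →ₐ[M] L) : M[X] →+* L) = rQ P k (algebraMap M L y) := by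
  obtain ⟨h1, h2, h3, h4, h5, h6⟩ := algebraMap_coeffs (L := L) (P := P) y
  have h : ∀ c : ℂ, algebraMap M L (algebraMap ℂ M c) = algebraMap ℂ L c := fun c =>
    (IsScalarTower.algebraMap_apply ℂ M L c).symm
  have e := map_qf (mapRingHom ((aeval k : M[X] →ₐ[M] L) : M[X] →+* L)) (C (C (fU P y)))
    (C (C (fV P y))) (C (C (fa P y))) (C (C (fc P y))) (C (C (fe P y)))
    (C (C (fm P y))) (C (C (algebraMap ℂ M P.P0))) (C (C (algebraMap ℂ M P.P2))) (C X) X
  rw [rQ_qf]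
  unfold pM
  rw [← coe_mapRingHom, e]
  simp only [coe_mapRingHom, map_C, map_X, RingHom.coe_coe, aeval_C, aeval_X, h1, h2, h3, h4, h5,
    h6, h]

theorem pM_natDegree (y : M) : (pM P y).natDegree ≠ 0 := by
  unfold pM
  rw [qf_poly]
  intro h
  have h1 := (quartic_coeff (X ^ 4 : M[X]) (C (c36 (fU P y) (fV P y) (fa P y) (fc P y) (fe P y)
    (fm P y) (algebraMap ℂ M P.P0) (algebraMap ℂ M P.P2)) * X ^ 6 + C (c35 (fU P y) (fV P y)
    (fa P y) (fc P y) (fe P y)
    (fm P y) (algebraMap ℂ M P.P0) (algebraMap ℂ M P.P2)) * X ^ 5 + C (c34 (fU P y) (fV P y)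
    (fa P y) (fc P y) (fe P y)
    (fm P y) (algebraMap ℂ M P.P0) (algebraMap ℂ M P.P2)) * X ^ 4 + C (c33 (fU P y) (fV P y)
    (fa P y) (fc P y) (fe P y)
    (fm P y) (algebraMap ℂ M P.P0) (algebraMap ℂ M P.P2)) * X ^ 3 + C (c32 (fU P y) (fV P y)
    (fa P y) (fc P y) (fe P y)
    (fm P y) (algebraMap ℂ M P.P0) (algebraMap ℂ M P.P2)) * X ^ 2 + C (c31 (fU P y) (fV P y)
    (fa P y) (fc P y) (fe P y)
    (fm P y) (algebraMap ℂ M P.P0) (algebraMap ℂ M P.P2)) * X + C (c30 (fU P y) (fV P y)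
    (fa P y) (fc P y) (fe P y)
    (fm P y) (algebraMap ℂ M P.P0) (algebraMap ℂ M P.P2)))
    (C (c24 (fU P y) (fV P y) (fa P y) (fc P y) (fe P y)
    (fm P y) (algebraMap ℂ M P.P0) (algebraMap ℂ M P.P2)) * X ^ 4 +
    C (c23 (fU P y) (fV P y) (fa P y) (fc P y) (fe P y)
    (fm P y) (algebraMap ℂ M P.P0) (algebraMap ℂ M P.P2)) * X ^ 3 +
    C (c22 (fU P y) (fV P y) (fa P y) (fc P y) (fe P y)
    (fm P y) (algebraMap ℂ M P.P0) (algebraMap ℂ M P.P2)) * X ^ 2 +
    C (c21 (fU P y) (fV P y) (fa P y) (fc P y) (fe P y)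
    (fm P y) (algebraMap ℂ M P.P0) (algebraMap ℂ M P.P2)) * X +
    C (c20 (fU P y) (fV P y) (fa P y) (fc P y) (fe P y)
    (fm P y) (algebraMap ℂ M P.P0) (algebraMap ℂ M P.P2)))
    (C (c12 (fU P y) (fV P y) (fa P y) (fc P y) (fe P y)
    (fm P y) (algebraMap ℂ M P.P0) (algebraMap ℂ M P.P2)) * X ^ 2 +
    C (c11 (fU P y) (fV P y) (fa P y) (fc P y) (fe P y)
    (fm P y) (algebraMap ℂ M P.P0) (algebraMap ℂ M P.P2)) * X +
    C (c10 (fU P y) (fV P y) (fa P y) (fc P y) (fe P y)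
    (fm P y) (algebraMap ℂ M P.P0) (algebraMap ℂ M P.P2)))
    (C (b0 (fU P y) (fV P y) (fa P y) (fc P y) (fe P y)
    (fm P y) (algebraMap ℂ M P.P0) (algebraMap ℂ M P.P2) ^ 2))).1
  rw [coeff_eq_zero_of_natDegree_lt (by omega)] at h1
  exact pow_ne_zero 4 X_ne_zero h1.symm

/-- The quartic is irreducible over the field `M(k)`. -/
theorem irr_rQ (h0 : P.P0 ≠ 0) (h2 : P.P2 ≠ 0) {y : M} {k : L} (hg : fg P y ≠ 0)
    (h33 : c33 (fU P y) (fV P y) (fa P y) (fc P y) (fe P y) (fm P y) (algebraMap ℂ M P.P0)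
      (algebraMap ℂ M P.P2) ≠ 0) (hk : Transcendental M k)
    (hgen : ∀ z : L, ∃ r s : M[X], z = aeval k r / aeval k s) :
    Irreducible (rQ P k (algebraMap M L y)) := by
  rw [← map_pM]
  refine irr_map hk hgen ?_ (pM_natDegree y)
  unfold pM
  refine irr_qf ?_ ?_ ?_ h33
  · exact (map_ne_zero (algebraMap ℂ M)).2 h0
  · exact (map_ne_zero (algebraMap ℂ M)).2 h2
  · rw [← fg_eq]
    exact hg

end fields

section conj

variable {N : Type} [Field N] [Algebra ℂ N] {P : Par}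

theorem c33_eq (P : Par) : c33 (fU P (X : ℂ[X])) (fV P X) (fa P X) (fc P X) (fe P X) (fm P X)
    (algebraMap ℂ ℂ[X] P.P0) (algebraMap ℂ ℂ[X] P.P2) = C (-4) * X ^ 2 +
      C (-P.Q0 - 2 * P.u - P.Q1 - 2 * P.v + 2 * P.P0 + 2 * P.P2 - 2 * P.P1 + 2 * P.M1) * X +
      C (-P.u * P.Q0 - P.v * P.Q1 + P.Q0 * P.P0 + P.Q1 * P.P2 - 2 * P.n + 2 * P.m -
        4 * P.P0 * P.P2) := by
  rw [fU_C, fV_C, fa_C, fc_C, fe_C, fm_C]
  have h1 : algebraMap ℂ ℂ[X] = C := rfl
  rw [h1]
  unfold c33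
  simp only [map_add, map_sub, map_mul, map_pow, map_neg, map_ofNat]
  ring

theorem c33_ne {y : N} (hy : Transcendental ℂ y) : c33 (fU P y) (fV P y) (fa P y) (fc P y)
    (fe P y) (fm P y) (algebraMap ℂ N P.P0) (algebraMap ℂ N P.P2) ≠ 0 := by
  intro h
  have h1 : c33 (fU P (X : ℂ[X])) (fV P X) (fa P X) (fc P X) (fe P X) (fm P X)
      (algebraMap ℂ ℂ[X] P.P0) (algebraMap ℂ ℂ[X] P.P2) ≠ 0 := by
    rw [c33_eq]
    intro h2
    have h3 := congrArg (fun f => coeff f 2) h2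
    simp [coeff_X, coeff_C] at h3
  have h2 : aeval y (c33 (fU P (X : ℂ[X])) (fV P X) (fa P X) (fc P X) (fe P X) (fm P X)
      (algebraMap ℂ ℂ[X] P.P0) (algebraMap ℂ ℂ[X] P.P2)) = 0 := by
    rw [← h]
    unfold c33
    simp only [map_add, map_sub, map_mul, map_pow, map_neg, map_ofNat, map_fU, map_fV, map_fa,
      map_fc, map_fe, map_fm, aeval_X, AlgHom.commutes]
  exact hy ⟨_, h1, h2⟩

theorem fg_ne' {y : N} (hy : Transcendental ℂ y) : fg P y ≠ 0 := by
  have h1 : fg P (X : ℂ[X]) ≠ 0 := by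
    intro hz
    have h2 := natDegree_b0 P
    rw [← fg_eq, hz, natDegree_zero] at h2
    omega
  intro h
  refine hy ⟨fg P (X : ℂ[X]), h1, ?_⟩
  rw [map_fg, aeval_X, h]

/-- Two roots of the quartic are conjugate. -/
theorem conj_roots_aux {M L : Type} [Field M] [Field L] [Algebra M L] [Algebra ℂ M] [Algebra ℂ L]
    [IsScalarTower ℂ M L] [Algebra L N] [IsScalarTower ℂ L N] [Algebra M N] [IsScalarTower ℂ M N]
    [CharZero L] [IsAlgClosed N] (h0 : P.P0 ≠ 0) (h2 : P.P2 ≠ 0) {y k x x' : N}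
    (hyt : Transcendental ℂ y) (yM : M) (hyM : algebraMap M N yM = y)
    (hyM' : algebraMap L N (algebraMap M L yM) = y) (kL : L)
    (hkL : algebraMap L N kL = k) (hkt : Transcendental M kL)
    (hgen : ∀ z : L, ∃ r s : M[X], z = aeval kL r / aeval kL s) (halg : ∀ u : N, IsAlgebraic L u)
    (hx : fQ P x k y = 0) (hx' : fQ P x' k y = 0) : ∃ g : N ≃ₐ[L] N, g x = x' := by
  have hfg : fg P yM ≠ 0 := by
    intro h
    have h4 : algebraMap M N (fg P yM) = fg P (algebraMap M N yM) :=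
      map_fg P (IsScalarTower.toAlgHom ℂ M N) yM
    rw [h, map_zero, hyM] at h4
    exact fg_ne' hyt h4.symm
  have h33 : c33 (fU P yM) (fV P yM) (fa P yM) (fc P yM) (fe P yM) (fm P yM)
      (algebraMap ℂ M P.P0) (algebraMap ℂ M P.P2) ≠ 0 := by
    intro h
    apply c33_ne (P := P) hyt
    obtain ⟨e1, e2, e3, e4, e5, e6⟩ := algebraMap_coeffs (M := M) (L := N) (P := P) yM
    rw [← hyM, ← e1, ← e2, ← e3, ← e4, ← e5, ← e6, IsScalarTower.algebraMap_apply ℂ M N P.P0,
      IsScalarTower.algebraMap_apply ℂ M N P.P2]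
    have h5 := congrArg (algebraMap M N) h
    unfold c33 at h5 ⊢
    simpa only [map_add, map_sub, map_mul, map_pow, map_neg, map_ofNat, map_zero] using h5
  have hirr : Irreducible (rQ P kL (algebraMap M L yM)) := irr_rQ h0 h2 hfg h33 hkt hgen
  have hroot : ∀ z : N, fQ P z k y = 0 → aeval z (rQ P kL (algebraMap M L yM)) = 0 := by
    intro z hz
    have h6 := map_rQ P (IsScalarTower.toAlgHom ℂ L N) kL (algebraMap M L yM)
    have h7 : aeval z (rQ P kL (algebraMap M L yM)) =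
        ((rQ P kL (algebraMap M L yM)).map
          ((IsScalarTower.toAlgHom ℂ L N : L →ₐ[ℂ] N) : L →+* N)).eval z := by
      rw [aeval_def, eval₂_eq_eval_map]
      rfl
    rw [h7, h6, eval_rQ]
    have h8 : IsScalarTower.toAlgHom ℂ L N kL = k := hkL
    have h9 : IsScalarTower.toAlgHom ℂ L N (algebraMap M L yM) = y := hyM'
    rw [h8, h9]
    exact hz
  have hmin : minpoly L x = minpoly L x' := by
    rw [← minpoly.eq_of_irreducible hirr (hroot x hx), ← minpoly.eq_of_irreducible hirr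
      (hroot x' hx')]
  haveI : Algebra.IsAlgebraic L N := ⟨halg⟩
  haveI : IsAlgClosure L N := ⟨inferInstance, inferInstance⟩
  haveI : Normal L N := inferInstance
  obtain ⟨σ, hσ⟩ := isConjRoot_iff_exists_algEquiv.1 (show IsConjRoot L x' x from hmin.symm)
  exact ⟨σ, hσ⟩

/-- Two roots of the quartic are conjugate. -/
theorem conj_roots [IsAlgClosed N] (h0 : P.P0 ≠ 0) (h2 : P.P2 ≠ 0) {M : IntermediateField ℂ N}
    (hM : ∀ u, IsAlgebraic M u → u ∈ M) {y k x x' : N} (hyt : Transcendental ℂ y) (hy : y ∈ M)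
    (hk : k ∉ M) (halg : ∀ u : N, IsAlgebraic (IntermediateField.adjoin M {k}) u)
    (hx : fQ P x k y = 0) (hx' : fQ P x' k y = 0) :
    ∃ g : N ≃ₐ[IntermediateField.adjoin M {k}] N, g x = x' := by
  have hkL : k ∈ IntermediateField.adjoin M {k} := IntermediateField.mem_adjoin_simple_self M k
  have hae : ∀ r : M[X], ((aeval (⟨k, hkL⟩ : IntermediateField.adjoin M {k}) r :
      IntermediateField.adjoin M {k}) : N) = aeval k r := by
    intro r
    exact (aeval_algebraMap_apply N (⟨k, hkL⟩ : IntermediateField.adjoin M {k}) r).symm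
  haveI h3 : CharZero (IntermediateField.adjoin M {k}) :=
    charZero_of_injective_algebraMap (algebraMap ℂ (IntermediateField.adjoin M {k})).injective
  haveI h4 : IsScalarTower ℂ M (IntermediateField.adjoin M {k}) :=
    IsScalarTower.of_algebraMap_eq (fun c => rfl)
  haveI h5 : IsScalarTower ℂ (IntermediateField.adjoin M {k}) N :=
    IsScalarTower.of_algebraMap_eq (fun c => rfl)
  refine conj_roots_aux (M := M) (L := IntermediateField.adjoin M {k}) (P := P) h0 h2 hyt ⟨y, hy⟩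
    rfl rfl ⟨k, hkL⟩ rfl ?_ ?_ halg hx hx'
  · intro h
    apply hk
    apply hM
    obtain ⟨p, hp, hp'⟩ := h
    refine ⟨p, hp, ?_⟩
    rw [← hae, hp']
    rfl
  · intro z
    obtain ⟨r, s, hrs⟩ := (IntermediateField.mem_adjoin_simple_iff M (z : N)).1 z.2
    refine ⟨r, s, ?_⟩
    apply Subtype.ext
    rw [hrs, IntermediateField.coe_div, hae, hae]

/-- **Two generic points with the same `y` are conjugate over the closure of `ℂ(y)`.** -/
theorem GI [IsAlgClosed N] (h0 : P.P0 ≠ 0) (h2 : P.P2 ≠ 0) {w w' : Fin 5 → N} (hw : GenS P w)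
    (hw' : GenS P w') (hy : w 2 = w' 2) :
    ∃ g : N ≃ₐ[ℂ] N, (∀ z ∈ cl0 {w 2}, g z = z) ∧ ∀ j, g (w j) = w' j := by
  have hyk := hw.ind_yk h0
  have hyk' := hw'.ind_yk h0
  have hyt : Transcendental ℂ (w 2) := hyk.transcendental 0
  have hnot : ∀ v : N, AlgebraicIndependent ℂ ![w 2, v] → v ∉ cl0 {w 2} := by
    intro v hv h
    exact ((pair_iff' (w 2) v).1 hv).2 (mem_cl0.1 h)
  have hκ : ∀ u, IsAlgebraic (cl0 {w 2}) u → u ∈ cl0 {w 2} := cl0_closed {w 2}
  obtain ⟨M, hM, hFM, h3, h4, h5, h6⟩ := H860.exists_hyper (κ := cl0 {w 2}) hκ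
    (hnot _ hyk) (hnot _ (by rw [hy]; exact hyk'))
  have hyM : w 2 ∈ M := hFM (subset_cl0 _ (Set.mem_singleton _))
  obtain ⟨g0, hg0⟩ := exists_move M (z := w 1) (z' := w' 1) (fun h => h3 (hM _ h))
    (fun h => h4 (hM _ h)) h5 h6
  have hg0y : g0 (w 2) = w 2 := g0.commutes ⟨w 2, hyM⟩
  have hx : fQ P (g0 (w 0)) (w' 1) (w 2) = 0 := by
    have h7 := congrArg g0 hw.zH
    rw [map_zero] at h7
    have h8 := map_fQ P (g0.restrictScalars ℂ).toAlgHom (w 0) (w 1) (w 2)
    have h9 : g0 (fQ P (w 0) (w 1) (w 2)) = fQ P (g0 (w 0)) (g0 (w 1)) (g0 (w 2)) := h8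
    rw [h9, hg0, hg0y] at h7
    exact h7
  have hx' : fQ P (w' 0) (w' 1) (w 2) = 0 := by
    rw [hy]
    exact hw'.zH
  obtain ⟨g1, hg1⟩ := conj_roots h0 h2 hM hyt hyM h4 h6 hx hx'
  have hg1M : ∀ m ∈ M, g1 m = m := fun m hm => g1.commutes (algebraMap M _ ⟨m, hm⟩)
  have hg1k : g1 (w' 1) = w' 1 :=
    g1.commutes ⟨w' 1, IntermediateField.mem_adjoin_simple_self M (w' 1)⟩
  let g1' : N ≃ₐ[ℂ] N := { g1 with commutes' := fun c => hg1M _ (M.algebraMap_mem c) }
  let g : N ≃ₐ[ℂ] N := (g0.restrictScalars ℂ).trans g1'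
  have hg : ∀ z, g z = g1 (g0 z) := fun z => rfl
  have hgM : ∀ z ∈ M, g z = z := by
    intro z hz
    rw [hg]
    have h7 : g0 z = z := g0.commutes ⟨z, hz⟩
    rw [h7, hg1M z hz]
  refine ⟨g, fun z hz => hgM z (hFM hz), ?_⟩
  have e : (fun j => g (w j)) = w' := by
    refine GenS.ext (hw.map (g : N →ₐ[ℂ] N)) hw' ?_ ?_ ?_
    · change g (w 0) = w' 0
      rw [hg, hg1]
    · change g (w 1) = w' 1
      rw [hg, hg0, hg1k]
    · change g (w 2) = w' 2
      rw [hgM _ hyM, hy]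
  exact fun j => congrFun e j

end conj

end Vale.Agent.P297.H160.Z2Irr
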