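import Vale.Agent.P297.H279.K2.Pts
import Vale.Agent.P297.H160.Z2GI
import Vale.Agent.P297.H288.KMain
import Vale.Agent.P297.H637.BL

/-!
Generic points on the cones with a vertex over the closure of `ℂ(y)`: they move in a rational
family.
-/

set_option linter.unusedSectionVars false
set_option linter.unusedVariables false

open Polynomial

namespace Vale.Agent.P297.H160.Z2Gp

open Vale.Agent.P297 Vale.Agent.P297.Gen Vale.Agent.P297.H72 Vale.Agent.P297.H521
open Vale.Agent.P297.H160.Z2Irr Vale.Agent.P297.H279.K2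

section ring

variable {R : Type*} [CommRing R] (D : KD R)

theorem b_lc (α β : R) (v w g : Fin 4 → R) :
    D.b (KD.lc α v β w) g = α * D.b v g + β * D.b w g := by
  simp only [KD.b, KD.b2, KD.b3, KD.lc]
  ring

theorem b_self (g : Fin 4 → R) : D.b g g = 2 * D.Q g := by
  simp only [KD.b, KD.b2, KD.b3, KD.Q, KD.Q2, KD.Q3]
  ring

/-- the second point of the second point -/
theorem zz_zz (x g : Fin 4 → R) : D.zz (D.zz x g) g = fun i => D.Q g ^ 2 * x i := by
  funext i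
  have h : D.b (D.zz x g) g = -(D.Q g * D.b x g) := by
    rw [KD.zz, b_lc, b_self]
    ring
  rw [KD.zz, h]
  simp only [KD.zz, KD.lc]
  ring

theorem zz_smul (c : R) (x g : Fin 4 → R) : D.zz (fun i => c * x i) g = fun i => c * D.zz x g i := by
  funext i
  simp only [KD.zz, KD.lc, KD.b, KD.b2, KD.b3]
  ring

end ring

section maps

variable (P : Par) {N N' : Type*} [Field N] [Algebra ℂ N] [Field N'] [Algebra ℂ N']
  (f : N →ₐ[ℂ] N')

theorem map_numS (x k y : N) : f (numS P x k y) = numS P (f x) (f k) (f y) := by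
  simp only [numS, f2, fT, map_add, map_sub, map_mul, map_pow, map_one, map_div₀, map_fU, map_fV,
    map_fa, map_fc, map_fe, AlgHom.commutes]

theorem map_numT (x k y : N) : f (numT P x k y) = numT P (f x) (f k) (f y) := by
  simp only [numT, f2, fT, map_add, map_sub, map_mul, map_pow, map_one, map_div₀, map_fU, map_fV,
    map_fa, map_fc, map_fe, AlgHom.commutes]

end maps

section field

variable {K N : Type} [Field K] [Algebra ℂ K] [Field N] [Algebra ℂ N] {P : Par} {x₀ : Fin 5 → K}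

theorem map_pt_g (hx : H160.Z2Irr.IsFF P x₀) (g : N ≃ₐ[ℂ] N) (w : Fin 5 → N) :
    Finsupp.mapDomain (fun φ : K →ₐ[ℂ] N => g.toAlgHom.comp φ) (H160.Z2Irr.pt x₀ w) =
      H160.Z2Irr.pt x₀ (fun j => g (w j)) := by
  classical
  by_cases h : ∃ φ : K →ₐ[ℂ] N, ∀ j, φ (x₀ j) = w j
  · obtain ⟨φ, hφ⟩ := h
    rw [H160.Z2Irr.pt_eq hx hφ, Finsupp.mapDomain_single]
    refine (H160.Z2Irr.pt_eq hx fun j => ?_).symm
    rw [AlgHom.comp_apply, hφ]
    rfl
  · have h' : ¬ ∃ φ : K →ₐ[ℂ] N, ∀ j, φ (x₀ j) = g (w j) := by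
      rintro ⟨φ, hφ⟩
      apply h
      refine ⟨g.symm.toAlgHom.comp φ, fun j => ?_⟩
      rw [AlgHom.comp_apply, hφ]
      exact g.symm_apply_apply _
    unfold H160.Z2Irr.pt
    rw [dif_neg h, dif_neg h', Finsupp.mapDomain_zero]

/-- the point of the surface depends on the point of the space only -/
theorem toW_smul {y c : N} (hc : c ≠ 0) (z : Fin 4 → N) :
    toW P y (fun i => c * z i) = toW P y z := by
  have h : (kd P y).Q2 (fun i => c * z i) = c ^ 2 * (kd P y).Q2 z := by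
    simp only [KD.Q2]
    ring
  have hk : ∀ i : Fin 4, c * z i / (c * z 0) = z i / z 0 := fun i => mul_div_mul_left _ _ hc
  funext j
  fin_cases j
  · change (kd P y).e * (c * z 0) ^ 2 / (kd P y).Q2 (fun i => c * z i) = _
    rw [h]
    change _ = (kd P y).e * z 0 ^ 2 / (kd P y).Q2 z
    rw [mul_pow, show (kd P y).e * (c ^ 2 * z 0 ^ 2) = c ^ 2 * ((kd P y).e * z 0 ^ 2) by ring]
    exact mul_div_mul_left _ _ (pow_ne_zero 2 hc)
  · exact hk 1
  · rfl
  · exact hk 2
  · exact hk 3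

theorem toW_vec {w : Fin 5 → N} (h0 : P.P0 ≠ 0) (h : GenS P w) : toW P (w 2) (vec w) = w := by
  have hyk := h.ind_yk h0
  have he := e_ne (P := P) (hyk.transcendental 0 : Transcendental ℂ (w 2))
  have h1 := Q2_vec h
  have hQ : (kd P (w 2)).Q2 (vec w) ≠ 0 := by
    intro h2
    rw [h2, mul_zero] at h1
    exact he h1.symm
  funext j
  fin_cases j
  · change (kd P (w 2)).e * (1 : N) ^ 2 / (kd P (w 2)).Q2 (vec w) = w 0
    rw [← h1, one_pow, mul_one]
    exact mul_div_cancel_right₀ _ hQ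
  · exact div_one _
  · rfl
  · exact div_one _
  · exact div_one _

end field

section main

variable {K N : Type} [Field K] [Algebra ℂ K] [Field N] [Algebra ℂ N] [IsAlgClosed N] {P : Par}
  {x₀ : Fin 5 → K} {m : ℤ}

/-- the coordinates of the second point are in the field of the data -/
theorem zz_mem {F : IntermediateField ℂ N} {y t : N} (hy : y ∈ F) (ht : t ∈ F) {v : Fin 4 → N}
    (hv : ∀ i, v i ∈ F) (i : Fin 4) : (kd P y).zz v ((kd P y).gam 1 t) i ∈ F := by
  have h1 := (kd P (⟨y, hy⟩ : F)).map_zz (F.val : F →+* N) (fun i => ⟨v i, hv i⟩)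
    ((kd P (⟨y, hy⟩ : F)).gam 1 ⟨t, ht⟩)
  have h2 := (kd P (⟨y, hy⟩ : F)).map_gam (F.val : F →+* N) 1 ⟨t, ht⟩
  have h3 : (kd P (⟨y, hy⟩ : F)).map (F.val : F →+* N) = kd P y := map_kd P F.val _
  rw [h3] at h1 h2
  rw [map_one] at h2
  have h4 : (kd P y).zz v ((kd P y).gam 1 t) i =
      F.val ((kd P (⟨y, hy⟩ : F)).zz (fun i => ⟨v i, hv i⟩)
        ((kd P (⟨y, hy⟩ : F)).gam 1 ⟨t, ht⟩) i) := by
    have h5 := congrFun h1 i
    have h6 : (fun i => (F.val : F →+* N) ((kd P (⟨y, hy⟩ : F)).gam 1 ⟨t, ht⟩ i)) =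
        (kd P y).gam 1 t := h2
    rw [h6] at h5
    exact h5.symm
  rw [h4]
  exact Subtype.property _

/-- the second point is natural -/
theorem map_toW_zz (g : N ≃ₐ[ℂ] N) {y t : N} (v : Fin 4 → N) (hy : g y = y)
    (hv : ∀ i, g (v i) = v i) (j : Fin 5) :
    g (toW P y ((kd P y).zz v ((kd P y).gam 1 t)) j) =
      toW P y ((kd P y).zz v ((kd P y).gam 1 (g t))) j := by
  have h0 := congrFun (map_toW P (g : N →ₐ[ℂ] N) y ((kd P y).zz v ((kd P y).gam 1 t))) j
  have h1 := (kd P y).map_zz ((g : N →ₐ[ℂ] N) : N →+* N) v ((kd P y).gam 1 t)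
  have h2 := (kd P y).map_gam ((g : N →ₐ[ℂ] N) : N →+* N) 1 t
  have h3 : (kd P y).map ((g : N →ₐ[ℂ] N) : N →+* N) = kd P (g y) := map_kd P (g : N →ₐ[ℂ] N) _
  rw [h3, hy] at h1 h2
  rw [map_one] at h2
  have h4 : (fun i => ((g : N →ₐ[ℂ] N) : N →+* N) (v i)) = v := funext hv
  rw [h4] at h1
  have h5 : (fun i => (g : N →ₐ[ℂ] N) ((kd P y).zz v ((kd P y).gam 1 t) i)) =
      (kd P y).zz v ((kd P y).gam 1 (g t)) := by
    refine Eq.trans h1 ?_
    exact congrArg ((kd P y).zz v) h2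
  rw [h5] at h0
  have h6 : (g : N →ₐ[ℂ] N) y = y := hy
  rw [h6] at h0
  exact h0

/-- **All generic points over `y` are equivalent, if one of them is on a cone with a vertex over the
closure of `ℂ(y)`.** -/
theorem equiv_of_cone (hx : H160.Z2Irr.IsFF P x₀) (h0 : P.P0 ≠ 0) (h2 : P.P2 ≠ 0) {w : Fin 5 → N}
    (hw : GenS P w) {v : Fin 4 → N} (hv : ∀ i, v i ∈ cl0 {w 2}) {t c : N} (hc : c ≠ 0)
    (hz : (kd P (w 2)).zz v ((kd P (w 2)).gam 1 t) = fun i => c * vec w i) {w' : Fin 5 → N}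
    (hw' : GenS P w') (hy : w 2 = w' 2) : H160.Z2Irr.pt x₀ w - H160.Z2Irr.pt x₀ w' ∈ Rel m K N := by
  obtain ⟨g, hg, hgw⟩ := GI h0 h2 hw hw' hy
  have hyF : w 2 ∈ cl0 {w 2} := subset_cl0 _ (Set.mem_singleton _)
  have ht : t ∉ cl0 {w 2} := by
    intro ht
    have h3 : ∀ i, c * vec w i ∈ cl0 {w 2} := by
      intro i
      have := zz_mem (P := P) hyF ht hv i
      rw [hz] at this
      exact this
    have hcm : c ∈ cl0 {w 2} := by
      have := h3 0
      change c * 1 ∈ _ at this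
      rwa [mul_one] at this
    have hk : w 1 ∈ cl0 {w 2} := by
      have h4 := div_mem (h3 1) hcm
      change c * w 1 / c ∈ _ at h4
      rwa [mul_div_cancel_left₀ _ hc] at h4
    exact (H288.indep_iff.1 (hw.ind_yk h0)).2 hk
  have htg : g t ∉ cl0 {w 2} := by
    intro h
    have h3 : g (g t) = g t := hg _ h
    have h4 : g t = t := g.injective h3
    rw [h4] at h
    exact ht h
  have e1 : H160.Z2Irr.pt x₀ (toW P (w 2) ((kd P (w 2)).zz v ((kd P (w 2)).gam 1 t))) = H160.Z2Irr.pt x₀ w := by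
    rw [hz, toW_smul hc, toW_vec h0 hw]
  have e2 : H160.Z2Irr.pt x₀ (toW P (w 2) ((kd P (w 2)).zz v ((kd P (w 2)).gam 1 (g t)))) = H160.Z2Irr.pt x₀ w' := by
    congr 1
    funext j
    rw [← map_toW_zz g v (hg _ hyF) (fun i => hg _ (hv i)), hz, toW_smul hc, toW_vec h0 hw]
    exact hgw j
  have h5 := param_const (K := K) (m := m) (cl0 {w 2}) (cl0_closed _)
    (fun t => H160.Z2Irr.pt x₀ (toW P (w 2) ((kd P (w 2)).zz v ((kd P (w 2)).gam 1 t))))
    (fun σ hσ s => ?_) ht htg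
  · rw [← e1, ← e2]
    exact h5
  · rw [map_pt_g hx]
    congr 1
    funext j
    exact map_toW_zz σ v (hσ _ hyF) (fun i => hσ _ (hv i)) j

/-- **A generic point on a cone with a vertex over the closure of `ℂ(y)` is torsion.** -/
theorem gprime (h4 : Algebra.trdeg ℂ N = 4) (hx : H160.Z2Irr.IsFF P x₀) (h0 : P.P0 ≠ 0) (h2 : P.P2 ≠ 0)
    {w : Fin 5 → N} (hw : GenS P w) {v : Fin 4 → N} (hv : ∀ i, v i ∈ cl0 {w 2}) {t c : N}
    (hc : c ≠ 0) (hz : (kd P (w 2)).zz v ((kd P (w 2)).gam 1 t) = fun i => c * vec w i) :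
    ∃ e : ℤ, e ≠ 0 ∧ e • H160.Z2Irr.pt x₀ w ∈ Rel m K N := by
  classical
  have hyk := hw.ind_yk h0
  let f : N → ((K →ₐ[ℂ] N) →₀ ℤ) := fun X => H160.Z2Irr.pt x₀ ![X, w 1, w 2,
    numS P X (w 1) (w 2) / (X * fD P X (w 1) (w 2)),
    numT P X (w 1) (w 2) / (X * fD P X (w 1) (w 2))]
  have hS : ((rQ P (w 1) (w 2)).roots.map f).sum ∈ Rel m K N := by
    refine H288.rel_of_pair h4 hyk _ fun g hgy hgk => ?_
    have h5 := H637.sum_roots_map (g : N →ₐ[ℂ] N) (rQ P (w 1) (w 2)) f f (fun X hX => ?_)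
    · rw [map_rQ] at h5
      have hgy' : (g : N →ₐ[ℂ] N) (w 2) = w 2 := hgy
      have hgk' : (g : N →ₐ[ℂ] N) (w 1) = w 1 := hgk
      rw [hgy', hgk'] at h5
      exact h5
    · have h6 := map_pt_g hx g ![X, w 1, w 2, numS P X (w 1) (w 2) / (X * fD P X (w 1) (w 2)),
        numT P X (w 1) (w 2) / (X * fD P X (w 1) (w 2))]
      refine Eq.trans h6 ?_
      have hgy' : (g : N →ₐ[ℂ] N) (w 2) = w 2 := hgy
      have hgk' : (g : N →ₐ[ℂ] N) (w 1) = w 1 := hgk
      have hD := map_fD P (g : N →ₐ[ℂ] N) X (w 1) (w 2)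
      have hS' := map_numS P (g : N →ₐ[ℂ] N) X (w 1) (w 2)
      have hT' := map_numT P (g : N →ₐ[ℂ] N) X (w 1) (w 2)
      rw [hgy', hgk'] at hD hS' hT'
      congr 1
      funext j
      fin_cases j
      · rfl
      · exact hgk
      · exact hgy
      · change (g : N →ₐ[ℂ] N) (_ / _) = _ / _
        rw [map_div₀, map_mul, hD, hS']
      · change (g : N →ₐ[ℂ] N) (_ / _) = _ / _
        rw [map_div₀, map_mul, hD, hT']
  have hsum : ∀ s : Multiset N, (∀ X ∈ s, fQ P X (w 1) (w 2) = 0) →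
      (s.map f).sum - (Multiset.card s : ℤ) • H160.Z2Irr.pt x₀ w ∈ Rel m K N := by
    intro s
    induction s using Multiset.induction_on with
    | empty =>
      intro _
      simp only [Multiset.map_zero, Multiset.sum_zero, Multiset.card_zero, Nat.cast_zero, zero_smul,
        sub_zero]
      exact AddSubgroup.zero_mem _
    | cons X s ih =>
      intro hX
      have h5 := ih fun X' hX' => hX X' (Multiset.mem_cons_of_mem hX')
      have h6 : H160.Z2Irr.pt x₀ w - f X ∈ Rel m K N :=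
        equiv_of_cone hx h0 h2 hw hv hc hz
          (GenS.of_yk h0 hyk (hX X (Multiset.mem_cons_self _ _))) rfl
      have h7 := sub_mem h5 h6
      rw [Multiset.map_cons, Multiset.sum_cons, Multiset.card_cons, Nat.cast_add, Nat.cast_one,
        add_smul, one_smul]
      have h8 : f X + (s.map f).sum - ((Multiset.card s : ℤ) • H160.Z2Irr.pt x₀ w +
          H160.Z2Irr.pt x₀ w) = (s.map f).sum - (Multiset.card s : ℤ) • H160.Z2Irr.pt x₀ w -
          (H160.Z2Irr.pt x₀ w - f X) := by abel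
      rw [h8]
      exact h7
  have h0' := rQ_ne (P := P) h0 (w 1) (w 2)
  have h5 := hsum (rQ P (w 1) (w 2)).roots (fun X hX => by
    rw [← eval_rQ]
    exact (mem_roots h0').1 hX)
  have h6 := sub_mem hS h5
  rw [sub_sub_cancel] at h6
  refine ⟨_, ?_, h6⟩
  have hroot : w 0 ∈ (rQ P (w 1) (w 2)).roots := by
    rw [mem_roots h0', IsRoot.def, eval_rQ]
    exact hw.zH
  have hpos : 0 < Multiset.card (rQ P (w 1) (w 2)).roots :=
    Multiset.card_pos_iff_exists_mem.2 ⟨_, hroot⟩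
  omega

/-- The same from the second point: if the second point on the line through `w` and the point
`t` of the plane cubic is defined over the closure of `ℂ(y)`. -/
theorem gprime' (h4 : Algebra.trdeg ℂ N = 4) (hx : H160.Z2Irr.IsFF P x₀) (h0 : P.P0 ≠ 0)
    (h2 : P.P2 ≠ 0) {w : Fin 5 → N} (hw : GenS P w) {t c : N} {v : Fin 4 → N}
    (hv : ∀ i, v i ∈ cl0 {w 2}) (hc : c ≠ 0)
    (hz : (kd P (w 2)).zz (vec w) ((kd P (w 2)).gam 1 t) = fun i => c * v i)
    (hQ : (kd P (w 2)).Q ((kd P (w 2)).gam 1 t) ≠ 0) :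
    ∃ e : ℤ, e ≠ 0 ∧ e • H160.Z2Irr.pt x₀ w ∈ Rel m K N := by
  refine gprime h4 hx h0 h2 hw hv (t := t) (c := (kd P (w 2)).Q ((kd P (w 2)).gam 1 t) ^ 2 / c)
    (div_ne_zero (pow_ne_zero 2 hQ) hc) ?_
  have h5 := zz_zz (kd P (w 2)) (vec w) ((kd P (w 2)).gam 1 t)
  rw [hz, zz_smul] at h5
  funext i
  have h6 := congrFun h5 i
  field_simp
  linear_combination h6

end main

end Vale.Agent.P297.H160.Z2Gp
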