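import Vale.Agent.P297.H160.Z2IrrB

/-!
General numerical Godeaux surfaces with torsion of order two: the quartic is irreducible as a
polynomial in three variables.
-/

open Polynomial

namespace Vale.Agent.P297.H160.Z2Irr

/-- polynomials in one variable -/
noncomputable def e1 : MvPolynomial (Fin 1) ℂ ≃ₐ[ℂ] ℂ[X] :=
  (MvPolynomial.finSuccEquiv ℂ 0).trans (mapAlgEquiv (MvPolynomial.isEmptyAlgEquiv ℂ (Fin 0)))

/-- polynomials in three variables -/
noncomputable def e3 : MvPolynomial (Fin 3) ℂ ≃ₐ[ℂ] ℂ[X][X][X] :=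
  (MvPolynomial.finSuccEquiv ℂ 2).trans (mapAlgEquiv ((MvPolynomial.finSuccEquiv ℂ 1).trans
    (mapAlgEquiv e1)))

theorem e1_X : e1 (MvPolynomial.X 0) = X := by
  unfold e1
  rw [AlgEquiv.trans_apply, MvPolynomial.finSuccEquiv_X_zero]
  simp

theorem e3_X0 : e3 (MvPolynomial.X 0) = X := by
  unfold e3
  rw [AlgEquiv.trans_apply, MvPolynomial.finSuccEquiv_X_zero]
  simp

theorem e3_X1 : e3 (MvPolynomial.X 1) = C X := by
  unfold e3
  have h : (MvPolynomial.X 1 : MvPolynomial (Fin 3) ℂ) = MvPolynomial.X (Fin.succ 0) := rfl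
  rw [h, AlgEquiv.trans_apply, MvPolynomial.finSuccEquiv_X_succ]
  simp only [coe_mapAlgEquiv, map_C, RingHom.coe_coe, AlgEquiv.trans_apply]
  rw [MvPolynomial.finSuccEquiv_X_zero]
  simp

theorem e3_X2 : e3 (MvPolynomial.X 2) = C (C X) := by
  unfold e3
  have h : (MvPolynomial.X 2 : MvPolynomial (Fin 3) ℂ) = MvPolynomial.X (Fin.succ 1) := rfl
  have h' : (MvPolynomial.X 1 : MvPolynomial (Fin 2) ℂ) = MvPolynomial.X (Fin.succ 0) := rfl
  rw [h, AlgEquiv.trans_apply, MvPolynomial.finSuccEquiv_X_succ]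
  simp only [coe_mapAlgEquiv, map_C, RingHom.coe_coe, AlgEquiv.trans_apply]
  rw [h', MvPolynomial.finSuccEquiv_X_succ]
  simp only [map_C, RingHom.coe_coe]
  rw [e1_X]

theorem e3_hP (P : Par) : e3 (hP P) = pP P := by
  have h0 : e3.toAlgHom (MvPolynomial.X 0) = X := e3_X0
  have h1 : e3.toAlgHom (MvPolynomial.X 1) = C X := e3_X1
  have h2 : e3.toAlgHom (MvPolynomial.X 2) = C (C X) := e3_X2
  have h3 : e3.toAlgHom (hP P) = fQ P (e3.toAlgHom (MvPolynomial.X 0))
      (e3.toAlgHom (MvPolynomial.X 1)) (e3.toAlgHom (MvPolynomial.X 2)) := by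
    unfold hP
    exact map_fQ (R := MvPolynomial (Fin 3) ℂ) (R' := ℂ[X][X][X]) P e3.toAlgHom
      (MvPolynomial.X 0) (MvPolynomial.X 1) (MvPolynomial.X 2)
  rw [h0, h1, h2] at h3
  exact h3

/-- **Irreducibility.** -/
theorem irr_hP (P : Par) (h0 : P.P0 ≠ 0) : Irreducible (hP P) := by
  have h := irr_pP P h0
  rw [← e3_hP] at h
  exact (MulEquiv.irreducible_iff e3).1 h

end Vale.Agent.P297.H160.Z2Irr
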