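import Mathlib

/-!
General numerical Godeaux surfaces with torsion of order two: a criterion of irreducibility for
quartic polynomials in the third variable.
-/

set_option linter.unusedSectionVars false
set_option linter.unusedSimpArgs false

open Polynomial

namespace Vale.Agent.P297.H160.Z2Irr

section cubic

/-- The cubic polynomial over the polynomial ring has no factor of degree one. -/
theorem cubic_no_root {p : ℂ} (hp : p ≠ 0) {b2 b1 b0 : ℂ[X]} (h2 : b2.natDegree ≤ 2)
    (h1 : b1.natDegree ≤ 5) (h0 : b0.natDegree = 4) (r : ℂ[X]) :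
    C p * r ^ 3 + b2 * r ^ 2 + b1 * r + b0 ^ 2 ≠ 0 := by
  intro h
  rcases Nat.lt_or_ge r.natDegree 3 with hr | hr
  · have e : b0 ^ 2 = -(C p * r ^ 3 + b2 * r ^ 2 + b1 * r) := by linear_combination h
    have hd : (b0 ^ 2).natDegree = 8 := by rw [natDegree_pow, h0]
    have hle : (-(C p * r ^ 3 + b2 * r ^ 2 + b1 * r)).natDegree ≤ 7 := by
      rw [natDegree_neg]
      refine natDegree_add_le_of_degree_le (natDegree_add_le_of_degree_le ?_ ?_) ?_
      · refine (natDegree_C_mul_le _ _).trans ?_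
        rw [natDegree_pow]
        omega
      · refine natDegree_mul_le.trans ?_
        rw [natDegree_pow]
        omega
      · refine natDegree_mul_le.trans ?_
        omega
    rw [← e, hd] at hle
    omega
  · have e : C p * r ^ 3 = -(b2 * r ^ 2 + b1 * r + b0 ^ 2) := by linear_combination h
    have hd : (C p * r ^ 3).natDegree = 3 * r.natDegree := by
      rw [natDegree_C_mul hp, natDegree_pow]
    have hle : (-(b2 * r ^ 2 + b1 * r + b0 ^ 2)).natDegree ≤ 3 * r.natDegree - 1 := by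
      rw [natDegree_neg]
      refine natDegree_add_le_of_degree_le (natDegree_add_le_of_degree_le ?_ ?_) ?_
      · refine natDegree_mul_le.trans ?_
        rw [natDegree_pow]
        omega
      · refine natDegree_mul_le.trans ?_
        omega
      · rw [natDegree_pow]
        omega
    rw [← e, hd] at hle
    omega

theorem linear_form {A : Type*} [CommRing A] {g : A[X]} (h : g.natDegree = 1) :
    g = C (g.coeff 1) * X + C (g.coeff 0) := by
  ext n
  simp only [coeff_add, coeff_C_mul, coeff_X, coeff_C]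
  rcases n with _ | _ | n
  · simp
  · simp
  · rw [coeff_eq_zero_of_natDegree_lt (by omega)]
    simp

theorem cubic_factor {p : ℂ} (hp : p ≠ 0) {b2 b1 b0 : ℂ[X]} (h2 : b2.natDegree ≤ 2)
    (h1 : b1.natDegree ≤ 5) (h0 : b0.natDegree = 4) {g h : ℂ[X][X]}
    (e : g * h = C (C p) * X ^ 3 + C b2 * X ^ 2 + C b1 * X + C (b0 ^ 2)) :
    g.natDegree ≠ 1 := by
  intro hg
  have hne : (C (C p) * X ^ 3 + C b2 * X ^ 2 + C b1 * X + C (b0 ^ 2) : ℂ[X][X]).natDegree = 3 := by
    have : (C p : ℂ[X]) ≠ 0 := C_ne_zero.2 hp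
    compute_degree!
  have hlead : (C (C p) * X ^ 3 + C b2 * X ^ 2 + C b1 * X + C (b0 ^ 2) : ℂ[X][X]).leadingCoeff =
      C p := by
    rw [leadingCoeff, hne]
    generalize b0 ^ 2 = b
    simp [coeff_X_pow, coeff_C, coeff_X]
  have hl : g.coeff 1 * h.leadingCoeff = C p := by
    rw [← hlead, ← e, leadingCoeff_mul]
    congr 1
    rw [leadingCoeff, hg]
  have hu : IsUnit (g.coeff 1) :=
    isUnit_of_mul_isUnit_left (by rw [hl]; exact isUnit_C.2 (isUnit_iff_ne_zero.2 hp))
  obtain ⟨w, hw⟩ := hu.exists_left_inv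
  have hroot : g.eval (-(w * g.coeff 0)) = 0 := by
    rw [linear_form hg]
    simp only [eval_add, eval_mul, eval_C, eval_X]
    simp only [coeff_add, coeff_C_mul, coeff_X, coeff_C]
    simp
    linear_combination (-(g.coeff 0)) * hw
  have h3 := congrArg (eval (-(w * g.coeff 0))) e
  rw [eval_mul, hroot, zero_mul] at h3
  simp only [eval_add, eval_mul, eval_C, eval_X, eval_pow] at h3
  exact cubic_no_root hp h2 h1 h0 _ h3.symm

end cubic

section quartic

variable {A : Type*} [CommRing A] [IsDomain A]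

theorem quartic_coeff {B : Type*} [CommRing B] (a4 a3 a2 a1 a0 : B) :
    (C a4 * X ^ 4 + C a3 * X ^ 3 + C a2 * X ^ 2 + C a1 * X + C a0 : B[X]).coeff 4 = a4 ∧
    (C a4 * X ^ 4 + C a3 * X ^ 3 + C a2 * X ^ 2 + C a1 * X + C a0 : B[X]).coeff 3 = a3 ∧
    (C a4 * X ^ 4 + C a3 * X ^ 3 + C a2 * X ^ 2 + C a1 * X + C a0 : B[X]).coeff 2 = a2 ∧
    (C a4 * X ^ 4 + C a3 * X ^ 3 + C a2 * X ^ 2 + C a1 * X + C a0 : B[X]).coeff 1 = a1 ∧
    (C a4 * X ^ 4 + C a3 * X ^ 3 + C a2 * X ^ 2 + C a1 * X + C a0 : B[X]).coeff 0 = a0 := by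
  refine ⟨?_, ?_, ?_, ?_, ?_⟩ <;> simp [coeff_X_pow, coeff_C, coeff_X]

theorem quartic_inj {B : Type*} [CommRing B] {a4 a3 a2 a1 a0 b4 b3 b2 b1 b0 : B}
    (h : (C a4 * X ^ 4 + C a3 * X ^ 3 + C a2 * X ^ 2 + C a1 * X + C a0 : B[X]) =
      C b4 * X ^ 4 + C b3 * X ^ 3 + C b2 * X ^ 2 + C b1 * X + C b0) :
    a4 = b4 ∧ a3 = b3 ∧ a2 = b2 ∧ a1 = b1 ∧ a0 = b0 := by
  obtain ⟨p4, p3, p2, p1, p0⟩ := quartic_coeff a4 a3 a2 a1 a0
  obtain ⟨q4, q3, q2, q1, q0⟩ := quartic_coeff b4 b3 b2 b1 b0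
  rw [h] at p4 p3 p2 p1 p0
  exact ⟨p4.symm.trans q4, p3.symm.trans q3, p2.symm.trans q2, p1.symm.trans q1,
    p0.symm.trans q0⟩

/-- **The criterion.** -/
theorem unit_of_deg0 {c0 c1 c2 c3 : A[X]} (n0 : c0 ≠ 0) (d0 : c0.natDegree = 0)
    {g h : A[X][X]}
    (e : g * h = C (X ^ 4) * X ^ 4 + C c3 * X ^ 3 + C c2 * X ^ 2 + C c1 * X + C c0)
    (hd : (g * h).leadingCoeff = X ^ 4) (hg : g.natDegree = 0) : IsUnit g := by
  have hgC : g = C (g.coeff 0) := eq_C_of_natDegree_eq_zero hg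
  set γ := g.coeff 0 with hγ
  have e0 : γ * h.coeff 0 = c0 := by
    rw [hγ, ← mul_coeff_zero, e]
    simp [coeff_X_pow, coeff_C, coeff_X]
  have hγ0 : γ.natDegree = 0 := by
    have h1 : γ ≠ 0 := fun hz => n0 (by rw [← e0, hz, zero_mul])
    have h2 : h.coeff 0 ≠ 0 := fun hz => n0 (by rw [← e0, hz, mul_zero])
    have h3 := natDegree_mul h1 h2
    rw [e0, d0] at h3
    omega
  have e4 : γ * h.leadingCoeff = X ^ 4 := by
    rw [← hd, leadingCoeff_mul]
    congr 1
    rw [leadingCoeff, hg]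
  have hγC : γ = C (γ.coeff 0) := eq_C_of_natDegree_eq_zero hγ0
  have h5 : γ.coeff 0 * h.leadingCoeff.coeff 4 = 1 := by
    have := congrArg (fun f => coeff f 4) e4
    rw [hγC] at this
    simpa using this
  rw [hgC, isUnit_C, hγC, isUnit_C]
  exact IsUnit.of_mul_eq_one _ h5

theorem not_deg1 {c0 c1 c2 c3 : A[X]} (n0 : c0 ≠ 0) (d0 : c0.natDegree = 0)
    (d1 : c1.natDegree ≤ 2) (d2 : c2.natDegree ≤ 4) (d3 : c3.natDegree ≤ 6) {g h : A[X][X]}
    (e : g * h = C (X ^ 4) * X ^ 4 + C c3 * X ^ 3 + C c2 * X ^ 2 + C c1 * X + C c0)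
    (hg : g.natDegree = 1) (hh : h.natDegree = 3) (hh3 : (h.coeff 3).coeff 0 ≠ 0) : False := by
  set g0 := g.coeff 0 with hg0
  set g1 := g.coeff 1 with hg1
  set h0 := h.coeff 0 with hh0
  set h1 := h.coeff 1 with hh1
  set h2 := h.coeff 2 with hh2
  set h3 := h.coeff 3 with hh3'
  have hG : g = C g1 * X + C g0 := linear_form hg
  have hH : h = C h3 * X ^ 3 + C h2 * X ^ 2 + C h1 * X + C h0 := by
    refine Polynomial.ext fun n => ?_
    simp only [coeff_add, coeff_C_mul, coeff_X, coeff_C, coeff_X_pow]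
    rcases n with _ | _ | _ | _ | n
    · simp [hh0]
    · simp [hh1]
    · simp [hh2]
    · simp [hh3']
    · rw [coeff_eq_zero_of_natDegree_lt (by omega)]
      simp
  have hE : g * h = C (g1 * h3) * X ^ 4 + C (g0 * h3 + g1 * h2) * X ^ 3 +
      C (g0 * h2 + g1 * h1) * X ^ 2 + C (g0 * h1 + g1 * h0) * X + C (g0 * h0) := by
    rw [hG, hH]
    simp only [map_add, map_mul]
    ring
  have E := hE.symm.trans e
  obtain ⟨E4, E3, E2, E1, E0⟩ := quartic_inj E
  have hX : Prime (X : A[X]) := prime_X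
  obtain ⟨i, j, a, b, hij, hab, ha, hb⟩ : ∃ i j : ℕ, ∃ a b : A[X], i + j = 4 ∧ 1 = a * b ∧
      g1 = a * X ^ i ∧ h3 = b * X ^ j := by
    obtain ⟨i, j, a, b, hij, hab, ha, hb⟩ := mul_eq_mul_prime_pow (x := g1) (y := h3) (a := 1) hX
      (by rw [E4, one_mul])
    exact ⟨i, j, a, b, hij, hab, ha, hb⟩
  have hj : j = 0 := by
    by_contra hj
    apply hh3
    rw [hb, mul_coeff_zero, coeff_X_pow]
    rw [if_neg (fun h => hj h.symm), mul_zero]
  have hi : i = 4 := by omega
  have hbu : IsUnit b := IsUnit.of_mul_eq_one a (by rw [mul_comm]; exact hab.symm)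
  have hau : IsUnit a := IsUnit.of_mul_eq_one b hab.symm
  have hg1d : g1.natDegree = 4 := by
    rw [ha, hi, natDegree_mul_X_pow _ hau.ne_zero, natDegree_eq_zero_of_isUnit hau]
  have hh3d : h3.natDegree = 0 := by
    rw [hb, hj, pow_zero, mul_one, natDegree_eq_zero_of_isUnit hbu]
  have g1ne : g1 ≠ 0 := by
    intro hz
    rw [hz, natDegree_zero] at hg1d
    omega
  have h3ne : h3 ≠ 0 := by
    intro hz
    rw [hz] at hh3
    exact hh3 (coeff_zero 0)
  have g0ne : g0 ≠ 0 := fun hz => n0 (by rw [← E0, hz, zero_mul])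
  have h0ne : h0 ≠ 0 := fun hz => n0 (by rw [← E0, hz, mul_zero])
  have hs := natDegree_mul g0ne h0ne
  rw [E0, d0] at hs
  have g0d : g0.natDegree = 0 := by omega
  have h0d : h0.natDegree = 0 := by omega
  have k1 : (g0 * h1).natDegree = 4 := by
    have t : g0 * h1 = c1 - g1 * h0 := by linear_combination E1
    rw [t, natDegree_sub_eq_right_of_natDegree_lt]
    · rw [natDegree_mul g1ne h0ne]; omega
    · rw [natDegree_mul g1ne h0ne]; omega
  have h1ne : h1 ≠ 0 := by
    intro hz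
    rw [hz, mul_zero, natDegree_zero] at k1
    omega
  have h1d : h1.natDegree = 4 := by
    rw [natDegree_mul g0ne h1ne] at k1
    omega
  have k2 : (g0 * h2).natDegree = 8 := by
    have t : g0 * h2 = c2 - g1 * h1 := by linear_combination E2
    rw [t, natDegree_sub_eq_right_of_natDegree_lt]
    · rw [natDegree_mul g1ne h1ne]; omega
    · rw [natDegree_mul g1ne h1ne]; omega
  have h2ne : h2 ≠ 0 := by
    intro hz
    rw [hz, mul_zero, natDegree_zero] at k2
    omega
  have h2d : h2.natDegree = 8 := by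
    rw [natDegree_mul g0ne h2ne] at k2
    omega
  have k3 : (g1 * h2).natDegree ≤ 6 := by
    have t : g1 * h2 = c3 - g0 * h3 := by linear_combination E3
    rw [t]
    refine (natDegree_sub_le _ _).trans (max_le d3 ?_)
    rw [natDegree_mul g0ne h3ne]
    omega
  rw [natDegree_mul g1ne h2ne] at k3
  omega

/-- **Irreducibility of the quartic**, from the reduction modulo the second variable. -/
theorem irreducible_of {c0 c1 c2 c3 : A[X]} (n0 : c0 ≠ 0) (d0 : c0.natDegree = 0)
    (d1 : c1.natDegree ≤ 2) (d2 : c2.natDegree ≤ 4) (d3 : c3.natDegree ≤ 6)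
    (n3 : c3.coeff 0 ≠ 0)
    (cub : ∀ g h : A[X], g * h = C (c3.coeff 0) * X ^ 3 + C (c2.coeff 0) * X ^ 2 +
      C (c1.coeff 0) * X + C (c0.coeff 0) → g.natDegree ≠ 1) :
    Irreducible (C (X ^ 4) * X ^ 4 + C c3 * X ^ 3 + C c2 * X ^ 2 + C c1 * X + C c0 : A[X][X]) := by
  have hX4 : (X ^ 4 : A[X]) ≠ 0 := pow_ne_zero 4 X_ne_zero
  have hd4 : (C (X ^ 4) * X ^ 4 + C c3 * X ^ 3 + C c2 * X ^ 2 + C c1 * X + C c0 :
      A[X][X]).natDegree = 4 := by
    compute_degree!
  have hlead : (C (X ^ 4) * X ^ 4 + C c3 * X ^ 3 + C c2 * X ^ 2 + C c1 * X + C c0 :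
      A[X][X]).leadingCoeff = X ^ 4 := by
    rw [leadingCoeff, hd4]
    generalize (X ^ 4 : A[X]) = b
    simp [coeff_X_pow, coeff_C, coeff_X]
  have hred : (C (X ^ 4) * X ^ 4 + C c3 * X ^ 3 + C c2 * X ^ 2 + C c1 * X + C c0 :
      A[X][X]).map constantCoeff = C (c3.coeff 0) * X ^ 3 + C (c2.coeff 0) * X ^ 2 +
      C (c1.coeff 0) * X + C (c0.coeff 0) := by
    simp only [Polynomial.map_add, Polynomial.map_mul, Polynomial.map_pow, map_C, map_X,
      constantCoeff_apply, map_pow, coeff_X_zero]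
    simp
  have hd3 : (C (c3.coeff 0) * X ^ 3 + C (c2.coeff 0) * X ^ 2 +
      C (c1.coeff 0) * X + C (c0.coeff 0) : A[X]).natDegree = 3 := by
    compute_degree!
  have main : ∀ g h : A[X][X], g * h = C (X ^ 4) * X ^ 4 + C c3 * X ^ 3 + C c2 * X ^ 2 +
      C c1 * X + C c0 → (g.map constantCoeff).natDegree = 0 → IsUnit g := by
    intro g h e hz
    have hne : g * h ≠ 0 := by
      intro h0
      rw [e] at h0
      rw [h0] at hd4
      simp at hd4
    have gne : g ≠ 0 := fun h0 => hne (by rw [h0, zero_mul])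
    have hne' : h ≠ 0 := fun h0 => hne (by rw [h0, mul_zero])
    have hsum := natDegree_mul gne hne'
    rw [e, hd4] at hsum
    have hmm : g.map constantCoeff * h.map constantCoeff = C (c3.coeff 0) * X ^ 3 +
        C (c2.coeff 0) * X ^ 2 + C (c1.coeff 0) * X + C (c0.coeff 0) := by
      rw [← Polynomial.map_mul, e, hred]
    have hmne : g.map constantCoeff * h.map constantCoeff ≠ 0 := by
      intro h0
      rw [hmm] at h0
      rw [h0] at hd3
      simp at hd3
    have hms := natDegree_mul (left_ne_zero_of_mul hmne) (right_ne_zero_of_mul hmne)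
    rw [hmm, hd3, hz] at hms
    have hh3 : 3 ≤ h.natDegree := by
      have := natDegree_map_le (p := h) (f := (constantCoeff : A[X] →+* A))
      omega
    rcases Nat.eq_zero_or_pos g.natDegree with hg | hg
    · exact unit_of_deg0 n0 d0 e (by rw [e, hlead]) hg
    · exfalso
      have hg1 : g.natDegree = 1 := by omega
      have hh : h.natDegree = 3 := by omega
      refine not_deg1 n0 d0 d1 d2 d3 e hg1 hh ?_
      have h5 : (h.map constantCoeff).coeff 3 ≠ 0 := by
        have h6 : (h.map (constantCoeff : A[X] →+* A)).natDegree = 3 := by omega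
        rw [← h6, coeff_natDegree]
        exact leadingCoeff_ne_zero.2 (right_ne_zero_of_mul hmne)
      rwa [coeff_map, constantCoeff_apply] at h5
  refine ⟨?_, ?_⟩
  · intro hu
    rw [natDegree_eq_zero_of_isUnit hu] at hd4
    omega
  · intro g h e
    have hmm : g.map constantCoeff * h.map constantCoeff = C (c3.coeff 0) * X ^ 3 +
        C (c2.coeff 0) * X ^ 2 + C (c1.coeff 0) * X + C (c0.coeff 0) := by
      rw [← Polynomial.map_mul, ← e, hred]
    have hmne : g.map constantCoeff * h.map constantCoeff ≠ 0 := by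
      intro h0
      rw [hmm] at h0
      rw [h0] at hd3
      simp at hd3
    have hms := natDegree_mul (left_ne_zero_of_mul hmne) (right_ne_zero_of_mul hmne)
    rw [hmm, hd3] at hms
    have n1 := cub _ _ hmm
    have n2 := cub _ _ ((mul_comm _ _).trans hmm)
    have hcase : (g.map constantCoeff).natDegree = 0 ∨ (h.map constantCoeff).natDegree = 0 := by
      omega
    rcases hcase with hc | hc
    · exact Or.inl (main g h e.symm hc)
    · exact Or.inr (main h g (by rw [mul_comm, ← e]) hc)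

end quartic

end Vale.Agent.P297.H160.Z2Irr
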