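import Vale.Agent.P297.H160.Z2Eq

/-!
General numerical Godeaux surfaces with torsion of order two: the parameters, the equations in the
coordinates `(y, k, x, σ, τ)` and the quartic.
-/

set_option linter.unusedSectionVars false
set_option linter.unusedVariables false

namespace Vale.Agent.P297.H160.Z2Irr

/-- The parameters. There is one too many: the origin of the coordinate `y` is free. -/
structure Par where
  P0 : ℂ
  P1 : ℂ
  P2 : ℂ
  Q0 : ℂ
  Q1 : ℂ
  u : ℂ
  v : ℂ
  m : ℂ
  n : ℂ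
  M1 : ℂ

section defs

variable {R : Type*} [CommRing R] [Algebra ℂ R] (P : Par)

def fU (y : R) : R := y + algebraMap ℂ R P.u

def fV (y : R) : R := y + algebraMap ℂ R P.v

def fa (y : R) : R := 2 * y + algebraMap ℂ R P.Q0

def fc (y : R) : R := 2 * y + algebraMap ℂ R P.Q1

def fe (y : R) : R := algebraMap ℂ R P.n - y ^ 2 + algebraMap ℂ R P.P1 * y

def fm (y : R) : R := algebraMap ℂ R P.m - y ^ 2 + algebraMap ℂ R P.M1 * y

/-- the quartic -/
def fQ (x k y : R) : R :=
  qf (fU P y) (fV P y) (fa P y) (fc P y) (fe P y) (fm P y) (algebraMap ℂ R P.P0)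
    (algebraMap ℂ R P.P2) k x

variable {R' : Type*} [CommRing R'] [Algebra ℂ R'] (f : R →ₐ[ℂ] R')

theorem map_fU (y : R) : f (fU P y) = fU P (f y) := by
  simp only [fU, map_add, AlgHom.commutes]

theorem map_fV (y : R) : f (fV P y) = fV P (f y) := by
  simp only [fV, map_add, AlgHom.commutes]

theorem map_fa (y : R) : f (fa P y) = fa P (f y) := by
  simp only [fa, map_add, map_mul, map_ofNat, AlgHom.commutes]

theorem map_fc (y : R) : f (fc P y) = fc P (f y) := by
  simp only [fc, map_add, map_mul, map_ofNat, AlgHom.commutes]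

theorem map_fe (y : R) : f (fe P y) = fe P (f y) := by
  simp only [fe, map_add, map_sub, map_mul, map_pow, AlgHom.commutes]

theorem map_fm (y : R) : f (fm P y) = fm P (f y) := by
  simp only [fm, map_add, map_sub, map_mul, map_pow, AlgHom.commutes]

theorem map_qf {A B : Type*} [CommRing A] [CommRing B] (g : A →+* B)
    (U V a c e m P R k x : A) : g (qf U V a c e m P R k x) =
      qf (g U) (g V) (g a) (g c) (g e) (g m) (g P) (g R) (g k) (g x) := by
  simp only [qf, q3, q2, q1, b0, c36, c35, c34, c33, c32, c31, c30, c24, c23, c22, c21, c20, c12,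
    c11, c10, map_add, map_sub, map_mul, map_pow, map_neg, map_ofNat]

theorem map_fQ (x k y : R) : f (fQ P x k y) = fQ P (f x) (f k) (f y) := by
  unfold fQ
  have h := map_qf (f : R →+* R') (fU P y) (fV P y) (fa P y) (fc P y) (fe P y) (fm P y)
    (algebraMap ℂ R P.P0) (algebraMap ℂ R P.P2) k x
  simp only [RingHom.coe_coe, map_fU, map_fV, map_fa, map_fc, map_fe, map_fm,
    AlgHom.commutes] at h
  exact h

end defs

/-- the polynomial in `(x, k, y)` -/
noncomputable def hP (P : Par) : MvPolynomial (Fin 3) ℂ :=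
  fQ P (MvPolynomial.X 0) (MvPolynomial.X 1) (MvPolynomial.X 2)

theorem aeval_hP (P : Par) {R : Type*} [CommRing R] [Algebra ℂ R] (y : Fin 3 → R) :
    MvPolynomial.aeval y (hP P) = fQ P (y 0) (y 1) (y 2) := by
  unfold hP
  rw [map_fQ, MvPolynomial.aeval_X, MvPolynomial.aeval_X, MvPolynomial.aeval_X]

section field

variable {N : Type*} [Field N] [Algebra ℂ N] (P : Par)

/-- the first equation -/
def E1 (x k y σ τ : N) : Prop :=
  x * (k ^ 2 * τ - σ) + fU P y ^ 2 * τ - fV P y ^ 2 * σ = fa P y * fU P y + fc P y * k * fV P y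

/-- the second equation -/
def E2 (x k y σ τ : N) : Prop :=
  x * (σ - k * τ + (1 + algebraMap ℂ N P.P0 / fU P y + algebraMap ℂ N P.P2 / fV P y) * k -
    algebraMap ℂ N P.P2 / fV P y * k ^ 2 - algebraMap ℂ N P.P0 / fU P y) =
  fe P y + algebraMap ℂ N P.P2 / fV P y * fU P y ^ 2 + algebraMap ℂ N P.P0 / fU P y * fV P y ^ 2

/-- the third equation -/
def E3 (x k y σ τ : N) : Prop :=
  x * ((σ + 2 * (algebraMap ℂ N P.P0 / fU P y) * k) * (τ - 2 * (algebraMap ℂ N P.P2 / fV P y)) +
    (algebraMap ℂ N P.P0 / fU P y + algebraMap ℂ N P.P2 / fV P y * k) ^ 2) =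
  fm P y + algebraMap ℂ N P.P0 / fU P y * fc P y * fV P y +
    algebraMap ℂ N P.P2 / fV P y * fa P y * fU P y -
    (algebraMap ℂ N P.P0 / fU P y * fV P y + algebraMap ℂ N P.P2 / fV P y * fU P y) ^ 2

/-- the denominator -/
def fD (x k y : N) : N := k * (k - 1) * x + fU P y ^ 2 - k * fV P y ^ 2

/-- the third factor -/
def fT (k y : N) : N := k + (k - 1) * (algebraMap ℂ N P.P0 / fU P y -
  algebraMap ℂ N P.P2 / fV P y * k)

/-- the right side of the second equation -/
def f2 (y : N) : N := fe P y + algebraMap ℂ N P.P2 / fV P y * fU P y ^ 2 +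
  algebraMap ℂ N P.P0 / fU P y * fV P y ^ 2

def numT (x k y : N) : N := x * (fa P y * fU P y + fc P y * k * fV P y) +
  (x + fV P y ^ 2) * (f2 P y - fT P k y * x)

def numS (x k y : N) : N := k * x * (fa P y * fU P y + fc P y * k * fV P y) +
  (k ^ 2 * x + fU P y ^ 2) * (f2 P y - fT P k y * x)

theorem numT_eq {x k y σ τ : N} (h1 : E1 P x k y σ τ) (h2 : E2 P x k y σ τ) :
    x * fD P x k y * τ = numT P x k y := by
  unfold E1 at h1
  unfold E2 at h2
  unfold fD numT f2 fT
  linear_combination x * h1 + (x + fV P y ^ 2) * h2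

theorem numS_eq {x k y σ τ : N} (h1 : E1 P x k y σ τ) (h2 : E2 P x k y σ τ) :
    x * fD P x k y * σ = numS P x k y := by
  unfold E1 at h1
  unfold E2 at h2
  unfold fD numS f2 fT
  linear_combination k * x * h1 + (k ^ 2 * x + fU P y ^ 2) * h2

/-- The quartic vanishes at the points of the surface. -/
theorem fQ_eq_zero {x k y σ τ : N} (hU : fU P y ≠ 0) (hV : fV P y ≠ 0) (h1 : E1 P x k y σ τ)
    (h2 : E2 P x k y σ τ) (h3 : E3 P x k y σ τ) : fQ P x k y = 0 := by
  have hT := numT_eq P h1 h2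
  have hS := numS_eq P h1 h2
  unfold fQ
  rw [qf_eq (fU P y) (fV P y) (fa P y) (fc P y) (fe P y) (fm P y) (algebraMap ℂ N P.P0)
    (algebraMap ℂ N P.P2) k x (algebraMap ℂ N P.P0 / fU P y) (algebraMap ℂ N P.P2 / fV P y)
    _ _ _ _ (fD P x k y) _ (numT P x k y) (numS P x k y) (by field_simp) (by field_simp) rfl rfl
    rfl rfl rfl rfl rfl rfl]
  rw [← hT, ← hS]
  unfold E3 at h3
  linear_combination x * fD P x k y ^ 2 * h3

end field

end Vale.Agent.P297.H160.Z2Irr
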