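import Vale.Agent.P297.H160.Z2IrrA
import Vale.Agent.P297.H160.Z2Par

/-!
General numerical Godeaux surfaces with torsion of order two: the quartic is irreducible.
-/

set_option linter.unusedSectionVars false
set_option linter.unusedSimpArgs false

open Polynomial

namespace Vale.Agent.P297.H160.Z2Irr

section gen

variable {A : Type*} [CommRing A] (U V a c e m P R : A)

theorem qf_poly : qf (C (C U)) (C (C V)) (C (C a)) (C (C c)) (C (C e)) (C (C m)) (C (C P)) (C (C R))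
    (C X) (X : A[X][X]) = C (X ^ 4) * X ^ 4 +
      C (C (c36 U V a c e m P R) * X ^ 6 + C (c35 U V a c e m P R) * X ^ 5 +
        C (c34 U V a c e m P R) * X ^ 4 + C (c33 U V a c e m P R) * X ^ 3 +
        C (c32 U V a c e m P R) * X ^ 2 + C (c31 U V a c e m P R) * X +
        C (c30 U V a c e m P R)) * X ^ 3 +
      C (C (c24 U V a c e m P R) * X ^ 4 + C (c23 U V a c e m P R) * X ^ 3 +
        C (c22 U V a c e m P R) * X ^ 2 + C (c21 U V a c e m P R) * X +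
        C (c20 U V a c e m P R)) * X ^ 2 +
      C (C (c12 U V a c e m P R) * X ^ 2 + C (c11 U V a c e m P R) * X +
        C (c10 U V a c e m P R)) * X + C (C (b0 U V a c e m P R ^ 2)) := by
  simp only [qf, q3, q2, q1, b0, c36, c35, c34, c33, c32, c31, c30, c24, c23, c22, c21, c20, c12,
    c11, c10, map_add, map_sub, map_mul, map_pow, map_neg, map_ofNat]

end gen

section degrees

variable (P : Par)

/-- the coefficients as polynomials in `y` -/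
noncomputable def k0 : ℂ[X] := b0 (fU P X) (fV P X) (fa P X) (fc P X) (fe P X) (fm P X)
  (algebraMap ℂ ℂ[X] P.P0) (algebraMap ℂ ℂ[X] P.P2)

theorem fU_C : fU P (X : ℂ[X]) = X + C P.u := rfl
theorem fV_C : fV P (X : ℂ[X]) = X + C P.v := rfl
theorem fa_C : fa P (X : ℂ[X]) = 2 * X + C P.Q0 := rfl
theorem fc_C : fc P (X : ℂ[X]) = 2 * X + C P.Q1 := rfl
theorem fe_C : fe P (X : ℂ[X]) = C P.n - X ^ 2 + C P.P1 * X := rfl
theorem fm_C : fm P (X : ℂ[X]) = C P.m - X ^ 2 + C P.M1 * X := rfl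

theorem natDegree_b0 : (b0 (fU P X) (fV P X) (fa P X) (fc P X) (fe P X) (fm P X)
  (algebraMap ℂ ℂ[X] P.P0) (algebraMap ℂ ℂ[X] P.P2)).natDegree = 4 := by
  rw [fU_C, fV_C, fa_C, fc_C, fe_C, fm_C]
  have h1 : algebraMap ℂ ℂ[X] = C := rfl
  rw [h1]
  unfold b0
  have h : ((X + C P.u) * (X + C P.v) * (C P.n - X ^ 2 + C P.P1 * X) + C P.P2 * (X + C P.u) ^ 3 +
      C P.P0 * (X + C P.v) ^ 3 : ℂ[X]) = -X ^ 4 + C (P.P1 - P.u - P.v + P.P0 + P.P2) * X ^ 3 +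
      C (P.n + P.P1 * (P.u + P.v) - P.u * P.v + 3 * P.P2 * P.u + 3 * P.P0 * P.v) * X ^ 2 +
      C (P.n * (P.u + P.v) + P.P1 * P.u * P.v + 3 * P.P2 * P.u ^ 2 + 3 * P.P0 * P.v ^ 2) * X +
      C (P.u * P.v * P.n + P.P2 * P.u ^ 3 + P.P0 * P.v ^ 3) := by
    simp only [map_add, map_sub, map_mul, map_pow, map_neg, map_ofNat]
    ring
  rw [h]
  compute_degree!

theorem natDegree_c20 : (c20 (fU P X) (fV P X) (fa P X) (fc P X) (fe P X) (fm P X)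
  (algebraMap ℂ ℂ[X] P.P0) (algebraMap ℂ ℂ[X] P.P2)).natDegree ≤ 2 := by
  rw [fU_C, fV_C, fa_C, fc_C, fe_C, fm_C]
  have h1 : algebraMap ℂ ℂ[X] = C := rfl
  rw [h1]
  unfold c20
  have h : ((X + C P.u) ^ 2 * (2 * X + C P.Q0) * C P.P0 + (X + C P.u) ^ 2 * C P.P0 ^ 2 +
      2 * (X + C P.u) * (C P.n - X ^ 2 + C P.P1 * X) * C P.P0 + 3 * (X + C P.v) ^ 2 * C P.P0 ^ 2
      : ℂ[X]) = (X + C P.u) * C P.P0 * (C (P.Q0 + 2 * P.u + 2 * P.P1) * X +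
        C (P.u * P.Q0 + 2 * P.n)) +
      ((X + C P.u) ^ 2 * C P.P0 ^ 2 + 3 * (X + C P.v) ^ 2 * C P.P0 ^ 2) := by
    simp only [map_add, map_sub, map_mul, map_pow, map_neg, map_ofNat]
    ring
  rw [h]
  compute_degree

theorem natDegree_c10 : (c10 (fU P X) (fV P X) (fa P X) (fc P X) (fe P X) (fm P X)
  (algebraMap ℂ ℂ[X] P.P0) (algebraMap ℂ ℂ[X] P.P2)).natDegree ≤ 5 := by
  rw [fU_C, fV_C, fa_C, fc_C, fe_C, fm_C]
  have h1 : algebraMap ℂ ℂ[X] = C := rfl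
  rw [h1]
  unfold c10
  have h2 : (-(X + C P.u) ^ 2 * (C P.m - X ^ 2 + C P.M1 * X) + (X + C P.u) * (2 * X + C P.Q0) *
      (C P.n - X ^ 2 + C P.P1 * X) + (C P.n - X ^ 2 + C P.P1 * X) ^ 2 : ℂ[X]) =
      C (-P.Q0 - P.M1) * X ^ 3 + C (P.u ^ 2 - P.m + P.P1 * (P.Q0 + 2 * P.u) - P.u * P.Q0 +
        P.P1 ^ 2 - 2 * P.u * P.M1) *
        X ^ 2 + C (-2 * P.u * P.m + P.n * (P.Q0 + 2 * P.u) + P.P1 * P.u * P.Q0 +
          2 * P.P1 * P.n - P.u ^ 2 * P.M1) * X + C (-P.u ^ 2 * P.m + P.n * P.u * P.Q0 + P.n ^ 2) := by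
    simp only [map_add, map_sub, map_mul, map_pow, map_neg, map_ofNat]
    ring
  have h3 : (-(X + C P.u) ^ 4 * (C P.m - X ^ 2 + C P.M1 * X) + 2 * (X + C P.u) ^ 4 * C P.P0 * C P.P2 -
      (X + C P.u) ^ 3 * (X + C P.v) * (2 * X + C P.Q1) * C P.P0 +
      2 * (X + C P.u) ^ 3 * (X + C P.v) * C P.P0 * C P.P2 +
      (X + C P.u) ^ 3 * (2 * X + C P.Q0) * (C P.n - X ^ 2 + C P.P1 * X) +
      (X + C P.u) ^ 2 * (X + C P.v) ^ 2 * (2 * X + C P.Q0) * C P.P0 +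
      (X + C P.u) ^ 2 * (X + C P.v) ^ 2 * C P.P0 ^ 2 +
      (X + C P.u) ^ 2 * (C P.n - X ^ 2 + C P.P1 * X) ^ 2 +
      4 * (X + C P.u) * (X + C P.v) ^ 2 * (C P.n - X ^ 2 + C P.P1 * X) * C P.P0 +
      3 * (X + C P.v) ^ 4 * C P.P0 ^ 2 : ℂ[X]) =
      (X + C P.u) ^ 2 * (C (-P.Q0 - P.M1) * X ^ 3 + C (P.u ^ 2 - P.m + P.P1 * (P.Q0 + 2 * P.u) -
        P.u * P.Q0 + P.P1 ^ 2 - 2 * P.u * P.M1) * X ^ 2 + C (-2 * P.u * P.m +
          P.n * (P.Q0 + 2 * P.u) + P.P1 * P.u * P.Q0 + 2 * P.P1 * P.n - P.u ^ 2 * P.M1) * X +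
            C (-P.u ^ 2 * P.m + P.n * P.u * P.Q0 + P.n ^ 2)) +
      (2 * (X + C P.u) ^ 4 * C P.P0 * C P.P2 -
      (X + C P.u) ^ 3 * (X + C P.v) * (2 * X + C P.Q1) * C P.P0 +
      2 * (X + C P.u) ^ 3 * (X + C P.v) * C P.P0 * C P.P2 +
      (X + C P.u) ^ 2 * (X + C P.v) ^ 2 * (2 * X + C P.Q0) * C P.P0 +
      (X + C P.u) ^ 2 * (X + C P.v) ^ 2 * C P.P0 ^ 2 +
      4 * (X + C P.u) * (X + C P.v) ^ 2 * (C P.n - X ^ 2 + C P.P1 * X) * C P.P0 +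
      3 * (X + C P.v) ^ 4 * C P.P0 ^ 2) := by
    rw [← h2]
    ring
  rw [h3]
  compute_degree

end degrees

/-- the quartic as a polynomial in `x` over the polynomials in `k` over the polynomials in `y` -/
noncomputable def pP (P : Par) : ℂ[X][X][X] := fQ P X (C X) (C (C X))

theorem pP_eq (P : Par) : pP P = qf (C (C (fU P (X : ℂ[X])))) (C (C (fV P X))) (C (C (fa P X)))
    (C (C (fc P X))) (C (C (fe P X))) (C (C (fm P X))) (C (C (algebraMap ℂ ℂ[X] P.P0)))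
    (C (C (algebraMap ℂ ℂ[X] P.P2))) (C X) (X : ℂ[X][X][X]) := by
  have h : ∀ r : ℂ, algebraMap ℂ ℂ[X][X][X] r = C (C (C r)) := fun r => rfl
  have h' : ∀ r : ℂ, algebraMap ℂ ℂ[X] r = C r := fun r => rfl
  unfold pP fQ
  simp only [fU, fV, fa, fc, fe, fm, h, h', map_add, map_sub, map_mul, map_pow, map_ofNat]

/-- **Irreducibility.** -/
theorem irr_pP (P : Par) (h0 : P.P0 ≠ 0) : Irreducible (pP P) := by
  rw [pP_eq, qf_poly]
  have n0 : b0 (fU P (X : ℂ[X])) (fV P X) (fa P X) (fc P X) (fe P X) (fm P X)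
      (algebraMap ℂ ℂ[X] P.P0) (algebraMap ℂ ℂ[X] P.P2) ≠ 0 := by
    intro hz
    have := natDegree_b0 P
    rw [hz, natDegree_zero] at this
    omega
  refine irreducible_of ?_ ?_ ?_ ?_ ?_ ?_ ?_
  · exact C_ne_zero.2 (pow_ne_zero 2 n0)
  · exact natDegree_C _
  · compute_degree
  · compute_degree
  · compute_degree
  · have e : (C (c36 (fU P (X : ℂ[X])) (fV P X) (fa P X) (fc P X) (fe P X) (fm P X)
      (algebraMap ℂ ℂ[X] P.P0) (algebraMap ℂ ℂ[X] P.P2)) * X ^ 6 +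
      C (c35 (fU P X) (fV P X) (fa P X) (fc P X) (fe P X) (fm P X) (algebraMap ℂ ℂ[X] P.P0)
        (algebraMap ℂ ℂ[X] P.P2)) * X ^ 5 +
      C (c34 (fU P X) (fV P X) (fa P X) (fc P X) (fe P X) (fm P X) (algebraMap ℂ ℂ[X] P.P0)
        (algebraMap ℂ ℂ[X] P.P2)) * X ^ 4 +
      C (c33 (fU P X) (fV P X) (fa P X) (fc P X) (fe P X) (fm P X) (algebraMap ℂ ℂ[X] P.P0)
        (algebraMap ℂ ℂ[X] P.P2)) * X ^ 3 +
      C (c32 (fU P X) (fV P X) (fa P X) (fc P X) (fe P X) (fm P X) (algebraMap ℂ ℂ[X] P.P0)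
        (algebraMap ℂ ℂ[X] P.P2)) * X ^ 2 +
      C (c31 (fU P X) (fV P X) (fa P X) (fc P X) (fe P X) (fm P X) (algebraMap ℂ ℂ[X] P.P0)
        (algebraMap ℂ ℂ[X] P.P2)) * X +
      C (c30 (fU P X) (fV P X) (fa P X) (fc P X) (fe P X) (fm P X) (algebraMap ℂ ℂ[X] P.P0)
        (algebraMap ℂ ℂ[X] P.P2)) : ℂ[X][X]).coeff 0 = C (P.P0 ^ 2) := by
      simp only [coeff_add, coeff_C_mul, coeff_X_pow, coeff_X_zero, coeff_C_zero]
      simp [c30]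
    rw [e]
    exact C_ne_zero.2 (pow_ne_zero 2 h0)
  · intro g h e
    refine cubic_factor (p := P.P0 ^ 2) (pow_ne_zero 2 h0) (natDegree_c20 P) (natDegree_c10 P)
      (natDegree_b0 P) (g := g) (h := h) ?_
    rw [e]
    simp only [coeff_add, coeff_C_mul, coeff_X_pow, coeff_X_zero, coeff_C_zero]
    simp [c30]

end Vale.Agent.P297.H160.Z2Irr
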