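import Vale.Agent.P297.H160.Z2IrrB

/-!
General numerical Godeaux surfaces with torsion of order two: the quartic is irreducible over every
field of constants.
-/

set_option linter.unusedSectionVars false
set_option linter.unusedSimpArgs false

open Polynomial

namespace Vale.Agent.P297.H160.Z2Irr

section quartic

variable {A : Type*} [CommRing A] [IsDomain A]

theorem natDegree_le_of_mul {a b c : A[X]} {n : ℕ} (hb : b ≠ 0) (h : a * b = c)
    (hc : c.natDegree ≤ n) : a.natDegree ≤ n := by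
  by_cases ha : a = 0
  · rw [ha, natDegree_zero]
    omega
  · rw [← h, natDegree_mul ha hb] at hc
    omega

theorem lead_split {a b : A[X]} (h : a * b = X ^ 4) (hb : b.coeff 0 ≠ 0) :
    ∃ α : A[X], a = α * X ^ 4 ∧ IsUnit α ∧ IsUnit b ∧ b.natDegree = 0 := by
  have hX : Prime (X : A[X]) := prime_X
  obtain ⟨i, j, α, β, hij, hab, ha, hb'⟩ : ∃ i j : ℕ, ∃ α β : A[X], i + j = 4 ∧ 1 = α * β ∧
      a = α * X ^ i ∧ b = β * X ^ j := by
    obtain ⟨i, j, α, β, hij, hab, ha, hb⟩ := mul_eq_mul_prime_pow (x := a) (y := b) (a := 1) hX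
      (by rw [h, one_mul])
    exact ⟨i, j, α, β, hij, hab, ha, hb⟩
  have hj : j = 0 := by
    by_contra hj
    apply hb
    rw [hb', mul_coeff_zero, coeff_X_pow]
    rw [if_neg (fun h => hj h.symm), mul_zero]
  have hi : i = 4 := by omega
  have hβ : IsUnit β := IsUnit.of_mul_eq_one α (by rw [mul_comm]; exact hab.symm)
  have hα : IsUnit α := IsUnit.of_mul_eq_one β hab.symm
  rw [hj, pow_zero, mul_one] at hb'
  rw [hi] at ha
  refine ⟨α, ha, hα, ?_, ?_⟩
  · rw [hb']
    exact hβ
  · rw [hb', natDegree_eq_zero_of_isUnit hβ]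

theorem not_deg2 {c0 c1 c2 c3 : A[X]} (n0 : c0 ≠ 0) (d0 : c0.natDegree = 0)
    (d1 : c1.natDegree ≤ 2) (d2 : c2.natDegree ≤ 4) (n33 : c3.coeff 3 ≠ 0) {g h : A[X][X]}
    (e : g * h = C (X ^ 4) * X ^ 4 + C c3 * X ^ 3 + C c2 * X ^ 2 + C c1 * X + C c0)
    (hg : g.natDegree = 2) (hh : h.natDegree = 2) (hh2 : (h.coeff 2).coeff 0 ≠ 0) : False := by
  set g0 := g.coeff 0 with hg0
  set g1 := g.coeff 1 with hg1
  set g2 := g.coeff 2 with hg2
  set h0 := h.coeff 0 with hh0
  set h1 := h.coeff 1 with hh1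
  set h2 := h.coeff 2 with hh2'
  have quad : ∀ f : A[X][X], f.natDegree = 2 →
      f = C (f.coeff 2) * X ^ 2 + C (f.coeff 1) * X + C (f.coeff 0) := by
    intro f hf
    refine Polynomial.ext fun n => ?_
    simp only [coeff_add, coeff_C_mul, coeff_X, coeff_C, coeff_X_pow]
    rcases n with _ | _ | _ | n
    · simp
    · simp
    · simp
    · rw [coeff_eq_zero_of_natDegree_lt (by omega)]
      simp
  have hE : g * h = C (g2 * h2) * X ^ 4 + C (g1 * h2 + g2 * h1) * X ^ 3 +
      C (g0 * h2 + g1 * h1 + g2 * h0) * X ^ 2 + C (g0 * h1 + g1 * h0) * X + C (g0 * h0) := by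
    rw [quad g hg, quad h hh]
    simp only [map_add, map_mul]
    ring
  have E := hE.symm.trans e
  obtain ⟨E4, E3, E2, E1, E0⟩ := quartic_inj E
  obtain ⟨α, hα, hαu, hbu, hb0⟩ := lead_split E4 hh2
  have g0ne : g0 ≠ 0 := fun hz => n0 (by rw [← E0, hz, zero_mul])
  have h0ne : h0 ≠ 0 := fun hz => n0 (by rw [← E0, hz, mul_zero])
  have hs := natDegree_mul g0ne h0ne
  rw [E0, d0] at hs
  have hg2d : g2.natDegree = 4 := by
    rw [hα, natDegree_mul_X_pow _ hαu.ne_zero, natDegree_eq_zero_of_isUnit hαu]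
  have hA : (g0 * h2 + g2 * h0).natDegree ≤ 4 := by
    refine (natDegree_add_le _ _).trans (max_le ?_ ?_)
    · refine natDegree_mul_le.trans ?_
      omega
    · refine natDegree_mul_le.trans ?_
      omega
  have hh1d : h1.natDegree ≤ 2 := by
    by_contra hcon
    have h1ne : h1 ≠ 0 := by
      intro hz
      rw [hz, natDegree_zero] at hcon
      omega
    have k1 : (g1 * h0).natDegree = h1.natDegree := by
      have t : g1 * h0 = c1 - g0 * h1 := by linear_combination E1
      rw [t, natDegree_sub_eq_right_of_natDegree_lt]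
      · rw [natDegree_mul g0ne h1ne]; omega
      · rw [natDegree_mul g0ne h1ne]; omega
    have g1ne : g1 ≠ 0 := by
      intro hz
      rw [hz, zero_mul, natDegree_zero] at k1
      omega
    rw [natDegree_mul g1ne h0ne] at k1
    have k2 : (g1 * h1).natDegree ≤ 4 := by
      have t : g1 * h1 = c2 - (g0 * h2 + g2 * h0) := by linear_combination E2
      rw [t]
      exact (natDegree_sub_le _ _).trans (max_le d2 hA)
    rw [natDegree_mul g1ne h1ne] at k2
    omega
  have hg1d : g1.natDegree ≤ 2 := by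
    have t : g1 * h0 = c1 - g0 * h1 := by linear_combination E1
    refine natDegree_le_of_mul h0ne t ?_
    refine (natDegree_sub_le _ _).trans (max_le d1 ?_)
    refine natDegree_mul_le.trans ?_
    omega
  apply n33
  rw [← E3, coeff_add]
  have e1 : (g1 * h2).coeff 3 = 0 := by
    apply coeff_eq_zero_of_natDegree_lt
    refine lt_of_le_of_lt natDegree_mul_le ?_
    omega
  have e2 : (g2 * h1).coeff 3 = 0 := by
    have t : g2 * h1 = α * h1 * X ^ 4 := by rw [hα]; ring
    rw [t, coeff_mul_X_pow']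
    simp
  rw [e1, e2, add_zero]

theorem not_deg3 {c0 c1 c2 c3 : A[X]} (n0 : c0 ≠ 0) (d0 : c0.natDegree = 0)
    (d1 : c1.natDegree ≤ 2) (d2 : c2.natDegree ≤ 4) (n6 : c3.coeff 6 ≠ 0) {g h : A[X][X]}
    (e : g * h = C (X ^ 4) * X ^ 4 + C c3 * X ^ 3 + C c2 * X ^ 2 + C c1 * X + C c0)
    (hg : g.natDegree = 3) (hh : h.natDegree = 1) (hhl : (h.coeff 1).coeff 0 ≠ 0) : False := by
  set g0 := g.coeff 0 with hg0
  set g1 := g.coeff 1 with hg1
  set g2 := g.coeff 2 with hg2
  set g3 := g.coeff 3 with hg3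
  set h0 := h.coeff 0 with hh0
  set h1 := h.coeff 1 with hh1
  have hG : g = C g3 * X ^ 3 + C g2 * X ^ 2 + C g1 * X + C g0 := by
    refine Polynomial.ext fun n => ?_
    simp only [coeff_add, coeff_C_mul, coeff_X, coeff_C, coeff_X_pow]
    rcases n with _ | _ | _ | _ | n
    · simp [hg0]
    · simp [hg1]
    · simp [hg2]
    · simp [hg3]
    · rw [coeff_eq_zero_of_natDegree_lt (by omega)]
      simp
  have hH : h = C h1 * X + C h0 := linear_form hh
  have hE : g * h = C (g3 * h1) * X ^ 4 + C (g2 * h1 + g3 * h0) * X ^ 3 +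
      C (g1 * h1 + g2 * h0) * X ^ 2 + C (g0 * h1 + g1 * h0) * X + C (g0 * h0) := by
    rw [hG, hH]
    simp only [map_add, map_mul]
    ring
  have E := hE.symm.trans e
  obtain ⟨E4, E3, E2, E1, E0⟩ := quartic_inj E
  obtain ⟨α, hα, hαu, hbu, hb0⟩ := lead_split E4 hhl
  have g0ne : g0 ≠ 0 := fun hz => n0 (by rw [← E0, hz, zero_mul])
  have h0ne : h0 ≠ 0 := fun hz => n0 (by rw [← E0, hz, mul_zero])
  have hs := natDegree_mul g0ne h0ne
  rw [E0, d0] at hs
  have hg3d : g3.natDegree = 4 := by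
    rw [hα, natDegree_mul_X_pow _ hαu.ne_zero, natDegree_eq_zero_of_isUnit hαu]
  have hg1d : g1.natDegree ≤ 2 := by
    have t : g1 * h0 = c1 - g0 * h1 := by linear_combination E1
    refine natDegree_le_of_mul h0ne t ?_
    refine (natDegree_sub_le _ _).trans (max_le d1 ?_)
    refine natDegree_mul_le.trans ?_
    omega
  have hg2d : g2.natDegree ≤ 4 := by
    have t : g2 * h0 = c2 - g1 * h1 := by linear_combination E2
    refine natDegree_le_of_mul h0ne t ?_
    refine (natDegree_sub_le _ _).trans (max_le d2 ?_)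
    refine natDegree_mul_le.trans ?_
    omega
  apply n6
  rw [← E3]
  apply coeff_eq_zero_of_natDegree_lt
  refine lt_of_le_of_lt (natDegree_add_le _ _) (max_lt ?_ ?_)
  · refine lt_of_le_of_lt natDegree_mul_le ?_
    omega
  · refine lt_of_le_of_lt natDegree_mul_le ?_
    omega

/-- **Irreducibility of the quartic** over every domain of constants. -/
theorem irreducible_of' {c0 c1 c2 c3 : A[X]} (n0 : c0 ≠ 0) (d0 : c0.natDegree = 0)
    (d1 : c1.natDegree ≤ 2) (d2 : c2.natDegree ≤ 4) (d3 : c3.natDegree ≤ 6)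
    (n3 : c3.coeff 0 ≠ 0) (n33 : c3.coeff 3 ≠ 0) (n6 : c3.coeff 6 ≠ 0) :
    Irreducible (C (X ^ 4) * X ^ 4 + C c3 * X ^ 3 + C c2 * X ^ 2 + C c1 * X + C c0 : A[X][X]) := by
  have hX4 : (X ^ 4 : A[X]) ≠ 0 := pow_ne_zero 4 X_ne_zero
  have hd4 : (C (X ^ 4) * X ^ 4 + C c3 * X ^ 3 + C c2 * X ^ 2 + C c1 * X + C c0 :
      A[X][X]).natDegree = 4 := by
    compute_degree!
  have hlead : (C (X ^ 4) * X ^ 4 + C c3 * X ^ 3 + C c2 * X ^ 2 + C c1 * X + C c0 :
      A[X][X]).leadingCoeff = X ^ 4 := by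
    rw [leadingCoeff, hd4]
    generalize (X ^ 4 : A[X]) = b
    simp [coeff_X_pow, coeff_C, coeff_X]
  have hred : (C (X ^ 4) * X ^ 4 + C c3 * X ^ 3 + C c2 * X ^ 2 + C c1 * X + C c0 :
      A[X][X]).map constantCoeff = C (c3.coeff 0) * X ^ 3 + C (c2.coeff 0) * X ^ 2 +
      C (c1.coeff 0) * X + C (c0.coeff 0) := by
    simp only [Polynomial.map_add, Polynomial.map_mul, Polynomial.map_pow, map_C, map_X,
      constantCoeff_apply, map_pow, coeff_X_zero]
    simp
  have hd3 : (C (c3.coeff 0) * X ^ 3 + C (c2.coeff 0) * X ^ 2 +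
      C (c1.coeff 0) * X + C (c0.coeff 0) : A[X]).natDegree = 3 := by
    compute_degree!
  have key : ∀ g h : A[X][X], g * h = C (X ^ 4) * X ^ 4 + C c3 * X ^ 3 + C c2 * X ^ 2 +
      C c1 * X + C c0 → g.natDegree + h.natDegree = 4 ∧
      (g.map constantCoeff).natDegree + (h.map constantCoeff).natDegree = 3 := by
    intro g h e
    have hne : g * h ≠ 0 := by
      intro h0
      rw [e] at h0
      rw [h0] at hd4
      simp at hd4
    have hsum := natDegree_mul (left_ne_zero_of_mul hne) (right_ne_zero_of_mul hne)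
    rw [e, hd4] at hsum
    have hmm : g.map constantCoeff * h.map constantCoeff = C (c3.coeff 0) * X ^ 3 +
        C (c2.coeff 0) * X ^ 2 + C (c1.coeff 0) * X + C (c0.coeff 0) := by
      rw [← Polynomial.map_mul, e, hred]
    have hmne : g.map constantCoeff * h.map constantCoeff ≠ 0 := by
      intro h0
      rw [hmm] at h0
      rw [h0] at hd3
      simp at hd3
    have hms := natDegree_mul (left_ne_zero_of_mul hmne) (right_ne_zero_of_mul hmne)
    rw [hmm, hd3] at hms
    exact ⟨hsum.symm, hms.symm⟩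
  have main : ∀ g h : A[X][X], g * h = C (X ^ 4) * X ^ 4 + C c3 * X ^ 3 + C c2 * X ^ 2 +
      C c1 * X + C c0 → (h.map constantCoeff).natDegree = h.natDegree → 0 < h.natDegree →
      g.natDegree = 0 := by
    intro g h e hz hpos
    obtain ⟨hsum, hms⟩ := key g h e
    have hc : (h.coeff h.natDegree).coeff 0 ≠ 0 := by
      have h5 : (h.map constantCoeff).coeff (h.map constantCoeff).natDegree ≠ 0 := by
        rw [coeff_natDegree]
        apply leadingCoeff_ne_zero.2
        intro h0
        rw [h0, natDegree_zero] at hz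
        omega
      rw [hz] at h5
      rwa [coeff_map, constantCoeff_apply] at h5
    by_contra hcon
    have hcase : h.natDegree = 1 ∨ h.natDegree = 2 ∨ h.natDegree = 3 := by omega
    rcases hcase with hh | hh | hh
    · rw [hh] at hc
      exact not_deg3 n0 d0 d1 d2 n6 e (by omega) hh hc
    · rw [hh] at hc
      exact not_deg2 n0 d0 d1 d2 n33 e (by omega) hh hc
    · rw [hh] at hc
      exact not_deg1 n0 d0 d1 d2 d3 e (by omega) hh hc
  refine ⟨?_, ?_⟩
  · intro hu
    rw [natDegree_eq_zero_of_isUnit hu] at hd4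
    omega
  · intro g h e
    obtain ⟨hsum, hms⟩ := key g h e.symm
    have l1 := natDegree_map_le (p := g) (f := (constantCoeff : A[X] →+* A))
    have l2 := natDegree_map_le (p := h) (f := (constantCoeff : A[X] →+* A))
    have e' : h * g = C (X ^ 4) * X ^ 4 + C c3 * X ^ 3 + C c2 * X ^ 2 + C c1 * X + C c0 := by
      rw [mul_comm]
      exact e.symm
    have hcase : (h.map constantCoeff).natDegree = h.natDegree ∨
        (g.map constantCoeff).natDegree = g.natDegree := by omega
    rcases hcase with hc | hc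
    · rcases Nat.eq_zero_or_pos h.natDegree with hz | hz
      · exact Or.inr (unit_of_deg0 n0 d0 e' (by rw [e', hlead]) hz)
      · exact Or.inl (unit_of_deg0 n0 d0 e.symm (by rw [e.symm, hlead]) (main g h e.symm hc hz))
    · rcases Nat.eq_zero_or_pos g.natDegree with hz | hz
      · exact Or.inl (unit_of_deg0 n0 d0 e.symm (by rw [e.symm, hlead]) hz)
      · exact Or.inr (unit_of_deg0 n0 d0 e' (by rw [e', hlead]) (main h g e' hc hz))

/-- **The quartic is irreducible** over every domain of constants. -/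
theorem irr_qf {U V a c e m P R : A} (hP : P ≠ 0) (hR : R ≠ 0) (h0 : b0 U V a c e m P R ≠ 0)
    (h33 : c33 U V a c e m P R ≠ 0) : Irreducible (qf (C (C U)) (C (C V)) (C (C a)) (C (C c))
      (C (C e)) (C (C m)) (C (C P)) (C (C R)) (C X) (X : A[X][X])) := by
  rw [qf_poly]
  refine irreducible_of' (C_ne_zero.2 (pow_ne_zero 2 h0)) (natDegree_C _) (by compute_degree)
    (by compute_degree) (by compute_degree) ?_ ?_ ?_
  · have : c30 U V a c e m P R ≠ 0 := pow_ne_zero 2 hP
    simpa [coeff_X_pow, coeff_X, coeff_C] using this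
  · simpa [coeff_X_pow, coeff_X, coeff_C] using h33
  · have : c36 U V a c e m P R ≠ 0 := pow_ne_zero 2 hR
    simpa [coeff_X_pow, coeff_X, coeff_C] using this

end quartic

end Vale.Agent.P297.H160.Z2Irr
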