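import Vale.Agent.P297.H160.Z3IrrC
import Mathlib.RingTheory.Nullstellensatz

/-!
General numerical Godeaux surfaces with torsion of order three: the equation of the image of the
surface in the space of `(s, u, v)` is irreducible as soon as the two pencils of binary forms have
no common zero.
-/

set_option linter.unusedSectionVars false
set_option linter.unusedSimpArgs false

open Polynomial

namespace Vale.Agent.P297.H160.Z3Irr

open Vale.Agent.P297.H288

section general

variable {A : Type*} [CommRing A] [IsDomain A] [CharZero A]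

theorem coeff_zero_of_parity {f : A[X]} {n i : ℕ} (h : f.comp (-X) = (-1) ^ n * f)
    (hi : Odd (n + i)) : f.coeff i = 0 := by
  have h1 := congrArg (fun p => Polynomial.coeff p i) h
  simp only [comp_neg_coeff] at h1
  have h2 : ((-1 : A[X]) ^ n * f).coeff i = (-1) ^ n * f.coeff i := by
    have : ((-1 : A[X]) ^ n) = C ((-1) ^ n) := by rw [map_pow, map_neg, map_one]
    rw [this, Polynomial.coeff_C_mul]
  rw [h2] at h1
  rcases Nat.even_or_odd i with hi' | hi'
  · have hn : Odd n := by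
      rcases Nat.even_or_odd n with hn | hn
      · exact absurd (hn.add hi') (Nat.not_even_iff_odd.2 hi)
      · exact hn
    rw [hi'.neg_one_pow, hn.neg_one_pow] at h1
    have h3 : (2 : A) * f.coeff i = 0 := by linear_combination h1
    exact (mul_eq_zero.1 h3).resolve_left two_ne_zero
  · have hn : Even n := by
      rcases Nat.even_or_odd n with hn | hn
      · exact hn
      · exact absurd (hn.add_odd hi') (Nat.not_even_iff_odd.2 hi)
    rw [hi'.neg_one_pow, hn.neg_one_pow] at h1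
    have h3 : (2 : A) * f.coeff i = 0 := by linear_combination -h1
    exact (mul_eq_zero.1 h3).resolve_left two_ne_zero

/-- A polynomial of odd degree with parity vanishes at zero. -/
theorem coeff_zero_of_odd {f : A[X]} {n : ℕ} (h : f.comp (-X) = (-1) ^ n * f) (hf : f ≠ 0)
    (hd : Odd f.natDegree) : f.coeff 0 = 0 := by
  rcases Nat.even_or_odd n with hn | hn
  · exact absurd (coeff_zero_of_parity h (hn.add_odd hd)) (by
      rw [Polynomial.coeff_natDegree]; exact Polynomial.leadingCoeff_ne_zero.2 hf)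
  · exact coeff_zero_of_parity h (by simpa using hn)

theorem coeff_one_of_even {f : A[X]} {n : ℕ} (h : f.comp (-X) = (-1) ^ n * f) (hf : f ≠ 0)
    (hd : Even f.natDegree) : f.coeff 1 = 0 := by
  rcases Nat.even_or_odd n with hn | hn
  · exact coeff_zero_of_parity h (hn.add_odd odd_one)
  · exact absurd (coeff_zero_of_parity h (hn.add_even hd)) (by
      rw [Polynomial.coeff_natDegree]; exact Polynomial.leadingCoeff_ne_zero.2 hf)

theorem coeffs_mul {f g : A[X]} (hf : f.natDegree ≤ 2) (hg : g.natDegree ≤ 2)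
    (hf1 : f.coeff 1 = 0) :
    (f * g).coeff 4 = f.coeff 2 * g.coeff 2 ∧ (f * g).coeff 0 = f.coeff 0 * g.coeff 0 ∧
      (f * g).coeff 2 = f.coeff 2 * g.coeff 0 + f.coeff 0 * g.coeff 2 := by
  refine ⟨?_, Polynomial.mul_coeff_zero _ _, ?_⟩
  · exact Polynomial.coeff_mul_add_eq_of_natDegree_le hf hg
  · rw [Polynomial.coeff_mul]
    rw [show Finset.antidiagonal 2 = {(0, 2), (1, 1), (2, 0)} from rfl]
    rw [Finset.sum_insert (by decide), Finset.sum_insert (by decide), Finset.sum_singleton]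
    simp only [hf1, zero_mul, zero_add]
    ring

theorem biq_coeff (a b c : A) : (C a * X ^ 4 + C b * X ^ 2 + C c : A[X]).coeff 4 = a ∧
    (C a * X ^ 4 + C b * X ^ 2 + C c : A[X]).coeff 2 = b ∧
    (C a * X ^ 4 + C b * X ^ 2 + C c : A[X]).coeff 0 = c := by
  refine ⟨?_, ?_, ?_⟩ <;>
  simp [Polynomial.coeff_X_pow, Polynomial.coeff_C]

end general

section numbers

variable (P : Par)

theorem topM_eq : topM P = C (3 * A0 P (X : ℂ[X])) * X ^ 4 +
    C (9 * (B0 P (X : ℂ[X]) - (X + 1) * A0 P X)) * X ^ 2 + C (A0 P X ^ 2) := by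
  have h1 : algebraMap ℂ ℂ[X] = C := rfl
  unfold topM cT A0 B0
  rw [h1]
  simp only [map_add, map_sub, map_mul, map_pow, map_neg, map_ofNat, map_one]

theorem A0_ne : A0 P (X : ℂ[X]) ≠ 0 := by
  intro h
  have h1 := congrArg (fun p => Polynomial.coeff p 2) h
  have h2 : algebraMap ℂ ℂ[X] = C := rfl
  unfold A0 at h1
  rw [h2] at h1
  have h3 : (3 * X ^ 2 - C (P.z 3) * X - C (P.z 1) : ℂ[X]).coeff 2 = 3 := by
    simp [Polynomial.coeff_X, Polynomial.coeff_C, Polynomial.coeff_ofNat_mul]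
  rw [h3] at h1
  norm_num at h1

theorem disc_natDegree :
    (3 * (27 * (B0 P (X : ℂ[X]) - (X + 1) * A0 P X) ^ 2 - 4 * A0 P X ^ 3)).natDegree = 5 := by
  have h2 : algebraMap ℂ ℂ[X] = C := rfl
  have h := disc_expand (X : ℂ[X]) (C (P.z 1)) (C (P.z 3)) (C (P.t 1)) (C (P.t 3))
  unfold A0 B0
  rw [h2, h]
  have e : (3 * (324 * X ^ 5 +
      C (-9 * P.z 3 ^ 2 - 270 * P.z 3 + 108 * P.t 3 + 243) * X ^ 4 +
      C (-18 * P.z 1 * P.z 3 - 270 * P.z 1 + 4 * P.z 3 ^ 3 + 54 * P.z 3 ^ 2 - 54 * P.z 3 * P.t 3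
        - 162 * P.z 3 + 108 * P.t 1 + 162 * P.t 3) * X ^ 3 +
      C (-9 * P.z 1 ^ 2 + 12 * P.z 1 * P.z 3 ^ 2 + 108 * P.z 1 * P.z 3 - 54 * P.z 1 * P.t 3 - 162
        * P.z 1 + 27 * P.z 3 ^ 2 - 54 * P.z 3 * P.t 1 - 54 * P.z 3 * P.t 3 + 162 * P.t 1 + 27 *
        P.t 3 ^ 2) * X ^ 2 +
      C (12 * P.z 1 ^ 2 * P.z 3 + 54 * P.z 1 ^ 2 + 54 * P.z 1 * P.z 3 - 54 * P.z 1 * P.t 1 - 54 *
        P.z 1 * P.t 3 - 54 * P.z 3 * P.t 1 + 54 * P.t 1 * P.t 3) * X +
      C (4 * P.z 1 ^ 3 + 27 * P.z 1 ^ 2 - 54 * P.z 1 * P.t 1 + 27 * P.t 1 ^ 2)) : ℂ[X]).natDegree = 5 := by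
    compute_degree!
  simp only [map_add, map_sub, map_mul, map_pow, map_neg, map_ofNat] at e
  exact e

theorem disc_not_sq (w : ℂ[X]) :
    w ^ 2 ≠ 3 * (27 * (B0 P (X : ℂ[X]) - (X + 1) * A0 P X) ^ 2 - 4 * A0 P X ^ 3) := by
  intro h
  have h1 := congrArg Polynomial.natDegree h
  rw [disc_natDegree, Polynomial.natDegree_pow] at h1
  omega

theorem topM_coeff4 : (topM P).coeff 4 = 3 * A0 P (X : ℂ[X]) := by
  rw [topM_eq]
  exact (biq_coeff _ _ _).1

theorem topM_coeff2 : (topM P).coeff 2 = 9 * (B0 P (X : ℂ[X]) - (X + 1) * A0 P X) := by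
  rw [topM_eq]
  exact (biq_coeff _ _ _).2.1

theorem topM_coeff0 : (topM P).coeff 0 = A0 P (X : ℂ[X]) ^ 2 := by
  rw [topM_eq]
  exact (biq_coeff _ _ _).2.2

theorem topM_natDegree : (topM P).natDegree = 4 := by
  refine Polynomial.natDegree_eq_of_le_of_coeff_ne_zero ?_ ?_
  · rw [topM_eq]
    compute_degree
  · rw [topM_coeff4]
    exact mul_ne_zero (by norm_num) (A0_ne P)

theorem Psi_hP_natDegree : (Psi (hP P)).natDegree ≤ 8 := by
  rw [Psi_hP]
  compute_degree

theorem Psi_hP_coeff : (Psi (hP P)).coeff 8 = -topM P := by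
  rw [Psi_hP]
  have h : (-C (topM P) * X ^ 8 + C (low P c7) * X ^ 7 + C (low P c6) * X ^ 6 +
    C (low P c5) * X ^ 5 + C (low P c4) * X ^ 4 + C (low P c3) * X ^ 3 + C (low P c2) * X ^ 2 +
    C (low P c1) * X + C (low P c0) : ℂ[X][X][X]) = C (-topM P) * X ^ 8 + (C (low P c7) * X ^ 7 +
    C (low P c6) * X ^ 6 +
    C (low P c5) * X ^ 5 + C (low P c4) * X ^ 4 + C (low P c3) * X ^ 3 + C (low P c2) * X ^ 2 +
    C (low P c1) * X + C (low P c0)) := by
    rw [map_neg]
    simp only [add_assoc]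
  have h7 : (C (low P c7) * X ^ 7 + C (low P c6) * X ^ 6 +
    C (low P c5) * X ^ 5 + C (low P c4) * X ^ 4 + C (low P c3) * X ^ 3 + C (low P c2) * X ^ 2 +
    C (low P c1) * X + C (low P c0) : ℂ[X][X][X]).natDegree ≤ 7 := by
    compute_degree
  rw [h, Polynomial.coeff_add, Polynomial.coeff_C_mul, Polynomial.coeff_X_pow_self,
    Polynomial.coeff_eq_zero_of_natDegree_lt (lt_of_le_of_lt h7 (by norm_num)), mul_one, add_zero]

theorem topM_ne : topM P ≠ 0 := by
  intro h
  have := topM_natDegree P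
  rw [h, Polynomial.natDegree_zero] at this
  omega

theorem Psi_hP_lead : (Psi (hP P)).leadingCoeff = -topM P := by
  have h : (Psi (hP P)).natDegree = 8 :=
    Polynomial.natDegree_eq_of_le_of_coeff_ne_zero (Psi_hP_natDegree P)
      (by rw [Psi_hP_coeff]; exact neg_ne_zero.2 (topM_ne P))
  rw [Polynomial.leadingCoeff, h, Psi_hP_coeff]

/-- degree in `s` of the polynomial -/
theorem es_hP_natDegree : (es (hP P)).natDegree ≤ 4 := by
  have h1 : es (hP P) = fH P (X : (MvPolynomial (Fin 2) ℂ)[X]) (C (MvPolynomial.X 0))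
      (C (MvPolynomial.X 1)) := by
    unfold hP
    have h2 := map_fH P (es : MvPolynomial (Fin 3) ℂ →ₐ[ℂ] Polynomial (MvPolynomial (Fin 2) ℂ))
      (MvPolynomial.X 0) (MvPolynomial.X 1) (MvPolynomial.X 2)
    have h3 : es (MvPolynomial.X 0) = X := by
      unfold es
      exact MvPolynomial.finSuccEquiv_X_zero
    have h4 : es (MvPolynomial.X 1) = C (MvPolynomial.X 0) := by
      unfold es
      exact MvPolynomial.finSuccEquiv_X_succ (j := 0)
    have h5 : es (MvPolynomial.X 2) = C (MvPolynomial.X 1) := by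
      unfold es
      exact MvPolynomial.finSuccEquiv_X_succ (j := 1)
    have h6 : es (fH P (MvPolynomial.X 0) (MvPolynomial.X 1) (MvPolynomial.X 2)) = _ := h2
    rw [h6]
    show fH P (es (MvPolynomial.X 0)) (es (MvPolynomial.X 1)) (es (MvPolynomial.X 2)) = _
    rw [h3, h4, h5]
  have hC : ∀ r : ℂ, algebraMap ℂ (MvPolynomial (Fin 2) ℂ)[X] r = C (MvPolynomial.C r) :=
    fun r => rfl
  rw [h1]
  unfold fH fU fV A0 A2 B0 B2 qQ
  simp only [hC]
  compute_degree

/-- The polynomial in `s` does not vanish at any pair of numbers `u`, `v`. -/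
theorem fH_ne (h0 : ∀ c : ℂ, A0 P c = 0 → B0 P c ≠ 0) (h2 : ∀ c : ℂ, A2 P c = 0 → B2 P c ≠ 0)
    (u v : ℂ) : ∃ s : ℂ, fH P s u v ≠ 0 := by
  by_contra hc
  have hc : ∀ s : ℂ, fH P s u v = 0 := fun s => by_contra fun h => hc ⟨s, h⟩
  by_cases ha0 : A0 P u = 0
  · have hb0 := h0 u ha0
    by_cases ha2 : A2 P v = 0
    · have hb2 := h2 v ha2
      have e0 := hc 0
      have e1 := hc 1
      have e2 := hc 2
      unfold fH fU fV at e0 e1 e2
      rw [ha0, ha2] at e0 e1 e2
      have : B0 P u * B2 P v = 0 := by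
        unfold qQ at e0 e1 e2
        linear_combination (-1 / 18 : ℂ) * (e2 - 2 * e1 + e0)
      exact (mul_ne_zero hb0 hb2) this
    · have e0 := hc 0
      have e1 := hc 1
      have e2 := hc 2
      have e3 := hc 3
      unfold fH fU fV at e0 e1 e2 e3
      rw [ha0] at e0 e1 e2 e3
      have : B0 P u * A2 P v = 0 := by
        unfold qQ at e0 e1 e2 e3
        linear_combination (-1 / 18 : ℂ) * (e3 - 3 * e2 + 3 * e1 - e0)
      exact (mul_ne_zero hb0 ha2) this
  · by_cases ha2 : A2 P v = 0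
    · have hb2 := h2 v ha2
      have e0 := hc 0
      have e1 := hc 1
      have e2 := hc 2
      have e3 := hc 3
      unfold fH fU fV at e0 e1 e2 e3
      rw [ha2] at e0 e1 e2 e3
      have : B2 P v * A0 P u = 0 := by
        unfold qQ at e0 e1 e2 e3
        linear_combination (-1 / 18 : ℂ) * (e3 - 3 * e2 + 3 * e1 - e0)
      exact (mul_ne_zero hb2 ha0) this
    · have e0 := hc 0
      have e1 := hc 1
      have e2 := hc 2
      have e3 := hc (-1)
      have e4 := hc (-2)
      unfold fH fU fV at e0 e1 e2 e3 e4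
      have : A0 P u * A2 P v = 0 := by
        unfold qQ at e0 e1 e2 e3 e4
        linear_combination (-1 / 24 : ℂ) * (e2 - 4 * e1 + 6 * e0 - 4 * e3 + e4)
      exact (mul_ne_zero ha0 ha2) this

end numbers

/-- A polynomial without zeros is a unit. -/
theorem isUnit_of_no_zero {f : MvPolynomial (Fin 2) ℂ}
    (h : ∀ x : Fin 2 → ℂ, MvPolynomial.aeval x f ≠ 0) : IsUnit f := by
  have h1 : MvPolynomial.zeroLocus ℂ (Ideal.span {f}) = (∅ : Set (Fin 2 → ℂ)) := by
    rw [MvPolynomial.zeroLocus_span]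
    ext x
    simp only [Set.mem_singleton_iff, forall_eq, Set.mem_ofPred_eq, Set.mem_empty_iff_false,
      iff_false]
    exact h x
  have h2 := MvPolynomial.vanishingIdeal_zeroLocus_eq_radical (k := ℂ) (K := ℂ) (Ideal.span {f})
  rw [h1, MvPolynomial.vanishingIdeal_empty] at h2
  have h3 : Ideal.span {f} = ⊤ := Ideal.radical_eq_top.1 h2.symm
  exact Ideal.span_singleton_eq_top.1 h3

theorem es_eval (F : MvPolynomial (Fin 3) ℂ) (s : ℂ) (x : Fin 2 → ℂ) :
    ((es F).map (MvPolynomial.aeval x : MvPolynomial (Fin 2) ℂ →ₐ[ℂ] ℂ).toRingHom).eval s =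
      MvPolynomial.aeval ![s, x 0, x 1] F := by
  have h : ((Polynomial.evalRingHom s).comp (Polynomial.mapRingHom
      (MvPolynomial.aeval x : MvPolynomial (Fin 2) ℂ →ₐ[ℂ] ℂ).toRingHom)).comp
        (es : MvPolynomial (Fin 3) ℂ →+* _) =
      ((MvPolynomial.aeval ![s, x 0, x 1] : MvPolynomial (Fin 3) ℂ →ₐ[ℂ] ℂ) :
        MvPolynomial (Fin 3) ℂ →+* ℂ) := by
    refine MvPolynomial.ringHom_ext ?_ ?_
    · intro r
      have h1 : es (MvPolynomial.C r) = C (MvPolynomial.C r) := by
        unfold es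
        have := congrArg (fun g => g r) (MvPolynomial.finSuccEquiv_comp_C_eq_C (R := ℂ) 2)
        have h5 : (MvPolynomial.finSuccEquiv ℂ 2).symm (C (MvPolynomial.C r)) = MvPolynomial.C r :=
          this
        rw [← h5, AlgEquiv.apply_symm_apply]
      rw [RingHom.comp_apply, RingHom.comp_apply, RingHom.coe_coe, RingHom.coe_coe, h1]
      simp
    · intro i
      rw [RingHom.comp_apply, RingHom.comp_apply, RingHom.coe_coe, RingHom.coe_coe]
      refine Fin.cases ?_ (fun j => ?_) i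
      · have h1 : es (MvPolynomial.X 0) = X := by
          unfold es
          exact MvPolynomial.finSuccEquiv_X_zero
        rw [h1]
        simp
      · have h1 : es (MvPolynomial.X j.succ) = C (MvPolynomial.X j) := by
          unfold es
          exact MvPolynomial.finSuccEquiv_X_succ
        rw [h1]
        fin_cases j <;> simp
  exact congrArg (fun g => g F) h

theorem isUnit_of_natDegree {P : Par} (h0 : ∀ c : ℂ, A0 P c = 0 → B0 P c ≠ 0)
    (h2 : ∀ c : ℂ, A2 P c = 0 → B2 P c ≠ 0) {F G : MvPolynomial (Fin 3) ℂ} (h : hP P = F * G)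
    (hF : (es F).natDegree = 0) : IsUnit F := by
  have h3 : es F = C ((es F).coeff 0) := Polynomial.eq_C_of_natDegree_eq_zero hF
  have h4 : IsUnit ((es F).coeff 0) := by
    refine isUnit_of_no_zero fun x hx => ?_
    obtain ⟨s, hs⟩ := fH_ne P h0 h2 (x 0) (x 1)
    apply hs
    have h5 : fH P s (x 0) (x 1) = MvPolynomial.aeval ![s, x 0, x 1] (hP P) :=
      (aeval_hP P ![s, x 0, x 1]).symm
    rw [h5, h, map_mul, ← es_eval F s x, h3, Polynomial.map_C, Polynomial.eval_C]
    have h6 : (MvPolynomial.aeval x : MvPolynomial (Fin 2) ℂ →ₐ[ℂ] ℂ).toRingHom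
        ((es F).coeff 0) = 0 := hx
    rw [h6, zero_mul]
  have h5 : IsUnit (es F) := by
    rw [h3]
    exact Polynomial.isUnit_C.2 h4
  exact (MulEquiv.isUnit_map es).1 h5

/-- **Irreducibility.** -/
theorem irr_of_free (P : Par) (h0 : ∀ c : ℂ, A0 P c = 0 → B0 P c ≠ 0)
    (h2 : ∀ c : ℂ, A2 P c = 0 → B2 P c ≠ 0) : Irreducible (hP P) := by
  have key : ∀ F G : MvPolynomial (Fin 3) ℂ, hP P = F * G → F ≠ 0 ∧ G ≠ 0 ∧
      (Psi F).leadingCoeff * (Psi G).leadingCoeff = -topM P ∧
      (Psi F).leadingCoeff.natDegree = (es F).natDegree ∧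
      (Psi G).leadingCoeff.natDegree = (es G).natDegree ∧
      (es F).natDegree + (es G).natDegree = 4 := by
    intro F G h
    have hne : hP P ≠ 0 := by
      intro hz
      have := topM_ne P
      apply this
      rw [← neg_eq_zero, ← Psi_hP_coeff, hz, map_zero, Polynomial.coeff_zero]
    have hF : F ≠ 0 := by
      rintro rfl
      exact hne (by rw [h, zero_mul])
    have hG : G ≠ 0 := by
      rintro rfl
      exact hne (by rw [h, mul_zero])
    have hmul : (Psi F).leadingCoeff * (Psi G).leadingCoeff = -topM P := by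
      rw [← Polynomial.leadingCoeff_mul, ← map_mul, ← h, Psi_hP_lead]
    have h5 : (es F).natDegree + (es G).natDegree ≤ 4 := by
      have h6 := es_hP_natDegree P
      rwa [h, map_mul, Polynomial.natDegree_mul ((map_ne_zero_iff es es.injective).2 hF)
        ((map_ne_zero_iff es es.injective).2 hG)] at h6
    have h7 : (Psi F).leadingCoeff.natDegree ≤ (es F).natDegree := coeff_deg F _
    have h8 : (Psi G).leadingCoeff.natDegree ≤ (es G).natDegree := coeff_deg G _
    have h9 : (Psi F).leadingCoeff ≠ 0 := by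
      intro hz
      rw [hz, zero_mul] at hmul
      exact neg_ne_zero.2 (topM_ne P) hmul.symm
    have h10 : (Psi G).leadingCoeff ≠ 0 := by
      intro hz
      rw [hz, mul_zero] at hmul
      exact neg_ne_zero.2 (topM_ne P) hmul.symm
    have h11 : (Psi F).leadingCoeff.natDegree + (Psi G).leadingCoeff.natDegree = 4 := by
      rw [← Polynomial.natDegree_mul h9 h10, hmul, Polynomial.natDegree_neg, topM_natDegree]
    exact ⟨hF, hG, hmul, by omega, by omega, by omega⟩
  refine ⟨?_, ?_⟩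
  · intro hu
    obtain ⟨G, hG⟩ := hu.exists_left_inv
    obtain ⟨-, -, -, -, -, h6⟩ := key (hP P) 1 (by rw [mul_one])
    have h7 : (es (1 : MvPolynomial (Fin 3) ℂ)).natDegree = 0 := by
      rw [map_one, Polynomial.natDegree_one]
    have h8 : (es (hP P)).natDegree = 0 := by
      have h9 : IsUnit (es (hP P)) := hu.map es
      exact Polynomial.natDegree_eq_zero_of_isUnit h9
    omega
  · intro F G h
    obtain ⟨hF, hG, hmul, hdF, hdG, hsum⟩ := key F G h
    have pF := parity F (Psi F).natDegree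
    have pG := parity G (Psi G).natDegree
    rw [Polynomial.coeff_natDegree] at pF pG
    have hF0 : (Psi F).leadingCoeff ≠ 0 := by
      intro hz
      rw [hz, zero_mul] at hmul
      exact neg_ne_zero.2 (topM_ne P) hmul.symm
    have hG0 : (Psi G).leadingCoeff ≠ 0 := by
      intro hz
      rw [hz, mul_zero] at hmul
      exact neg_ne_zero.2 (topM_ne P) hmul.symm
    have hc0 : (Psi F).leadingCoeff.coeff 0 * (Psi G).leadingCoeff.coeff 0 =
        -(A0 P (X : ℂ[X]) ^ 2) := by
      rw [← Polynomial.mul_coeff_zero, hmul, Polynomial.coeff_neg, topM_coeff0]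
    have hA := A0_ne P
    have hodd : ¬ Odd (es F).natDegree := by
      intro ho
      have h1 := coeff_zero_of_odd pF hF0 (by rw [hdF]; exact ho)
      rw [h1, zero_mul] at hc0
      exact neg_ne_zero.2 (pow_ne_zero 2 hA) hc0.symm
    have hcase : (es F).natDegree = 0 ∨ (es G).natDegree = 0 ∨
        ((es F).natDegree = 2 ∧ (es G).natDegree = 2) := by
      rw [Nat.odd_iff] at hodd
      omega
    rcases hcase with h1 | h1 | ⟨h1, h1'⟩
    · exact Or.inl (isUnit_of_natDegree h0 h2 h h1)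
    · exact Or.inr (isUnit_of_natDegree h0 h2 (h.trans (mul_comm _ _)) h1)
    · exfalso
      have f1 := coeff_one_of_even pF hF0 (by rw [hdF, h1]; exact even_two)
      obtain ⟨e4, e0, e2⟩ := coeffs_mul (f := (Psi F).leadingCoeff) (g := (Psi G).leadingCoeff)
        (by rw [hdF, h1]) (by rw [hdG, h1']) f1
      rw [hmul, Polynomial.coeff_neg, topM_coeff4] at e4
      rw [hmul, Polynomial.coeff_neg, topM_coeff0] at e0
      rw [hmul, Polynomial.coeff_neg, topM_coeff2] at e2
      refine disc_not_sq P ((Psi F).leadingCoeff.coeff 2 * (Psi G).leadingCoeff.coeff 0 -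
        (Psi F).leadingCoeff.coeff 0 * (Psi G).leadingCoeff.coeff 2) ?_
      have e5 : ((Psi F).leadingCoeff.coeff 2 * (Psi G).leadingCoeff.coeff 0 -
          (Psi F).leadingCoeff.coeff 0 * (Psi G).leadingCoeff.coeff 2) ^ 2 =
          ((Psi F).leadingCoeff.coeff 2 * (Psi G).leadingCoeff.coeff 0 +
            (Psi F).leadingCoeff.coeff 0 * (Psi G).leadingCoeff.coeff 2) ^ 2 -
          4 * ((Psi F).leadingCoeff.coeff 2 * (Psi G).leadingCoeff.coeff 2) *
            ((Psi F).leadingCoeff.coeff 0 * (Psi G).leadingCoeff.coeff 0) := by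
        ring
      rw [e5, ← e4, ← e0, ← e2]
      ring

end Vale.Agent.P297.H160.Z3Irr
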