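import Vale.Agent.P297.H288.Z3Pts

/-!
General numerical Godeaux surfaces with torsion of order three: the equation of the image of the
surface in the space of `(s, u, v)` is irreducible as soon as the two pencils of binary forms have
no common zero.
-/

set_option linter.unusedSectionVars false
set_option linter.unusedSimpArgs false
set_option linter.style.longLine false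
set_option linter.unusedVariables false

open Polynomial

namespace Vale.Agent.P297.H160.Z3Irr

open Vale.Agent.P297.H288

section expansion

variable {R : Type*} [CommRing R]

def c0 (a b z0 z1 z2 z3 t0 t1 t2 t3 : R) : R :=
  -b ^ 4 * z0 ^ 2 - b ^ 3 * z0 * z3 * t3 + 6 * b ^ 3 * z0 * t0 + b ^ 3 * z3 ^ 2 * t0 + b ^ 2 *
  z0 ^ 2 * t3 - b ^ 2 * z0 * z1 * t3 - b ^ 2 * z0 * z3 * t0 - b ^ 2 * z0 * z3 * t1 + 3 * b ^ 2 *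
  z0 * t3 ^ 2 + 2 * b ^ 2 * z1 * z3 * t0 - 3 * b ^ 2 * z3 * t0 * t3 - 9 * b ^ 2 * t0 ^ 2 + b *
  z0 ^ 2 * t1 - b * z0 * z1 * t0 - b * z0 * z1 * t1 - 3 * b * z0 * t0 * t3 + 6 * b * z0 * t1 *
  t3 + b * z1 ^ 2 * t0 - 3 * b * z1 * t0 * t3 + 3 * b * z3 * t0 ^ 2 - 3 * b * z3 * t0 * t1 - 3 *
  z0 * t0 * t1 + 3 * z0 * t1 ^ 2 + 3 * z1 * t0 ^ 2 - 3 * z1 * t0 * t1

def c1 (a b z0 z1 z2 z3 t0 t1 t2 t3 : R) : R :=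
  a * b ^ 3 * z0 ^ 2 - 3 * a * b ^ 3 * z0 * z3 - 3 * a * b ^ 3 * z0 * t3 + 6 * a * b ^ 3 * z3 *
  t0 - 3 * a * b ^ 2 * z0 * z1 + a * b ^ 2 * z0 * z3 * t3 - 3 * a * b ^ 2 * z0 * t0 - 3 * a * b
  ^ 2 * z0 * t1 + 9 * a * b ^ 2 * z0 * t3 + 6 * a * b ^ 2 * z1 * t0 - a * b ^ 2 * z3 ^ 2 * t0 +
  9 * a * b ^ 2 * z3 * t0 - 9 * a * b ^ 2 * t0 * t3 - a * b * z0 ^ 2 * t3 + a * b * z0 * z1 * t3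
  + a * b * z0 * z3 * t0 + a * b * z0 * z3 * t1 + 9 * a * b * z0 * t1 - 2 * a * b * z1 * z3 * t0
  + 9 * a * b * z1 * t0 - 9 * a * b * t0 * t1 - 27 * a * b * t0 * t3 - a * z0 ^ 2 * t1 + a * z0
  * z1 * t0 + a * z0 * z1 * t1 - a * z1 ^ 2 * t0 - 27 * a * t0 * t1

def c2 (a b z0 z1 z2 z3 t0 t1 t2 t3 : R) : R :=
  -9 * a ^ 2 * b ^ 3 * z0 + 9 * a ^ 2 * b ^ 3 * t0 + 6 * a ^ 2 * b ^ 2 * z0 * z3 + 27 * a ^ 2 *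
  b ^ 2 * t0 + 6 * a ^ 2 * b * z0 * z1 - 9 * a ^ 2 * b * z0 * t3 - 9 * a ^ 2 * b * z3 * t0 - 9 *
  a ^ 2 * b * t0 * t3 - 9 * a ^ 2 * z0 * t1 - 9 * a ^ 2 * z1 * t0 - 9 * a ^ 2 * t0 * t1 - 2 * b
  ^ 4 * z0 * z2 - b ^ 3 * z0 ^ 2 + 6 * b ^ 3 * z0 * t2 + 3 * b ^ 3 * z0 * t3 - b ^ 3 * z2 * z3 *
  t3 + 6 * b ^ 3 * z2 * t0 + b ^ 3 * z3 ^ 2 * t2 - 6 * b ^ 3 * z3 * t0 + 2 * b ^ 2 * z0 * z2 *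
  t3 - b ^ 2 * z0 * z3 * t2 - b ^ 2 * z0 * z3 * t3 + 3 * b ^ 2 * z0 * t0 + 3 * b ^ 2 * z0 * t1 -
  b ^ 2 * z1 * z2 * t3 + 2 * b ^ 2 * z1 * z3 * t2 - 6 * b ^ 2 * z1 * t0 - b ^ 2 * z2 * z3 * t0 -
  b ^ 2 * z2 * z3 * t1 + 3 * b ^ 2 * z2 * t3 ^ 2 + b ^ 2 * z3 ^ 2 * t0 - 3 * b ^ 2 * z3 * t2 *
  t3 - 18 * b ^ 2 * t0 * t2 + 9 * b ^ 2 * t0 * t3 + b * z0 ^ 2 * t3 - b * z0 * z1 * t2 - b * z0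
  * z1 * t3 + 2 * b * z0 * z2 * t1 - b * z0 * z3 * t0 - b * z0 * z3 * t1 - 3 * b * z0 * t2 * t3
  + b * z1 ^ 2 * t2 - b * z1 * z2 * t0 - b * z1 * z2 * t1 + 2 * b * z1 * z3 * t0 - 3 * b * z1 *
  t2 * t3 - 3 * b * z2 * t0 * t3 + 6 * b * z2 * t1 * t3 + 6 * b * z3 * t0 * t2 - 3 * b * z3 * t1
  * t2 + 9 * b * t0 * t1 + z0 ^ 2 * t1 - z0 * z1 * t0 - z0 * z1 * t1 - 3 * z0 * t1 * t2 + z1 ^ 2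
  * t0 + 6 * z1 * t0 * t2 - 3 * z1 * t1 * t2 - 3 * z2 * t0 * t1 + 3 * z2 * t1 ^ 2

def c3 (a b z0 z1 z2 z3 t0 t1 t2 t3 : R) : R :=
  a ^ 3 * b ^ 2 * z0 * z3 + 9 * a ^ 3 * b ^ 2 * z0 + 9 * a ^ 3 * b ^ 2 * t0 + a ^ 3 * b * z0 *
  z1 - 3 * a ^ 3 * b * z0 * z3 - 3 * a ^ 3 * b * z0 * t3 - 3 * a ^ 3 * b * z3 * t0 - 3 * a ^ 3 *
  z0 * z1 - 3 * a ^ 3 * z0 * t1 - 3 * a ^ 3 * z1 * t0 + 2 * a * b ^ 3 * z0 * z2 - 3 * a * b ^ 3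
  * z0 * z3 + 9 * a * b ^ 3 * z0 - 3 * a * b ^ 3 * z2 * z3 - 3 * a * b ^ 3 * z2 * t3 + 6 * a * b
  ^ 3 * z3 * t2 - 18 * a * b ^ 3 * t0 - 3 * a * b ^ 2 * z0 * z1 - 6 * a * b ^ 2 * z0 * z3 - 3 *
  a * b ^ 2 * z0 * t2 + 9 * a * b ^ 2 * z0 * t3 - 3 * a * b ^ 2 * z1 * z2 + 6 * a * b ^ 2 * z1 *
  t2 + a * b ^ 2 * z2 * z3 * t3 - 3 * a * b ^ 2 * z2 * t0 - 3 * a * b ^ 2 * z2 * t1 + 9 * a * b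
  ^ 2 * z2 * t3 - a * b ^ 2 * z3 ^ 2 * t2 + 9 * a * b ^ 2 * z3 * t0 + 9 * a * b ^ 2 * z3 * t2 -
  27 * a * b ^ 2 * t0 - 9 * a * b ^ 2 * t2 * t3 - 6 * a * b * z0 * z1 - 2 * a * b * z0 * z2 * t3
  + a * b * z0 * z3 * t2 + 9 * a * b * z0 * t1 + 9 * a * b * z0 * t3 + a * b * z1 * z2 * t3 - 2
  * a * b * z1 * z3 * t2 + 9 * a * b * z1 * t0 + 9 * a * b * z1 * t2 + a * b * z2 * z3 * t0 + a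
  * b * z2 * z3 * t1 + 9 * a * b * z2 * t1 + 9 * a * b * z3 * t0 - 9 * a * b * t0 * t3 - 9 * a *
  b * t1 * t2 - 27 * a * b * t2 * t3 + a * z0 * z1 * t2 - 2 * a * z0 * z2 * t1 + 9 * a * z0 * t1
  - a * z1 ^ 2 * t2 + a * z1 * z2 * t0 + a * z1 * z2 * t1 + 9 * a * z1 * t0 - 9 * a * t0 * t1 -
  27 * a * t1 * t2

def c4 (a b z0 z1 z2 z3 t0 t1 t2 t3 : R) : R :=
  3 * a ^ 4 * b ^ 2 * z0 - a ^ 4 * b * z0 * z3 - a ^ 4 * z0 * z1 - 9 * a ^ 2 * b ^ 3 * z0 - 9 *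
  a ^ 2 * b ^ 3 * z2 + 9 * a ^ 2 * b ^ 3 * t2 + 3 * a ^ 2 * b ^ 2 * z0 * z3 - 18 * a ^ 2 * b ^ 2
  * z0 + 6 * a ^ 2 * b ^ 2 * z2 * z3 + 27 * a ^ 2 * b ^ 2 * t2 + 3 * a ^ 2 * b * z0 * z1 + 6 * a
  ^ 2 * b * z0 * z3 + 6 * a ^ 2 * b * z1 * z2 - 9 * a ^ 2 * b * z2 * t3 - 9 * a ^ 2 * b * z3 *
  t2 - 9 * a ^ 2 * b * t2 * t3 + 6 * a ^ 2 * z0 * z1 - 9 * a ^ 2 * z1 * t2 - 9 * a ^ 2 * z2 * t1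
  - 9 * a ^ 2 * t1 * t2 + 6 * b ^ 4 * z0 - b ^ 4 * z2 ^ 2 - 2 * b ^ 3 * z0 * z2 + 6 * b ^ 3 * z2
  * t2 + 3 * b ^ 3 * z2 * t3 - 6 * b ^ 3 * z3 * t2 + 3 * b ^ 3 * z3 * t3 - 9 * b ^ 3 * t0 + 3 *
  b ^ 2 * z0 * t2 - 6 * b ^ 2 * z0 * t3 - 6 * b ^ 2 * z1 * t2 + 3 * b ^ 2 * z1 * t3 + b ^ 2 * z2
  ^ 2 * t3 - b ^ 2 * z2 * z3 * t2 - b ^ 2 * z2 * z3 * t3 + 3 * b ^ 2 * z2 * t0 + 3 * b ^ 2 * z2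
  * t1 + b ^ 2 * z3 ^ 2 * t2 + 3 * b ^ 2 * z3 * t0 + 3 * b ^ 2 * z3 * t1 - 9 * b ^ 2 * t2 ^ 2 +
  9 * b ^ 2 * t2 * t3 - 9 * b ^ 2 * t3 ^ 2 + 2 * b * z0 * z2 * t3 - b * z0 * z3 * t2 - 6 * b *
  z0 * t1 - b * z1 * z2 * t2 - b * z1 * z2 * t3 + 2 * b * z1 * z3 * t2 + 3 * b * z1 * t0 + 3 * b
  * z1 * t1 + b * z2 ^ 2 * t1 - b * z2 * z3 * t0 - b * z2 * z3 * t1 - 3 * b * z2 * t2 * t3 + 3 *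
  b * z3 * t2 ^ 2 + 9 * b * t1 * t2 - 18 * b * t1 * t3 - z0 * z1 * t2 + 2 * z0 * z2 * t1 + z1 ^
  2 * t2 - z1 * z2 * t0 - z1 * z2 * t1 + 3 * z1 * t2 ^ 2 - 3 * z2 * t1 * t2 - 9 * t1 ^ 2

def c5 (a b z0 z1 z2 z3 t0 t1 t2 t3 : R) : R :=
  -3 * a ^ 3 * b ^ 2 * z0 + a ^ 3 * b ^ 2 * z2 * z3 + 9 * a ^ 3 * b ^ 2 * z2 + 9 * a ^ 3 * b ^ 2
  * t2 + a ^ 3 * b * z0 * z3 + a ^ 3 * b * z1 * z2 - 3 * a ^ 3 * b * z2 * z3 - 3 * a ^ 3 * b *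
  z2 * t3 - 3 * a ^ 3 * b * z3 * t2 + a ^ 3 * z0 * z1 - 3 * a ^ 3 * z1 * z2 - 3 * a ^ 3 * z1 *
  t2 - 3 * a ^ 3 * z2 * t1 + 3 * a * b ^ 3 * z0 + a * b ^ 3 * z2 ^ 2 - 3 * a * b ^ 3 * z2 * z3 +
  9 * a * b ^ 3 * z2 + 9 * a * b ^ 3 * z3 - 18 * a * b ^ 3 * t2 + 9 * a * b ^ 3 * t3 - 3 * a * b
  ^ 2 * z0 * z3 + 9 * a * b ^ 2 * z0 - 3 * a * b ^ 2 * z1 * z2 + 9 * a * b ^ 2 * z1 - 6 * a * b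
  ^ 2 * z2 * z3 - 3 * a * b ^ 2 * z2 * t2 + 9 * a * b ^ 2 * z2 * t3 + 9 * a * b ^ 2 * z3 * t2 -
  3 * a * b ^ 2 * z3 * t3 + 9 * a * b ^ 2 * t0 + 9 * a * b ^ 2 * t1 - 27 * a * b ^ 2 * t2 - 27 *
  a * b ^ 2 * t3 - 3 * a * b * z0 * z1 - 3 * a * b * z0 * z3 + 6 * a * b * z0 * t3 - 6 * a * b *
  z1 * z2 + 9 * a * b * z1 * t2 - 3 * a * b * z1 * t3 - a * b * z2 ^ 2 * t3 + a * b * z2 * z3 *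
  t2 + 9 * a * b * z2 * t1 + 9 * a * b * z2 * t3 - 3 * a * b * z3 * t0 - 3 * a * b * z3 * t1 + 9
  * a * b * z3 * t2 - 27 * a * b * t1 - 9 * a * b * t2 * t3 - 3 * a * z0 * z1 + 6 * a * z0 * t1
  + a * z1 * z2 * t2 - 3 * a * z1 * t0 - 3 * a * z1 * t1 + 9 * a * z1 * t2 - a * z2 ^ 2 * t1 + 9
  * a * z2 * t1 - 9 * a * t1 * t2

def c6 (a b z0 z1 z2 z3 t0 t1 t2 t3 : R) : R :=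
  3 * a ^ 4 * b ^ 2 * z2 - a ^ 4 * b * z2 * z3 - a ^ 4 * z1 * z2 - 9 * a ^ 2 * b ^ 3 * z2 + 27 *
  a ^ 2 * b ^ 3 + 3 * a ^ 2 * b ^ 2 * z2 * z3 - 18 * a ^ 2 * b ^ 2 * z2 - 18 * a ^ 2 * b ^ 2 *
  z3 + 3 * a ^ 2 * b * z1 * z2 - 18 * a ^ 2 * b * z1 + 6 * a ^ 2 * b * z2 * z3 + 27 * a ^ 2 * b
  * t3 + 6 * a ^ 2 * z1 * z2 + 27 * a ^ 2 * t1 + 6 * b ^ 4 * z2 - b ^ 3 * z2 ^ 2 - b ^ 3 * z3 ^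
  2 - 9 * b ^ 3 * t2 - 9 * b ^ 3 * t3 - 2 * b ^ 2 * z1 * z3 + 3 * b ^ 2 * z2 * t2 - 6 * b ^ 2 *
  z2 * t3 + 3 * b ^ 2 * z3 * t2 + 6 * b ^ 2 * z3 * t3 - 9 * b ^ 2 * t1 - b * z1 ^ 2 + 3 * b * z1
  * t2 + 6 * b * z1 * t3 + b * z2 ^ 2 * t3 - b * z2 * z3 * t2 - 6 * b * z2 * t1 + 6 * b * z3 *
  t1 - z1 * z2 * t2 + 6 * z1 * t1 + z2 ^ 2 * t1

def c7 (a b z0 z1 z2 z3 t0 t1 t2 t3 : R) : R :=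
  -3 * a ^ 3 * b ^ 2 * z2 - 3 * a ^ 3 * b ^ 2 * z3 - 27 * a ^ 3 * b ^ 2 - 3 * a ^ 3 * b * z1 + a
  ^ 3 * b * z2 * z3 + 9 * a ^ 3 * b * z3 + 9 * a ^ 3 * b * t3 + a ^ 3 * z1 * z2 + 9 * a ^ 3 * z1
  + 9 * a ^ 3 * t1 + 3 * a * b ^ 3 * z2 + 3 * a * b ^ 3 * z3 - 27 * a * b ^ 3 + 3 * a * b ^ 2 *
  z1 - 3 * a * b ^ 2 * z2 * z3 + 9 * a * b ^ 2 * z2 + a * b ^ 2 * z3 ^ 2 + 9 * a * b ^ 2 * z3 +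
  9 * a * b ^ 2 * t2 - 18 * a * b ^ 2 * t3 - 3 * a * b * z1 * z2 + 2 * a * b * z1 * z3 + 9 * a *
  b * z1 - 3 * a * b * z2 * z3 + 6 * a * b * z2 * t3 - 3 * a * b * z3 * t2 - 18 * a * b * t1 + a
  * z1 ^ 2 - 3 * a * z1 * z2 - 3 * a * z1 * t2 + 6 * a * z2 * t1

/-- the top coefficient, up to the sign -/
def cT (a b z1 z3 t1 t3 : R) : R :=
  3 * (3 * b ^ 2 - z3 * b - z1) * a ^ 4 +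
    9 * ((b ^ 3 - t3 * b - t1) - (b + 1) * (3 * b ^ 2 - z3 * b - z1)) * a ^ 2 +
    (3 * b ^ 2 - z3 * b - z1) ^ 2

theorem expand (T a b z0 z1 z2 z3 t0 t1 t2 t3 : R) :
    ((3 * (b ^ 3 - t3 * b - t1) + (a * T - b - T ^ 2) * (3 * b ^ 2 - z3 * b - z1)) -
      (3 * ((T ^ 2) ^ 3 - t2 * T ^ 2 - t0) +
        (a * T - b - T ^ 2) * (3 * (T ^ 2) ^ 2 - z2 * T ^ 2 - z0))) *
      ((3 * b ^ 2 - z3 * b - z1) * ((T ^ 2) ^ 3 - t2 * T ^ 2 - t0) -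
        (3 * (T ^ 2) ^ 2 - z2 * T ^ 2 - z0) * (b ^ 3 - t3 * b - t1)) -
      (3 * (b ^ 3 - t3 * b - t1) + (a * T - b - T ^ 2) * (3 * b ^ 2 - z3 * b - z1)) *
      (3 * ((T ^ 2) ^ 3 - t2 * T ^ 2 - t0) +
        (a * T - b - T ^ 2) * (3 * (T ^ 2) ^ 2 - z2 * T ^ 2 - z0)) *
      ((a * T) ^ 2 + b ^ 2 + (T ^ 2) ^ 2 + a * T * b + a * T * T ^ 2 - b * T ^ 2 + 3 * (a * T)) =
    -cT a b z1 z3 t1 t3 * T ^ 8 + c7 a b z0 z1 z2 z3 t0 t1 t2 t3 * T ^ 7 + c6 a b z0 z1 z2 z3 t0 t1 t2 t3 * T ^ 6 + c5 a b z0 z1 z2 z3 t0 t1 t2 t3 * T ^ 5 +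
      c4 a b z0 z1 z2 z3 t0 t1 t2 t3 * T ^ 4 + c3 a b z0 z1 z2 z3 t0 t1 t2 t3 * T ^ 3 + c2 a b z0 z1 z2 z3 t0 t1 t2 t3 * T ^ 2 +
      c1 a b z0 z1 z2 z3 t0 t1 t2 t3 * T + c0 a b z0 z1 z2 z3 t0 t1 t2 t3 := by
  unfold cT c0 c1 c2 c3 c4 c5 c6 c7
  ring

theorem disc_expand (b z1 z3 t1 t3 : R) :
    27 * ((b ^ 3 - t3 * b - t1) - (b + 1) * (3 * b ^ 2 - z3 * b - z1)) ^ 2 -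
      4 * (3 * b ^ 2 - z3 * b - z1) ^ 3 =
    324 * b ^ 5 + (-9 * z3 ^ 2 - 270 * z3 + 108 * t3 + 243) * b ^ 4 +
      (-18 * z1 * z3 - 270 * z1 + 4 * z3 ^ 3 + 54 * z3 ^ 2 - 54 * z3 * t3 - 162 * z3 + 108 * t1 +
      162 * t3) * b ^ 3 +
      (-9 * z1 ^ 2 + 12 * z1 * z3 ^ 2 + 108 * z1 * z3 - 54 * z1 * t3 - 162 * z1 + 27 * z3 ^ 2 -
      54 * z3 * t1 - 54 * z3 * t3 + 162 * t1 + 27 * t3 ^ 2) * b ^ 2 +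
      (12 * z1 ^ 2 * z3 + 54 * z1 ^ 2 + 54 * z1 * z3 - 54 * z1 * t1 - 54 * z1 * t3 - 54 * z3 * t1
      + 54 * t1 * t3) * b +
      (4 * z1 ^ 3 + 27 * z1 ^ 2 - 54 * z1 * t1 + 27 * t1 ^ 2) := by
  ring

end expansion
end Vale.Agent.P297.H160.Z3Irr
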