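import Vale.Agent.P297.H160.Z3IrrA

/-!
General numerical Godeaux surfaces with torsion of order three: the equation of the image of the
surface in the space of `(s, u, v)` is irreducible as soon as the two pencils of binary forms have
no common zero.
-/

set_option linter.unusedSectionVars false
set_option linter.unusedSimpArgs false

open Polynomial

namespace Vale.Agent.P297.H160.Z3Irr

open Vale.Agent.P297.H288

/-- The image of the coordinates `s`, `u`, `v`: `s = σ θ`, `u`, `v = θ ^ 2`. -/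
noncomputable def gens : Fin 3 → ℂ[X][X][X] := ![C (X : ℂ[X][X]) * X, C (C (X : ℂ[X])), X ^ 2]

noncomputable def Psi : MvPolynomial (Fin 3) ℂ →ₐ[ℂ] ℂ[X][X][X] := MvPolynomial.aeval gens

theorem algMap (r : ℂ) : algebraMap ℂ ℂ[X][X][X] r = C (C (C r)) := rfl

section top

variable (P : Par)

noncomputable def low (k : ℂ[X][X] → ℂ[X][X] → ℂ[X][X] → ℂ[X][X] → ℂ[X][X] → ℂ[X][X] → ℂ[X][X] →
    ℂ[X][X] → ℂ[X][X] → ℂ[X][X] → ℂ[X][X]) : ℂ[X][X] :=
  k X (C X) (C (C (P.z 0))) (C (C (P.z 1))) (C (C (P.z 2))) (C (C (P.z 3)))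
    (C (C (P.t 0))) (C (C (P.t 1))) (C (C (P.t 2))) (C (C (P.t 3)))

/-- the top coefficient -/
noncomputable def topM : ℂ[X][X] :=
  cT X (C X) (C (C (P.z 1))) (C (C (P.z 3))) (C (C (P.t 1))) (C (C (P.t 3)))

theorem Psi_hP : Psi (hP P) = -C (topM P) * X ^ 8 + C (low P c7) * X ^ 7 + C (low P c6) * X ^ 6 +
    C (low P c5) * X ^ 5 + C (low P c4) * X ^ 4 + C (low P c3) * X ^ 3 + C (low P c2) * X ^ 2 +
    C (low P c1) * X + C (low P c0) := by
  have h1 : Psi (hP P) = fH P (C (X : ℂ[X][X]) * (X : ℂ[X][X][X])) (C (C (X : ℂ[X]))) (X ^ 2) := by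
    exact (aeval_hP P gens).trans rfl
  have h2 := expand (X : ℂ[X][X][X]) (C (X : ℂ[X][X])) (C (C (X : ℂ[X]))) (C (C (C (P.z 0)))) (C (C (C (P.z 1))))
    (C (C (C (P.z 2)))) (C (C (C (P.z 3)))) (C (C (C (P.t 0)))) (C (C (C (P.t 1))))
    (C (C (C (P.t 2)))) (C (C (C (P.t 3))))
  have h3 : fH P (C (X : ℂ[X][X]) * (X : ℂ[X][X][X])) (C (C (X : ℂ[X]))) (X ^ 2) = _ := h2
  rw [h1, h3]
  have e7 : C (low P c7) = c7 (C (X : ℂ[X][X])) (C (C (X : ℂ[X]))) (C (C (C (P.z 0)))) (C (C (C (P.z 1))))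
      (C (C (C (P.z 2)))) (C (C (C (P.z 3)))) (C (C (C (P.t 0)))) (C (C (C (P.t 1))))
      (C (C (C (P.t 2)))) (C (C (C (P.t 3)))) := by
    simp only [low, c7, map_add, map_sub, map_mul, map_pow, map_neg, map_ofNat]
  have e6 : C (low P c6) = c6 (C (X : ℂ[X][X])) (C (C (X : ℂ[X]))) (C (C (C (P.z 0)))) (C (C (C (P.z 1))))
      (C (C (C (P.z 2)))) (C (C (C (P.z 3)))) (C (C (C (P.t 0)))) (C (C (C (P.t 1))))
      (C (C (C (P.t 2)))) (C (C (C (P.t 3)))) := by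
    simp only [low, c6, map_add, map_sub, map_mul, map_pow, map_neg, map_ofNat]
  have e5 : C (low P c5) = c5 (C (X : ℂ[X][X])) (C (C (X : ℂ[X]))) (C (C (C (P.z 0)))) (C (C (C (P.z 1))))
      (C (C (C (P.z 2)))) (C (C (C (P.z 3)))) (C (C (C (P.t 0)))) (C (C (C (P.t 1))))
      (C (C (C (P.t 2)))) (C (C (C (P.t 3)))) := by
    simp only [low, c5, map_add, map_sub, map_mul, map_pow, map_neg, map_ofNat]
  have e4 : C (low P c4) = c4 (C (X : ℂ[X][X])) (C (C (X : ℂ[X]))) (C (C (C (P.z 0)))) (C (C (C (P.z 1))))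
      (C (C (C (P.z 2)))) (C (C (C (P.z 3)))) (C (C (C (P.t 0)))) (C (C (C (P.t 1))))
      (C (C (C (P.t 2)))) (C (C (C (P.t 3)))) := by
    simp only [low, c4, map_add, map_sub, map_mul, map_pow, map_neg, map_ofNat]
  have e3 : C (low P c3) = c3 (C (X : ℂ[X][X])) (C (C (X : ℂ[X]))) (C (C (C (P.z 0)))) (C (C (C (P.z 1))))
      (C (C (C (P.z 2)))) (C (C (C (P.z 3)))) (C (C (C (P.t 0)))) (C (C (C (P.t 1))))
      (C (C (C (P.t 2)))) (C (C (C (P.t 3)))) := by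
    simp only [low, c3, map_add, map_sub, map_mul, map_pow, map_neg, map_ofNat]
  have e2 : C (low P c2) = c2 (C (X : ℂ[X][X])) (C (C (X : ℂ[X]))) (C (C (C (P.z 0)))) (C (C (C (P.z 1))))
      (C (C (C (P.z 2)))) (C (C (C (P.z 3)))) (C (C (C (P.t 0)))) (C (C (C (P.t 1))))
      (C (C (C (P.t 2)))) (C (C (C (P.t 3)))) := by
    simp only [low, c2, map_add, map_sub, map_mul, map_pow, map_neg, map_ofNat]
  have e1 : C (low P c1) = c1 (C (X : ℂ[X][X])) (C (C (X : ℂ[X]))) (C (C (C (P.z 0)))) (C (C (C (P.z 1))))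
      (C (C (C (P.z 2)))) (C (C (C (P.z 3)))) (C (C (C (P.t 0)))) (C (C (C (P.t 1))))
      (C (C (C (P.t 2)))) (C (C (C (P.t 3)))) := by
    simp only [low, c1, map_add, map_sub, map_mul, map_pow, map_neg, map_ofNat]
  have e0 : C (low P c0) = c0 (C (X : ℂ[X][X])) (C (C (X : ℂ[X]))) (C (C (C (P.z 0)))) (C (C (C (P.z 1))))
      (C (C (C (P.z 2)))) (C (C (C (P.z 3)))) (C (C (C (P.t 0)))) (C (C (C (P.t 1))))
      (C (C (C (P.t 2)))) (C (C (C (P.t 3)))) := by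
    simp only [low, c0, map_add, map_sub, map_mul, map_pow, map_neg, map_ofNat]
  have eT : C (topM P) = cT (C (X : ℂ[X][X])) (C (C (X : ℂ[X]))) (C (C (C (P.z 1))))
      (C (C (C (P.z 3)))) (C (C (C (P.t 1)))) (C (C (C (P.t 3)))) := by
    simp only [topM, cT, map_add, map_sub, map_mul, map_pow, map_neg, map_ofNat, map_one]
  rw [e7, e6, e5, e4, e3, e2, e1, e0, eT]

end top

end Vale.Agent.P297.H160.Z3Irr
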