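import Vale.Agent.P297.H160.Z3IrrB

/-!
Structure of the substitution `s = σ θ`, `v = θ ^ 2`: degree in `s` and parity.
-/

set_option linter.unusedSectionVars false
set_option linter.unusedSimpArgs false

open Polynomial

namespace Vale.Agent.P297.H160.Z3Irr

open Vale.Agent.P297.H288

section general

variable {A : Type*} [CommRing A]

theorem mul_pow_form (a : A[X]) (b : A) (i : ℕ) :
    a * (C b * X) ^ i = a * C (b ^ i) * X ^ i := by
  rw [mul_pow, map_pow, mul_assoc]

theorem comp_neg_coeff (p : A[X]) (n : ℕ) : (p.comp (-X)).coeff n = (-1) ^ n * p.coeff n := by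
  have h : (-X : A[X]) = C (-1) * X := by
    rw [map_neg, map_one, neg_one_mul]
  rw [h, Polynomial.comp_C_mul_X_coeff, mul_comm]

/-- the involution -/
noncomputable def ginv (ρ : A →+* A) : A[X] →+* A[X] :=
  (Polynomial.compRingHom (-X)).comp (Polynomial.mapRingHom ρ)

theorem ginv_coeff (ρ : A →+* A) (r : A[X]) (n : ℕ) :
    (ginv ρ r).coeff n = (-1) ^ n * ρ (r.coeff n) := by
  have h : ginv ρ r = (r.map ρ).comp (-X) := rfl
  rw [h, comp_neg_coeff, Polynomial.coeff_map]

theorem ginv_C (ρ : A →+* A) (a : A) : ginv ρ (C a) = C (ρ a) := by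
  have h : ginv ρ (C a) = ((C a).map ρ).comp (-X) := rfl
  rw [h, Polynomial.map_C, Polynomial.C_comp]

theorem ginv_X (ρ : A →+* A) : ginv ρ X = -X := by
  have h : ginv ρ X = ((X : A[X]).map ρ).comp (-X) := rfl
  rw [h, Polynomial.map_X, Polynomial.X_comp]

theorem ginv_CX (ρ : A →+* A) (a : A) (h : ρ a = -a) : ginv ρ (C a * X) = C a * X := by
  rw [map_mul, ginv_C, ginv_X, h, map_neg, neg_mul_neg]

theorem ginv_sq (ρ : A →+* A) : ginv ρ (X ^ 2) = X ^ 2 := by
  rw [map_pow, ginv_X, neg_sq]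

theorem ginv_parity (ρ : A →+* A) (r : A[X]) (h : ginv ρ r = r) (n : ℕ) :
    ρ (r.coeff n) = (-1) ^ n * r.coeff n := by
  have h1 : (-1) ^ n * ρ (r.coeff n) = r.coeff n := by rw [← ginv_coeff, h]
  calc ρ (r.coeff n) = (-1) ^ n * ((-1) ^ n * ρ (r.coeff n)) := by
        rw [← mul_assoc, ← mul_pow, neg_one_mul, neg_neg, one_pow, one_mul]
    _ = (-1) ^ n * r.coeff n := by rw [h1]

end general

/-- degree in `s` -/
noncomputable def es : MvPolynomial (Fin 3) ℂ ≃ₐ[ℂ] Polynomial (MvPolynomial (Fin 2) ℂ) :=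
  MvPolynomial.finSuccEquiv ℂ 2

noncomputable def psi0 : MvPolynomial (Fin 2) ℂ →+* ℂ[X][X] :=
  (MvPolynomial.aeval ![C (X : ℂ[X]), (X : ℂ[X][X]) ^ 2] : MvPolynomial (Fin 2) ℂ →ₐ[ℂ] ℂ[X][X])

noncomputable def psi : MvPolynomial (Fin 2) ℂ →+* ℂ[X][X][X] :=
  (Polynomial.mapRingHom (C : ℂ[X] →+* ℂ[X][X])).comp psi0

theorem psi_coeff (a : MvPolynomial (Fin 2) ℂ) (n : ℕ) :
    (psi a).coeff n = C ((psi0 a).coeff n) := by
  unfold psi
  rw [RingHom.comp_apply, Polynomial.coe_mapRingHom, Polynomial.coeff_map]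

theorem Psi_eq (F : MvPolynomial (Fin 3) ℂ) :
    Psi F = (es F).eval₂ psi (C (X : ℂ[X][X]) * X) := by
  have h : (Psi : MvPolynomial (Fin 3) ℂ →+* ℂ[X][X][X]) =
      (Polynomial.eval₂RingHom psi (C (X : ℂ[X][X]) * X)).comp (es : MvPolynomial (Fin 3) ℂ →+* _) := by
    refine MvPolynomial.ringHom_ext ?_ ?_
    · intro r
      have h1 : es (MvPolynomial.C r) = C (MvPolynomial.C r) := by
        unfold es
        have := congrArg (fun g => g r) (MvPolynomial.finSuccEquiv_comp_C_eq_C (R := ℂ) 2)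
        have h5 : (MvPolynomial.finSuccEquiv ℂ 2).symm (C (MvPolynomial.C r)) = MvPolynomial.C r :=
          this
        rw [← h5, AlgEquiv.apply_symm_apply]
      have h2 : Psi (MvPolynomial.C r) = C (C (C r)) := by
        unfold Psi
        rw [MvPolynomial.aeval_C]
        rfl
      have h3 : psi (MvPolynomial.C r) = C (C (C r)) := by
        unfold psi psi0
        rw [RingHom.comp_apply]
        have : ((MvPolynomial.aeval ![C (X : ℂ[X]), (X : ℂ[X][X]) ^ 2] :
            MvPolynomial (Fin 2) ℂ →ₐ[ℂ] ℂ[X][X]) : MvPolynomial (Fin 2) ℂ →+* ℂ[X][X])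
              (MvPolynomial.C r) = C (C r) := by
          rw [RingHom.coe_coe, MvPolynomial.aeval_C]
          rfl
        rw [this, Polynomial.coe_mapRingHom, Polynomial.map_C]
      rw [RingHom.comp_apply, RingHom.coe_coe, RingHom.coe_coe, h1, h2]
      rw [Polynomial.coe_eval₂RingHom, Polynomial.eval₂_C, h3]
    · intro i
      rw [RingHom.comp_apply, RingHom.coe_coe, RingHom.coe_coe]
      have h2 : Psi (MvPolynomial.X i) = gens i := by
        unfold Psi
        rw [MvPolynomial.aeval_X]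
      rw [h2]
      refine Fin.cases ?_ (fun j => ?_) i
      · have h1 : es (MvPolynomial.X 0) = X := by
          unfold es
          exact MvPolynomial.finSuccEquiv_X_zero
        rw [h1, Polynomial.coe_eval₂RingHom, Polynomial.eval₂_X]
        rfl
      · have h1 : es (MvPolynomial.X j.succ) = C (MvPolynomial.X j) := by
          unfold es
          exact MvPolynomial.finSuccEquiv_X_succ
        rw [h1, Polynomial.coe_eval₂RingHom, Polynomial.eval₂_C]
        unfold psi psi0
        rw [RingHom.comp_apply, RingHom.coe_coe, MvPolynomial.aeval_X]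
        fin_cases j
        · show _ = Polynomial.mapRingHom _ (C (X : ℂ[X]))
          rw [Polynomial.coe_mapRingHom, Polynomial.map_C]
          rfl
        · show _ = Polynomial.mapRingHom _ ((X : ℂ[X][X]) ^ 2)
          rw [Polynomial.coe_mapRingHom, Polynomial.map_pow, Polynomial.map_X]
          rfl
  exact congrArg (fun g => g F) h

theorem coeff_deg (F : MvPolynomial (Fin 3) ℂ) (n : ℕ) :
    ((Psi F).coeff n).natDegree ≤ (es F).natDegree := by
  rw [Psi_eq, Polynomial.eval₂_eq_sum_range, Polynomial.finsetSum_coeff]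
  refine Polynomial.natDegree_sum_le_of_forall_le _ _ (fun i hi => ?_)
  have hi' : i ≤ (es F).natDegree := Nat.lt_succ_iff.1 (Finset.mem_range.1 hi)
  have h1 : psi ((es F).coeff i) * (C (X : ℂ[X][X]) * X) ^ i =
      psi ((es F).coeff i) * C (X ^ i : ℂ[X][X]) * X ^ i := mul_pow_form _ _ _
  rw [h1, Polynomial.coeff_mul_X_pow']
  split_ifs with h
  · rw [Polynomial.coeff_mul_C, psi_coeff]
    exact (Polynomial.natDegree_C_mul_X_pow_le _ _).trans hi'
  · simp

/-- the involution `σ, θ ↦ -σ, -θ` -/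
noncomputable def inv : ℂ[X][X][X] →+* ℂ[X][X][X] :=
  ginv (Polynomial.compRingHom (-X))

theorem comp_C' (a : ℂ[X]) : Polynomial.compRingHom (-X) (C a) = C a :=
  Polynomial.C_comp

theorem comp_X' : Polynomial.compRingHom (-X) (X : ℂ[X][X]) = -X :=
  Polynomial.X_comp

theorem inv_Psi (F : MvPolynomial (Fin 3) ℂ) : inv (Psi F) = Psi F := by
  have h : inv.comp (Psi : MvPolynomial (Fin 3) ℂ →+* ℂ[X][X][X]) =
      (Psi : MvPolynomial (Fin 3) ℂ →+* ℂ[X][X][X]) := by
    refine MvPolynomial.ringHom_ext ?_ ?_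
    · intro r
      rw [RingHom.comp_apply, RingHom.coe_coe]
      have h2 : Psi (MvPolynomial.C r) = C (C (C r)) := by
        unfold Psi
        rw [MvPolynomial.aeval_C]
        rfl
      rw [h2]
      unfold inv
      rw [ginv_C, comp_C']
    · intro i
      rw [RingHom.comp_apply, RingHom.coe_coe]
      have h2 : Psi (MvPolynomial.X i) = gens i := by
        unfold Psi
        rw [MvPolynomial.aeval_X]
      rw [h2]
      unfold inv
      fin_cases i
      · exact ginv_CX _ _ comp_X'
      · show ginv _ (C (C (X : ℂ[X]))) = C (C (X : ℂ[X]))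
        rw [ginv_C, comp_C']
      · exact ginv_sq _
  exact congrArg (fun g => g F) h

theorem parity (F : MvPolynomial (Fin 3) ℂ) (n : ℕ) :
    ((Psi F).coeff n).comp (-X) = (-1) ^ n * (Psi F).coeff n :=
  ginv_parity _ _ (inv_Psi F) n

end Vale.Agent.P297.H160.Z3Irr
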